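import Vale.Agent.P339.H937.Decode
import Vale.Agent.P339.H283.PTsm
import Vale.Agent.P333.NP.Rep
import Vale.Agent.P333.NP.PTrep
import Vale.Agent.Lib.PCP.PT.Gadget

/-!
P339: projection games with surjective projections; the list of all tuples of constraints.
-/

namespace Vale.Agent.P339.H937

open Finset Vale.Agent.Lib.PCP Vale.Agent.Lib.PCP.HA Vale.Agent.P339.H283
  Vale.Agent.Lib.PolyTime Vale.Agent.P333.NP

section srj

variable {R m : ℕ} [NeZero m] (hRm : R ≤ m)

/-- The surjective projection. -/
def srjMap (π : Fin R → Fin R) (t : Fin m) : Fin (R + m) → Fin m :=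
  Fin.addCases (motive := fun _ => Fin m) (fun a => Fin.castLE hRm (π a)) fun b => b + t

/-- The game with surjective projections. -/
noncomputable def srj (G : PG ℕ ℕ (Fin R) (Fin R)) : PG ℕ ℕ (Fin (R + m)) (Fin m) :=
  G.flatMap fun c => (Finset.univ : Finset (Fin m)).toList.map fun t =>
    (c.1, c.2.1, srjMap hRm c.2.2 t)

lemma srjMap_surj (π : Fin R → Fin R) (t : Fin m) : Function.Surjective (srjMap hRm π t) := by
  intro b
  refine ⟨Fin.natAdd R (b - t), ?_⟩
  unfold srjMap
  rw [Fin.addCases_right, sub_add_cancel]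

lemma srj_surj (G : PG ℕ ℕ (Fin R) (Fin R)) :
    ∀ c ∈ srj hRm G, Function.Surjective c.2.2 := by
  intro c hc
  unfold srj at hc
  rw [List.mem_flatMap] at hc
  obtain ⟨d, _, hc⟩ := hc
  rw [List.mem_map] at hc
  obtain ⟨t, _, rfl⟩ := hc
  exact srjMap_surj hRm _ _

omit [NeZero m] in
lemma ls_srj (G : PG ℕ ℕ (Fin R) (Fin R)) (φ : ℕ × ℕ × (Fin (R + m) → Fin m) → ℝ) :
    ls (srj hRm G) φ = ls G fun c => ∑ t : Fin m, φ (c.1, c.2.1, srjMap hRm c.2.2 t) := by
  unfold srj
  rw [ls_flatMap]
  refine ls_congr fun c _ => ?_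
  rw [ls_map, ls_toList]

omit [NeZero m] in
lemma srj_length (G : PG ℕ ℕ (Fin R) (Fin R)) : ((srj hRm G).length : ℝ) = m * G.length := by
  have h1 := ls_const (srj hRm G) 1
  rw [mul_one] at h1
  rw [← h1, ls_srj]
  simp only [Finset.sum_const, Finset.card_univ, Fintype.card_fin, nsmul_eq_mul, mul_one]
  rw [ls_const, mul_comm]

lemma srj_ne {G : PG ℕ ℕ (Fin R) (Fin R)} (h : G ≠ []) : srj hRm G ≠ [] := by
  intro h1
  have h2 := srj_length hRm G
  rw [h1] at h2
  have h3 : (0 : ℝ) < G.length := by
    have := List.length_pos_iff.2 h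
    exact_mod_cast this
  have h4 : (0 : ℝ) < m := by exact_mod_cast Nat.pos_of_ne_zero (NeZero.ne m)
  have h5 : (0 : ℝ) < m * G.length := by positivity
  rw [← h2] at h5
  simp at h5

omit [NeZero m] in
/-- Completeness of the game with surjective projections. -/
lemma srj_complete {G : PG ℕ ℕ (Fin R) (Fin R)} {a b : ℕ → Fin R}
    (hab : ∀ c ∈ G, c.2.2 (a c.1) = b c.2.1) :
    ∀ c ∈ srj hRm G, c.2.2 (Fin.castAdd m (a c.1)) = Fin.castLE hRm (b c.2.1) := by
  intro c hc
  unfold srj at hc
  rw [List.mem_flatMap] at hc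
  obtain ⟨d, hd, hc⟩ := hc
  rw [List.mem_map] at hc
  obtain ⟨t, _, rfl⟩ := hc
  dsimp only
  unfold srjMap
  rw [Fin.addCases_left, hab d hd]

/-- Soundness of the game with surjective projections. -/
lemma srj_sound [NeZero R] {G : PG ℕ ℕ (Fin R) (Fin R)} {η : ℝ} (hG : G.Sound η) :
    (srj hRm G).Sound (η + 1 / m) := by
  intro A B
  have hm : (0 : ℝ) < m := by exact_mod_cast Nat.pos_of_ne_zero (NeZero.ne m)
  set a : ℕ → Fin R := fun u => Fin.addCases (motive := fun _ => Fin R) (fun a => a)
    (fun _ => 0) (A u) with ha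
  set b : ℕ → Fin R := fun v => if h : (B v : ℕ) < R then ⟨B v, h⟩ else 0 with hb
  have h1 := hG a b
  rw [sat_eq] at h1 ⊢
  rw [ls_srj, srj_length]
  have h2 : ∀ c ∈ G, ∑ t : Fin m, (if srjMap hRm c.2.2 t (A c.1) = B c.2.1 then (1 : ℝ) else 0) ≤
      m * (if c.2.2 (a c.1) = b c.2.1 then 1 else 0) + 1 := by
    intro c _
    rcases hx : (Fin.addCases (motive := fun _ => Fin R ⊕ Fin m) Sum.inl Sum.inr (A c.1) :
      Fin R ⊕ Fin m) with x | x
    · have hA : A c.1 = Fin.castAdd m x := by
        generalize A c.1 = z at hx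
        induction z using Fin.addCases with
        | left i => rw [Fin.addCases_left] at hx; rw [Sum.inl.inj hx]
        | right i => rw [Fin.addCases_right] at hx; exact absurd hx (by simp)
      have hax : a c.1 = x := by
        rw [ha]
        dsimp only
        rw [hA, Fin.addCases_left]
      rw [hA, hax]
      unfold srjMap
      simp only [Fin.addCases_left]
      by_cases h : Fin.castLE hRm (c.2.2 x) = B c.2.1
      · have hbv : c.2.2 x = b c.2.1 := by
          rw [hb]
          dsimp only
          have h3 : (B c.2.1 : ℕ) < R := by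
            rw [← h]
            exact (c.2.2 x).2
          rw [dif_pos h3]
          apply Fin.ext
          dsimp only
          rw [← h]
          rfl
        rw [if_pos hbv, if_pos h]
        simp
      · rw [if_neg h, Finset.sum_const_zero]
        split_ifs <;> positivity
    · have hA : A c.1 = Fin.natAdd R x := by
        generalize A c.1 = z at hx
        induction z using Fin.addCases with
        | left i => rw [Fin.addCases_left] at hx; exact absurd hx (by simp)
        | right i => rw [Fin.addCases_right] at hx; rw [Sum.inr.inj hx]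
      rw [hA]
      unfold srjMap
      simp only [Fin.addCases_right]
      have h3 : ∀ t : Fin m, (if x + t = B c.2.1 then (1 : ℝ) else 0) =
          if t = B c.2.1 - x then 1 else 0 := by
        intro t
        have : x + t = B c.2.1 ↔ t = B c.2.1 - x := by
          rw [eq_sub_iff_add_eq, add_comm]
        by_cases h : x + t = B c.2.1
        · rw [if_pos h, if_pos (this.1 h)]
        · rw [if_neg h, if_neg fun h' => h (this.2 h')]
      simp only [h3]
      rw [Finset.sum_ite_eq', if_pos (Finset.mem_univ _)]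
      have : (0 : ℝ) ≤ m * (if c.2.2 (a c.1) = b c.2.1 then 1 else 0) := by
        split_ifs <;> positivity
      linarith
  refine (ls_mono h2).trans ?_
  rw [ls_add, ls_mul, ls_const]
  have h4 : (η + 1 / m) * (m * G.length) = m * (η * G.length) + G.length * 1 := by
    field_simp
  rw [h4]
  have h5 := mul_le_mul_of_nonneg_left h1 hm.le
  linarith

variable {A : Set Word} {α : Type*} [Enc α]

omit [NeZero m] in
lemma PT_srj {G : α → PG ℕ ℕ (Fin R) (Fin R)} (hG : PT A G) : PT A (fun a => srj hRm (G a)) := by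
  unfold srj
  have hc : PT A (fun p : α × (ℕ × ℕ × (Fin R → Fin R)) => p.2) := PT.snd'
  exact PT.flatMap (f := fun (_ : α) (c : ℕ × ℕ × (Fin R → Fin R)) =>
    (Finset.univ : Finset (Fin m)).toList.map fun t =>
      ((c.1, c.2.1, srjMap hRm c.2.2 t) : ℕ × ℕ × (Fin (R + m) → Fin m))) hG
    (PT.mapConst _ fun t _ => hc.fst.pair (hc.snd.fst.pair
      (PT.finComp (fun π : Fin R → Fin R => srjMap hRm π t) hc.snd.snd)))

end srj

/-! ### Tuples -/

section tup

variable {T : Type}

/-- The list of all tuples. -/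
def tup (E : List T) : (k : ℕ) → List (Fin k → T)
  | 0 => [fun i => i.elim0]
  | k + 1 => E.flatMap fun c => (tup E k).map fun f => Fin.cons c f

lemma ls_tup (E : List T) (k : ℕ) (φ : (Fin k → T) → ℝ) :
    ls (tup E k) φ = ∑ f : Fin k → Fin E.length, φ fun j => E.get (f j) := by
  induction k with
  | zero =>
    unfold tup
    rw [ls_cons, ls_nil, add_zero, Fintype.sum_unique]
    congr 1
    funext i
    exact i.elim0
  | succ k ih =>
    unfold tup
    rw [ls_flatMap]
    have h1 : ∀ c, ls ((tup E k).map fun f => (Fin.cons c f : Fin (k + 1) → T)) φ =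
        ∑ f : Fin k → Fin E.length, φ (Fin.cons c fun j => E.get (f j)) := by
      intro c
      rw [ls_map, ih]
    simp only [h1]
    have h2 : ∀ ψ : T → ℝ, ls E ψ = ∑ i : Fin E.length, ψ (E.get i) := by
      intro ψ
      unfold ls
      have h3 : E.map ψ = List.ofFn fun i : Fin E.length => ψ (E.get i) := by
        conv_lhs => rw [← List.ofFn_get E]
        rw [List.map_ofFn]
        rfl
      rw [h3, List.sum_ofFn]
    rw [h2]
    rw [← (Fin.consEquiv fun _ : Fin (k + 1) => Fin E.length).sum_comp, Fintype.sum_prod_type]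
    refine Finset.sum_congr rfl fun i _ => Finset.sum_congr rfl fun f _ => ?_
    congr 1
    funext j
    refine Fin.cases ?_ (fun j => ?_) j
    · rfl
    · rfl

lemma mem_tup {E : List T} {k : ℕ} {f : Fin k → T} (hf : f ∈ tup E k) (j : Fin k) : f j ∈ E := by
  induction k with
  | zero => exact j.elim0
  | succ k ih =>
    unfold tup at hf
    rw [List.mem_flatMap] at hf
    obtain ⟨c, hc, hf⟩ := hf
    rw [List.mem_map] at hf
    obtain ⟨g, hg, rfl⟩ := hf
    refine Fin.cases ?_ (fun j => ?_) j
    · exact hc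
    · exact ih hg j

variable {A : Set Word} {α : Type*} [Enc α] [Enc T]

lemma PT_tup {E : α → List T} (hE : PT A E) (k : ℕ) : PT A (fun a => tup (E a) k) := by
  induction k with
  | zero =>
    unfold tup
    exact PT.const _
  | succ k ih =>
    unfold tup
    refine PT.flatMap (f := fun (a : α) (c : T) =>
      (tup (E a) k).map fun f => (Fin.cons c f : Fin (k + 1) → T)) hE ?_
    refine PT.map (f := fun (p : α × T) (f : Fin k → T) => (Fin.cons p.2 f : Fin (k + 1) → T))
      (ih.comp PT.fst') (PT.funMk fun j => ?_)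
    have h1 : PT A (fun p : (α × T) × (Fin k → T) => p.1.2) := PT.fst'.snd
    have h2 : PT A (fun p : (α × T) × (Fin k → T) => p.2) := PT.snd'
    refine Fin.cases ?_ (fun j => ?_) j
    · exact h1
    · exact PT.funAt h2 j

end tup

end Vale.Agent.P339.H937
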