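import Vale.Agent.P339.H937.Inner

/-!
P339: a block which factors through its projection is hidden among the other blocks.
-/

namespace Vale.Agent.P339.H937

open Finset Vale.Agent.Lib.PCP Vale.Agent.Lib.PCP.HA Vale.Agent.P339.H283

variable {nA nB k l : ℕ}

/-- Replace the block `i`. -/
def upd (i : Fin k) (m : Fin nA → K l) (M : Fin k × Fin nA → K l) : Fin k × Fin nA → K l :=
  fun p => if p.1 = i then m p.2 else M p

/-- The block `i`. -/
def blk (i : Fin k) (M : Fin k × Fin nA → K l) : Fin nA → K l := fun a => M (i, a)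

lemma blk_upd (i : Fin k) (m : Fin nA → K l) (M : Fin k × Fin nA → K l) :
    blk i (upd i m M) = m := by
  funext a
  unfold blk upd
  simp

lemma blk_upd_ne {i j : Fin k} (h : j ≠ i) (m : Fin nA → K l) (M : Fin k × Fin nA → K l) :
    blk j (upd i m M) = blk j M := by
  funext a
  unfold blk upd
  simp [h]

lemma upd_upd (i : Fin k) (m m' : Fin nA → K l) (M : Fin k × Fin nA → K l) :
    upd i m (upd i m' M) = upd i m M := by
  funext p
  unfold upd
  by_cases h : p.1 = i <;> simp [h]

lemma upd_blk (i : Fin k) (M : Fin k × Fin nA → K l) : upd i (blk i M) M = M := by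
  funext p
  unfold upd blk
  by_cases h : p.1 = i
  · rw [if_pos h, ← h]
  · rw [if_neg h]

/-- Exchange of the block `i` with a separate block. -/
def swapE (i : Fin k) : (Fin k × Fin nA → K l) × (Fin nA → K l) ≃
    (Fin k × Fin nA → K l) × (Fin nA → K l) where
  toFun z := (upd i z.2 z.1, blk i z.1)
  invFun z := (upd i z.2 z.1, blk i z.1)
  left_inv z := by
    simp only [upd_upd, blk_upd, upd_blk]
  right_inv z := by
    simp only [upd_upd, blk_upd, upd_blk]

/-- Resampling of a block. -/
lemma avg_resample (i : Fin k) (Φ : (Fin k × Fin nA → K l) → ℝ) :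
    avg Φ = avg fun M => avg fun m => Φ (upd i m M) := by
  have h1 := avg_prod_comm fun z : (Fin k × Fin nA → K l) × (Fin nA → K l) => Φ z.1
  have h2 := avg_prod_comm fun z : (Fin k × Fin nA → K l) × (Fin nA → K l) => Φ (upd i z.2 z.1)
  have h3 := avg_equiv (swapE (k := k) (nA := nA) (l := l) i) fun z => Φ z.1
  have h4 : (avg fun M : Fin k × Fin nA → K l => avg fun _ : Fin nA → K l => Φ M) = avg Φ :=
    avg_congr fun M => avg_const _
  rw [← h4, ← h2]
  rw [h1] at h3
  exact h3.symm

/-- The function factors through the projection. -/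
def Fac (π : Fin nA → Fin nB) (m : Fin nA → K l) : Prop := ∃ N : Fin nB → K l, m = fun a => N (π a)

/-- The probability of factoring. -/
noncomputable def rho (nA nB l : ℕ) : ℝ := (2 ^ l) ^ nB / (2 ^ l) ^ nA

lemma rho_pos (nA nB l : ℕ) : 0 < rho nA nB l := by unfold rho; positivity

open Classical in
/-- The average over the functions which factor. -/
lemma avg_fac {π : Fin nA → Fin nB} (hπ : Function.Surjective π) (Φ : (Fin nA → K l) → ℝ) :
    (avg fun m : Fin nA → K l => Φ m * ind (Fac π m)) =
      rho nA nB l * avg fun N : Fin nB → K l => Φ fun a => N (π a) := by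
  have hinj : Function.Injective fun (N : Fin nB → K l) (a : Fin nA) => N (π a) := by
    intro N N' h
    funext b
    obtain ⟨a, rfl⟩ := hπ b
    exact congrFun h a
  have h1 : ∑ m : Fin nA → K l, Φ m * ind (Fac π m) =
      ∑ N : Fin nB → K l, Φ fun a => N (π a) := by
    have e1 : ∀ m : Fin nA → K l, Φ m * ind (Fac π m) =
        if m ∈ (Finset.univ : Finset (Fin nB → K l)).image (fun N a => N (π a)) then Φ m
          else 0 := by
      intro m
      have e2 : Fac π m ↔ m ∈ (Finset.univ : Finset (Fin nB → K l)).image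
          (fun N a => N (π a)) := by
        unfold Fac
        simp [eq_comm]
      by_cases h : Fac π m
      · rw [ind_true h, if_pos (e2.1 h), mul_one]
      · rw [ind_false h, if_neg (fun h' => h (e2.2 h')), mul_zero]
    simp only [e1]
    rw [Finset.sum_ite_mem, Finset.univ_inter, Finset.sum_image]
    intro N _ N' _ h
    exact hinj h
  unfold avg
  rw [h1, card_V, card_V, Fintype.card_fin, Fintype.card_fin]
  unfold rho
  have h2 : ((2 : ℝ) ^ l) ^ nA ≠ 0 := by positivity
  have h3 : ((2 : ℝ) ^ l) ^ nB ≠ 0 := by positivity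
  field_simp

open Classical in
lemma avg_ind_fac {π : Fin nA → Fin nB} (hπ : Function.Surjective π) :
    (avg fun m : Fin nA → K l => ind (Fac π m)) = rho nA nB l := by
  have h := avg_fac (l := l) hπ fun _ => (1 : ℝ)
  simp only [one_mul] at h
  rw [h, avg_const, mul_one]

/-- The block `i` is replaced by a function which factors. -/
def plant (i : Fin k) (π : Fin nA → Fin nB) (N : Fin nB → K l) (M : Fin k × Fin nA → K l) :
    Fin k × Fin nA → K l := upd i (fun a => N (π a)) M

open Classical in
/-- The density of the planted distribution. -/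
noncomputable def dens (i : Fin k) (π : Fin nA → Fin nB) (M : Fin k × Fin nA → K l) : ℝ :=
  ind (Fac π (blk i M)) / rho nA nB l - 1

open Classical in
lemma avg_plant {π : Fin nA → Fin nB} (hπ : Function.Surjective π) (i : Fin k)
    (Ψ : (Fin k × Fin nA → K l) → ℝ) :
    (avg fun M : Fin k × Fin nA → K l => avg fun N : Fin nB → K l => Ψ (plant i π N M)) -
      avg Ψ = avg fun M => Ψ M * dens i π M := by
  have hρ := rho_pos nA nB l
  have h1 : (avg fun M : Fin k × Fin nA → K l => Ψ M * ind (Fac π (blk i M))) =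
      rho nA nB l * avg fun M : Fin k × Fin nA → K l => avg fun N : Fin nB → K l =>
        Ψ (plant i π N M) := by
    rw [avg_resample i, ← avg_const_mul]
    refine avg_congr fun M => ?_
    simp only [blk_upd]
    rw [avg_fac hπ fun m => Ψ (upd i m M)]
    rfl
  have h2 : ∀ M : Fin k × Fin nA → K l, Ψ M * dens i π M =
      (1 / rho nA nB l) * (Ψ M * ind (Fac π (blk i M))) - Ψ M := by
    intro M
    unfold dens
    field_simp
  simp only [h2]
  rw [avg_sub, avg_const_mul, h1]
  field_simp

open Classical in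
lemma avg_dens {π : Fin nA → Fin nB} (hπ : Function.Surjective π) :
    (avg fun m : Fin nA → K l => ind (Fac π m) / rho nA nB l - 1) = 0 := by
  have hρ := rho_pos nA nB l
  rw [avg_sub, avg_const]
  have : (avg fun m : Fin nA → K l => ind (Fac π m) / rho nA nB l) =
      (1 / rho nA nB l) * avg fun m : Fin nA → K l => ind (Fac π m) := by
    rw [← avg_const_mul]
    exact avg_congr fun m => by ring
  rw [this, avg_ind_fac hπ]
  field_simp
  ring

lemma avg_dens_mul {i j : Fin k} (hij : i ≠ j) {π π' : Fin nA → Fin nB}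
    (hπ : Function.Surjective π) :
    (avg fun M : Fin k × Fin nA → K l => dens i π M * dens j π' M) = 0 := by
  classical
  rw [avg_resample i]
  unfold dens
  simp only [blk_upd, blk_upd_ne hij.symm]
  have h1 : ∀ M : Fin k × Fin nA → K l, (avg fun m : Fin nA → K l =>
      (ind (Fac π m) / rho nA nB l - 1) * (ind (Fac π' (blk j M)) / rho nA nB l - 1)) = 0 := by
    intro M
    rw [avg_mul_const, avg_dens hπ, zero_mul]
  simp only [h1]
  exact avg_zero'

lemma avg_dens_sq (i : Fin k) {π : Fin nA → Fin nB} (hπ : Function.Surjective π) :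
    (avg fun M : Fin k × Fin nA → K l => dens i π M ^ 2) ≤ 1 / rho nA nB l := by
  classical
  have hρ := rho_pos nA nB l
  have h0 : ∀ M : Fin k × Fin nA → K l, dens i π M ^ 2 =
      (1 / rho nA nB l ^ 2 - 2 / rho nA nB l) * ind (Fac π (blk i M)) + 1 := by
    intro M
    unfold dens
    have := ind_sq (Fac π (blk i M))
    field_simp
    rw [show (ind (Fac π (blk i M)) - rho nA nB l) ^ 2 = ind (Fac π (blk i M)) ^ 2 -
      2 * ind (Fac π (blk i M)) * rho nA nB l + rho nA nB l ^ 2 by ring, this]
    ring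
  simp only [h0]
  rw [avg_add, avg_const, avg_const_mul]
  have h1 : (avg fun M : Fin k × Fin nA → K l => ind (Fac π (blk i M))) = rho nA nB l := by
    rw [avg_resample i]
    simp only [blk_upd]
    rw [avg_ind_fac hπ, avg_const]
  rw [h1]
  have h2 : (1 / rho nA nB l ^ 2 - 2 / rho nA nB l) * rho nA nB l + 1 =
      1 / rho nA nB l - 1 := by
    field_simp
    ring
  rw [h2]
  linarith

/-- **Closeness.** -/
theorem closeness (π : Fin k → Fin nA → Fin nB) (hπ : ∀ i, Function.Surjective (π i))
    (J : Finset (Fin k)) (Ψ : (Fin k × Fin nA → K l) → ℝ) (hΨ : ∀ M, |Ψ M| ≤ 1) :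
    |∑ i ∈ J, ((avg fun M : Fin k × Fin nA → K l => avg fun N : Fin nB → K l =>
      Ψ (plant i (π i) N M)) - avg Ψ)| ≤ Real.sqrt (J.card / rho nA nB l) := by
  classical
  have h1 : ∑ i ∈ J, ((avg fun M : Fin k × Fin nA → K l => avg fun N : Fin nB → K l =>
      Ψ (plant i (π i) N M)) - avg Ψ) = avg fun M => Ψ M * ∑ i ∈ J, dens i (π i) M := by
    have e1 : ∀ M : Fin k × Fin nA → K l, Ψ M * ∑ i ∈ J, dens i (π i) M =
        ∑ i ∈ J, Ψ M * dens i (π i) M := fun M => Finset.mul_sum _ _ _
    rw [avg_congr e1, avg_sum]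
    exact Finset.sum_congr rfl fun i _ => avg_plant (hπ i) i Ψ
  rw [h1]
  refine Real.abs_le_sqrt ?_
  refine (avg_sq_le _).trans ?_
  have h2 : (avg fun M : Fin k × Fin nA → K l => (Ψ M * ∑ i ∈ J, dens i (π i) M) ^ 2) ≤
      avg fun M : Fin k × Fin nA → K l => (∑ i ∈ J, dens i (π i) M) ^ 2 := by
    refine avg_mono fun M => ?_
    rw [mul_pow]
    refine mul_le_of_le_one_left (sq_nonneg _) ?_
    rw [← sq_abs]
    exact pow_le_one₀ (abs_nonneg _) (hΨ M)
  refine h2.trans ?_
  have h3 : ∀ M : Fin k × Fin nA → K l, (∑ i ∈ J, dens i (π i) M) ^ 2 =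
      ∑ i ∈ J, ∑ j ∈ J, dens i (π i) M * dens j (π j) M := by
    intro M
    rw [sq, Finset.sum_mul_sum]
  rw [avg_congr h3]
  simp only [avg_sum]
  have h4 : ∀ i ∈ J, ∑ j ∈ J, (avg fun M : Fin k × Fin nA → K l =>
      dens i (π i) M * dens j (π j) M) ≤ 1 / rho nA nB l := by
    intro i hi
    rw [Finset.sum_eq_single i]
    · refine le_trans (le_of_eq ?_) (avg_dens_sq i (hπ i))
      exact avg_congr fun M => (sq _).symm
    · intro j _ hj
      exact avg_dens_mul (Ne.symm hj) (hπ i)
    · intro h
      exact absurd hi h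
  refine (Finset.sum_le_sum h4).trans (le_of_eq ?_)
  rw [Finset.sum_const, nsmul_eq_mul]
  ring

end Vale.Agent.P339.H937
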