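import Vale.Agent.P339.H937.Outer

/-!
P339: the fraction of the tuples with a decodable affine function is small.
-/

namespace Vale.Agent.P339.H937

open Finset Vale.Agent.Lib.PCP Vale.Agent.Lib.PCP.HA Vale.Agent.P339.H283

section

variable {nA nB k l : ℕ} {X : Type}

variable {sU : ℕ → (Fin nA → K l) → X} {sV : ℕ → (Fin nB → K l) → X} {F : (Fin k → X) → K l}

/-- The probability that the random labels of block `i` match. -/
noncomputable def win (sU : ℕ → (Fin nA → K l) → X) (sV : ℕ → (Fin nB → K l) → X)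
    (F : (Fin k → X) → K l) (e : Fin k → Cs nA nB) (i : Fin k) (s : K l) : ℝ :=
  ∑ a, dcd (GU sU sV F e i (e i).1) s (fun a => (i, a)) a *
    dcd (GV sU sV F e i (e i).2.1) s (fun b : Fin nB => Sum.inr b) ((e i).2.2 a)

lemma win_nonneg (e : Fin k → Cs nA nB) (i : Fin k) (s : K l) : 0 ≤ win sU sV F e i s :=
  Finset.sum_nonneg fun _ _ => mul_nonneg (dcd_nonneg _ _ _ _) (dcd_nonneg _ _ _ _)

/-- The agreement with an affine function is seen in the coefficients. -/
lemma sq_le_avg_cf_sq {I : Type} [Fintype I] [DecidableEq I] (G : (I → K l) → K l)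
    (h : (I → ZMod 2) × K l) {c : ℝ} (hc : 1 / 2 ^ l ≤ c) (hmu : c ≤ mu G h) :
    (c - 1 / 2 ^ l) ^ 2 ≤ avg fun s : K l => cf G s h.1 ^ 2 := by
  have h1 := ft_bts (u := fun _ => (1 : ℝ)) (G := G) h.1 h.2
  have h2 : agr (fun _ => (1 : ℝ)) G h.1 h.2 = mu G h := by
    unfold agr mu aff
    exact avg_congr fun M => one_mul _
  rw [h2, avg_const] at h1
  have h3 : (mu G h - 1 / 2 ^ l) ^ 2 ≤ avg fun s : K l => cf G s h.1 ^ 2 := by
    rw [← h1]
    unfold ft
    refine (avg_sq_le _).trans (le_of_eq (avg_congr fun s => ?_))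
    rw [mul_pow, sgn_sq, mul_one]
    rfl
  refine le_trans ?_ h3
  exact pow_le_pow_left₀ (by linarith) (by linarith) 2

/-- **A decodable affine function gives matching labels.** -/
theorem sum_win_ge {e : Fin k → Cs nA nB} (he : ∀ i, Function.Surjective (e i).2.2)
    (h : (Fin k × Fin nA → ZMod 2) × K l) {c c1 γ : ℝ} {K0 : ℕ} (hc : 1 / 2 ^ l ≤ c)
    (hc1 : 0 < c1) (hk : 0 < k) (hγ : 0 ≤ γ) (hmu : c ≤ mu (GG sU sV F e) h)
    (hodd : ∀ j, Odd (sup fun a => h.1 (j, a)).card)
    (hJ : c1 * k ≤ ((univ.filter fun j : Fin k => (sup fun a => h.1 (j, a)).card ≤ K0).card : ℝ))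
    (hγc : γ + 2 * rho nA nB l + Real.sqrt (1 / (c1 * k * rho nA nB l)) ≤ (c - 1 / 2 ^ l) ^ 2) :
    c1 * k * γ ^ 2 / K0 ≤ ∑ i, avg fun s : K l => win sU sV F e i s := by
  have hρ := rho_pos nA nB l
  have hkr : (0 : ℝ) < k := by exact_mod_cast hk
  set J := univ.filter fun j : Fin k => (sup fun a => h.1 (j, a)).card ≤ K0 with hJd
  have hJ0 : (0 : ℝ) < J.card := lt_of_lt_of_le (by positivity) hJ
  set x : Fin k → K l → ℝ := fun i s => cf (GU sU sV F e i (e i).1) s h.1 *
    cf (GV sU sV F e i (e i).2.1) s (psh i (e i).2.2 h.1) with hx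
  -- the sum of the products
  have h1 : (J.card : ℝ) * γ ≤ avg fun s : K l => ∑ i ∈ J, x i s := by
    have e1 := avg_mono fun s : K l => sum_cf_mul (sU := sU) (sV := sV) (F := F) he s h.1 J
    refine le_trans ?_ e1
    rw [avg_sub, avg_const, avg_const_mul, avg_sub, avg_const]
    have e2 := sq_le_avg_cf_sq (GG sU sV F e) h hc hmu
    have e3 : Real.sqrt (J.card / rho nA nB l) ≤
        J.card * Real.sqrt (1 / (c1 * k * rho nA nB l)) := by
      rw [← Real.sqrt_sq hJ0.le, ← Real.sqrt_mul (sq_nonneg _)]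
      rw [Real.sqrt_sq hJ0.le]
      refine Real.sqrt_le_sqrt ?_
      have e4 : (J.card : ℝ) ^ 2 * (1 / (c1 * k * rho nA nB l)) =
          J.card / rho nA nB l * (J.card / (c1 * k)) := by
        field_simp
      rw [e4]
      refine le_mul_of_one_le_right (by positivity) ?_
      rw [le_div_iff₀ (by positivity), one_mul]
      exact hJ
    have e5 : (J.card : ℝ) * (γ + 2 * rho nA nB l +
        Real.sqrt (1 / (c1 * k * rho nA nB l))) ≤ J.card * avg fun s : K l =>
          cf (GG sU sV F e) s h.1 ^ 2 :=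
      mul_le_mul_of_nonneg_left (hγc.trans e2) hJ0.le
    nlinarith
  -- Cauchy-Schwarz
  have h2 : (J.card : ℝ) * γ ^ 2 ≤ avg fun s : K l => ∑ i ∈ J, x i s ^ 2 := by
    have e1 : (J.card * γ) ^ 2 ≤ (avg fun s : K l => ∑ i ∈ J, x i s) ^ 2 :=
      pow_le_pow_left₀ (by positivity) h1 2
    have e2 := avg_sq_le fun s : K l => ∑ i ∈ J, x i s
    have e3 : (avg fun s : K l => (∑ i ∈ J, x i s) ^ 2) ≤
        avg fun s : K l => (J.card : ℝ) * ∑ i ∈ J, x i s ^ 2 :=
      avg_mono fun s => sq_sum_le_card_mul_sum_sq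
    rw [avg_const_mul] at e3
    have e4 : (J.card : ℝ) * (J.card * γ ^ 2) ≤
        J.card * avg fun s : K l => ∑ i ∈ J, x i s ^ 2 := by
      nlinarith
    exact le_of_mul_le_mul_left e4 hJ0
  -- the labels match
  have h3 : ∀ i ∈ J, ∀ s : K l, x i s ^ 2 / K0 ≤ win sU sV F e i s := by
    intro i hi s
    have e1 := dcd_mul_ge (GU sU sV F e i (e i).1) (GV sU sV F e i (e i).2.1) i (e i).2.2 s h.1
      (K0 := K0) (Finset.mem_filter.1 hi).2 (hodd i)
    rw [hx]
    dsimp only
    rw [mul_pow]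
    exact e1
  have h4 : c1 * k * γ ^ 2 / K0 ≤ (avg fun s : K l => ∑ i ∈ J, x i s ^ 2) / K0 := by
    refine div_le_div_of_nonneg_right ?_ (Nat.cast_nonneg _)
    exact (mul_le_mul_of_nonneg_right hJ (sq_nonneg _)).trans h2
  refine h4.trans ?_
  have h5 : (avg fun s : K l => ∑ i ∈ J, x i s ^ 2) / K0 =
      ∑ i ∈ J, avg fun s : K l => x i s ^ 2 / K0 := by
    rw [avg_sum, Finset.sum_div]
    refine Finset.sum_congr rfl fun i _ => ?_
    simp only [div_eq_mul_inv]
    rw [avg_mul_const]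
  rw [h5]
  refine (Finset.sum_le_sum fun i hi => avg_mono fun s => h3 i hi s).trans ?_
  exact Finset.sum_le_sum_of_subset_of_nonneg (Finset.subset_univ _) fun i _ _ =>
    avg_nonneg fun s => win_nonneg _ _ _

/-! ### The tuples of constraints -/

/-- Resampling of a coordinate. -/
def updE {ι T : Type} [DecidableEq ι] (i : ι) : (ι → T) × T ≃ (ι → T) × T where
  toFun z := (Function.update z.1 i z.2, z.1 i)
  invFun z := (Function.update z.1 i z.2, z.1 i)
  left_inv z := by simp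
  right_inv z := by simp

lemma avg_update {ι T : Type} [Fintype ι] [DecidableEq ι] [Fintype T] [Nonempty T] (i : ι)
    (Φ : (ι → T) → ℝ) : avg Φ = avg fun f => avg fun c => Φ (Function.update f i c) := by
  have h1 := avg_prod_comm fun z : (ι → T) × T => Φ z.1
  have h2 := avg_prod_comm fun z : (ι → T) × T => Φ (Function.update z.1 i z.2)
  have h3 := avg_equiv (updE (T := T) i) fun z => Φ z.1
  have h4 : (avg fun f : ι → T => avg fun _ : T => Φ f) = avg Φ :=
    avg_congr fun f => avg_const _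
  rw [← h4, ← h2]
  rw [h1] at h3
  exact h3.symm

/-- The tuple of constraints with the given numbers. -/
def tpl (E : PG ℕ ℕ (Fin nA) (Fin nB)) (f : Fin k → Fin E.length) : Fin k → Cs nA nB :=
  fun j => E.get (f j)

lemma tpl_update (E : PG ℕ ℕ (Fin nA) (Fin nB)) (f : Fin k → Fin E.length) (i : Fin k)
    (c : Fin E.length) :
    tpl E (Function.update f i c) = Function.update (tpl E f) i (E.get c) := by
  funext j
  unfold tpl
  by_cases h : j = i
  · subst h
    simp
  · rw [Function.update_of_ne h, Function.update_of_ne h]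

lemma avg_win_le (E : PG ℕ ℕ (Fin nA) (Fin nB)) (hE : E ≠ []) {η : ℝ} (hs : E.Sound η)
    [NeZero nA] [NeZero nB] (i : Fin k) (s : K l) :
    (avg fun f : Fin k → Fin E.length => win sU sV F (tpl E f) i s) ≤ η := by
  have hlen : 0 < E.length := List.length_pos_iff.2 hE
  have hlr : (0 : ℝ) < E.length := by exact_mod_cast hlen
  have : Nonempty (Fin E.length) := ⟨⟨0, hlen⟩⟩
  have hη : 0 ≤ η := by
    have h1 := hs (fun _ => 0) (fun _ => 0)
    have h2 : 0 ≤ η * (E.length : ℝ) := le_trans (Nat.cast_nonneg _) h1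
    exact nonneg_of_mul_nonneg_left h2 hlr
  rw [avg_update i]
  refine avg_le_of_le hη fun f => ?_
  set p : ℕ → Fin nA → ℝ := fun u a => dcd (GU sU sV F (tpl E f) i u) s (fun a => (i, a)) a with hp
  set q : ℕ → Fin nB → ℝ := fun v b =>
    dcd (GV sU sV F (tpl E f) i v) s (fun b : Fin nB => Sum.inr b) b with hq
  obtain ⟨a, b, hab⟩ := exists_labelling E p q (fun u a => dcd_nonneg _ _ _ _)
    (fun u => sum_dcd_le _ _ _) (fun v b => dcd_nonneg _ _ _ _) (fun v => sum_dcd_le _ _ _)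
  have h1 : ∀ c : Fin E.length, win sU sV F (tpl E (Function.update f i c)) i s =
      ∑ a, p (E.get c).1 a * q (E.get c).2.1 ((E.get c).2.2 a) := by
    intro c
    unfold win
    rw [tpl_update, Function.update_self, GU_update, GV_update]
  rw [avg_congr h1]
  unfold avg
  rw [Fintype.card_fin, div_le_iff₀ hlr]
  refine le_trans (le_of_eq ?_) (hab.trans (hs a b))
  have h2 : (E.map fun c => ∑ s, p c.1 s * q c.2.1 (c.2.2 s)) =
      List.ofFn fun c : Fin E.length => ∑ s, p (E.get c).1 s *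
        q (E.get c).2.1 ((E.get c).2.2 s) := by
    conv_lhs => rw [← List.ofFn_get E]
    rw [List.map_ofFn]
    rfl
  rw [h2, List.sum_ofFn]

open Classical in
/-- A tuple with a decodable affine function. -/
def Good (sU : ℕ → (Fin nA → K l) → X) (sV : ℕ → (Fin nB → K l) → X)
    (F : (Fin k → X) → K l) (c c1 : ℝ) (K0 : ℕ) (e : Fin k → Cs nA nB) : Prop :=
  ∃ h : (Fin k × Fin nA → ZMod 2) × K l, c ≤ mu (GG sU sV F e) h ∧
    (∀ j, Odd (sup fun a => h.1 (j, a)).card) ∧
    c1 * k ≤ ((univ.filter fun j : Fin k => (sup fun a => h.1 (j, a)).card ≤ K0).card : ℝ)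

open Classical in
/-- **There are few tuples with a decodable affine function.** -/
theorem avg_good_le (E : PG ℕ ℕ (Fin nA) (Fin nB)) (hE : E ≠ []) {η : ℝ} (hs : E.Sound η)
    (hsur : ∀ c ∈ E, Function.Surjective c.2.2) [NeZero nA] [NeZero nB] {c c1 γ : ℝ} {K0 : ℕ}
    (hc : 1 / 2 ^ l ≤ c) (hc1 : 0 < c1) (hk : 0 < k) (hγ : 0 ≤ γ)
    (hγc : γ + 2 * rho nA nB l + Real.sqrt (1 / (c1 * k * rho nA nB l)) ≤
      (c - 1 / 2 ^ l) ^ 2) :
    (avg fun f : Fin k → Fin E.length => ind (Good sU sV F c c1 K0 (tpl E f))) *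
      (c1 * γ ^ 2 / K0) ≤ η := by
  have hkr : (0 : ℝ) < k := by exact_mod_cast hk
  have h1 : ∀ f : Fin k → Fin E.length, ind (Good sU sV F c c1 K0 (tpl E f)) *
      (c1 * k * γ ^ 2 / K0) ≤ ∑ i, avg fun s : K l => win sU sV F (tpl E f) i s := by
    intro f
    by_cases hg : Good sU sV F c c1 K0 (tpl E f)
    · rw [ind_true hg, one_mul]
      obtain ⟨h, hmu, hodd, hJ⟩ := hg
      exact sum_win_ge (fun i => hsur _ (List.get_mem _ _)) h hc hc1 hk hγ hmu hodd hJ hγc
    · rw [ind_false hg, zero_mul]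
      exact Finset.sum_nonneg fun i _ => avg_nonneg fun s => win_nonneg _ _ _
  have h2 := avg_mono h1
  rw [avg_mul_const, avg_sum] at h2
  have h3 : ∀ i : Fin k, (avg fun f : Fin k → Fin E.length => avg fun s : K l =>
      win sU sV F (tpl E f) i s) ≤ η := by
    intro i
    rw [avg_comm]
    have hη : 0 ≤ η := le_trans (avg_nonneg fun f => win_nonneg _ _ _)
      (avg_win_le (sU := sU) (sV := sV) (F := F) E hE hs i 0)
    exact avg_le_of_le hη fun s => avg_win_le E hE hs i s
  have h4 := h2.trans (Finset.sum_le_sum fun i _ => h3 i)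
  rw [Finset.sum_const, Finset.card_univ, Fintype.card_fin, nsmul_eq_mul] at h4
  have h5 : (k : ℝ) * ((avg fun f : Fin k → Fin E.length =>
      ind (Good sU sV F c c1 K0 (tpl E f))) * (c1 * γ ^ 2 / K0)) ≤ k * η := by
    refine le_trans (le_of_eq ?_) h4
    ring
  exact le_of_mul_le_mul_left h5 hkr

end

end Vale.Agent.P339.H937
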