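import Vale.Agent.P339.H283.Four

/-!
P339: definitions for the block-additive test with vector labels over the field with two elements.
-/

namespace Vale.Agent.P339.H937

open Finset Vale.Agent.Lib.PCP Vale.Agent.Lib.PCP.HA Vale.Agent.P339.H283

/-- The group of right labels. -/
abbrev K (l : ℕ) : Type := Fin l → ZMod 2

/-- The sign of a bit. -/
noncomputable def sgn (x : ZMod 2) : ℝ := if x = 0 then 1 else -1

/-- The indicator of a proposition. -/
noncomputable def ind (p : Prop) [Decidable p] : ℝ := if p then 1 else 0

/-- The positions where `t` is one. -/
def sup {A : Type} [Fintype A] (t : A → ZMod 2) : Finset A := univ.filter fun a => t a ≠ 0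

end Vale.Agent.P339.H937
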