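import Vale.Agent.P339.H937.RankOne

/-!
P339: the list of affine functions which agree with the table, and the bound for the dense test.
-/

namespace Vale.Agent.P339.H937

open Finset Vale.Agent.Lib.PCP Vale.Agent.Lib.PCP.HA Vale.Agent.P339.H283

variable {l : ℕ} {I : Type} [Fintype I] [DecidableEq I]

/-- The affine function. -/
def aff (h : (I → ZMod 2) × K l) (M : I → K l) : K l := evl h.1 M + h.2

/-- The points where the table agrees with no function of the list. -/
noncomputable def rest (G : (I → K l) → K l) (H : Finset ((I → ZMod 2) × K l)) (M : I → K l) : ℝ :=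
  ind (∀ h ∈ H, G M ≠ aff h M)

lemma rest_nonneg (G : (I → K l) → K l) (H : Finset ((I → ZMod 2) × K l)) (M : I → K l) :
    0 ≤ rest G H M := ind_nonneg _

lemma rest_le_one (G : (I → K l) → K l) (H : Finset ((I → ZMod 2) × K l)) (M : I → K l) :
    rest G H M ≤ 1 := ind_le_one _

lemma rest_sq (G : (I → K l) → K l) (H : Finset ((I → ZMod 2) × K l)) (M : I → K l) :
    rest G H M ^ 2 = rest G H M := ind_sq _

/-- The agreement of the table with an affine function. -/
noncomputable def mu (G : (I → K l) → K l) (h : (I → ZMod 2) × K l) : ℝ :=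
  avg fun M : I → K l => ind (G M = aff h M)

lemma mu_nonneg (G : (I → K l) → K l) (h : (I → ZMod 2) × K l) : 0 ≤ mu G h :=
  avg_nonneg fun _ => ind_nonneg _

/-- **The list of affine functions.** -/
theorem exists_list (G : (I → K l) → K l) {c : ℝ} (hc : 0 < c) :
    ∃ H : Finset ((I → ZMod 2) × K l), (H.card : ℝ) * c ≤ 1 ∧ (∀ h ∈ H, c ≤ mu G h) ∧
      ∀ t g, agr (rest G H) G t g ≤ c := by
  by_contra hcon
  push Not at hcon
  have key : ∀ n : ℕ, ∃ H : Finset ((I → ZMod 2) × K l), H.card = n ∧
      (n : ℝ) * c ≤ 1 - avg (rest G H) ∧ ∀ h ∈ H, c ≤ mu G h := by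
    intro n
    induction n with
    | zero =>
      refine ⟨∅, rfl, ?_, fun h hh => absurd hh (Finset.notMem_empty h)⟩
      have : avg (rest G (∅ : Finset ((I → ZMod 2) × K l))) ≤ 1 :=
        avg_le_of_le zero_le_one fun M => rest_le_one _ _ _
      simp only [Nat.cast_zero, zero_mul]
      linarith
    | succ n ih =>
      obtain ⟨H, hn, h1, h2⟩ := ih
      have h3 : (H.card : ℝ) * c ≤ 1 := by
        rw [hn]
        have : 0 ≤ avg (rest G H) := avg_nonneg fun M => rest_nonneg _ _ _
        linarith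
      obtain ⟨t, g, htg⟩ := hcon H h3 h2
      have h4 : (t, g) ∉ H := by
        intro hmem
        have h5 : agr (rest G H) G t g = 0 := by
          unfold agr
          rw [← avg_zero' (X := I → K l)]
          refine avg_congr fun M => ?_
          by_cases hM : G M = evl t M + g
          · have : rest G H M = 0 := by
              unfold rest
              exact ind_false fun h => h (t, g) hmem hM
            rw [this, zero_mul]
          · rw [ind_false hM, mul_zero]
        linarith
      have h5 : ∀ M, rest G (insert (t, g) H) M = rest G H M -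
          rest G H M * ind (G M = evl t M + g) := by
        intro M
        unfold rest
        by_cases hM : G M = evl t M + g
        · rw [ind_true hM, mul_one, sub_self]
          exact ind_false fun h => h (t, g) (Finset.mem_insert_self _ _) hM
        · rw [ind_false hM, mul_zero, sub_zero]
          refine ind_congr ?_
          constructor
          · intro h x hx
            exact h x (Finset.mem_insert_of_mem hx)
          · intro h x hx
            rcases Finset.mem_insert.1 hx with rfl | hx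
            · exact hM
            · exact h x hx
      refine ⟨insert (t, g) H, by rw [Finset.card_insert_of_notMem h4, hn], ?_, ?_⟩
      · have h6 : avg (rest G (insert (t, g) H)) = avg (rest G H) - agr (rest G H) G t g := by
          rw [avg_congr h5, avg_sub]
          rfl
        rw [h6]
        push_cast
        linarith
      · intro h hh
        rcases Finset.mem_insert.1 hh with rfl | hh
        · refine htg.le.trans (avg_mono fun M => ?_)
          exact mul_le_of_le_one_left (ind_nonneg _) (rest_le_one _ _ _)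
        · exact h2 h hh
  obtain ⟨n, hn⟩ := exists_nat_gt (1 / c)
  obtain ⟨H, _, h1, _⟩ := key n
  have h2 : 0 ≤ avg (rest G H) := avg_nonneg fun M => rest_nonneg _ _ _
  rw [div_lt_iff₀ hc] at hn
  linarith

omit [DecidableEq I] in
lemma evl_line (t y : I → ZMod 2) (M : I → K l) (φ : K l) :
    evl t (M + tns y φ) = evl t M + (t ⬝ᵥ y) • φ := by
  rw [evl_add, evl_tns]
  rfl

/-- Two different affine functions seldom agree. -/
lemma avg_aff_eq {h h' : (I → ZMod 2) × K l} (hne : h ≠ h') :
    (avg fun M : I → K l => ind (aff h M = aff h' M)) ≤ 1 / 2 ^ l := by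
  have hpow : (0 : ℝ) ≤ 1 / 2 ^ l := by positivity
  by_cases ht : h.1 = h'.1
  · refine avg_le_of_le hpow fun M => ?_
    rw [ind_false]
    · exact hpow
    · intro h1
      unfold aff at h1
      rw [ht] at h1
      exact hne (Prod.ext ht (add_left_cancel h1))
  · have h1 : h.1 + h'.1 ≠ 0 := by
      intro h2
      exact ht (pairing_dot.add_eq_zero.1 h2)
    rw [← avg_evl_eq h1 (h.2 + h'.2)]
    refine avg_mono fun M => ind_mono fun h2 => ?_
    unfold aff at h2
    rw [evl_add_left]
    have h3 : evl h.1 M = evl h'.1 M + h'.2 + h.2 := by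
      rw [← h2, add_assoc, K_add_self, add_zero]
    rw [h3]
    have h4 : evl h'.1 M + h'.2 + h.2 + evl h'.1 M =
        (evl h'.1 M + evl h'.1 M) + (h.2 + h'.2) := by abel
    rw [h4, K_add_self, zero_add]

/-- A line on which a label differs from an affine function contains at most one point where they
agree. -/
lemma avg_line_eq {m m' : K l} {b b' : ZMod 2} (hne : (m, b) ≠ (m', b')) :
    (avg fun φ : K l => ind (m + b • φ = m' + b' • φ)) ≤ 1 / 2 ^ l := by
  have hpow : (0 : ℝ) ≤ 1 / 2 ^ l := by positivity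
  by_cases hb : b = b'
  · refine avg_le_of_le hpow fun φ => ?_
    rw [ind_false]
    · exact hpow
    · intro h
      rw [hb] at h
      exact hne (Prod.ext (add_right_cancel h) hb)
  · rw [← avg_K_eq (m + m')]
    refine avg_mono fun φ => ind_mono fun h => ?_
    rcases bit_cases b with rfl | rfl <;> rcases bit_cases b' with rfl | rfl
    · exact absurd rfl hb
    · rw [zero_smul, add_zero, one_smul] at h
      rw [h]
      have : m' + φ + m' = (m' + m') + φ := by abel
      rw [this, K_add_self, zero_add]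
    · rw [zero_smul, add_zero, one_smul] at h
      rw [← h]
      have : m + (m + φ) = (m + m) + φ := by abel
      rw [this, K_add_self, zero_add]
    · exact absurd rfl hb

/-- The sum of the agreements. -/
lemma sum_mu_le (G : (I → K l) → K l) (H : Finset ((I → ZMod 2) × K l)) :
    ∑ h ∈ H, mu G h ≤ (1 - avg (rest G H)) + (H.card : ℝ) ^ 2 / 2 ^ l := by
  have h1 : ∀ M, ∑ h ∈ H, ind (G M = aff h M) ≤ (1 - rest G H M) +
      ∑ h ∈ H, ∑ h' ∈ H, if h ≠ h' then ind (aff h M = aff h' M) else 0 := by
    intro M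
    have h0 : ∀ h ∈ H, ∀ h' ∈ H, 0 ≤ if h ≠ h' then ind (aff h M = aff h' M) else 0 := by
      intro h _ h' _
      split_ifs
      · exact ind_nonneg _
      · exact le_rfl
    by_cases hM : ∀ h ∈ H, G M ≠ aff h M
    · have e1 : rest G H M = 1 := ind_true hM
      have e2 : ∑ h ∈ H, ind (G M = aff h M) = 0 :=
        Finset.sum_eq_zero fun h hh => ind_false (hM h hh)
      rw [e1, e2]
      have := Finset.sum_nonneg fun h hh => Finset.sum_nonneg (h0 h hh)
      linarith
    · have e1 : rest G H M = 0 := ind_false hM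
      rw [e1]
      push Not at hM
      obtain ⟨h1, hh1, hM1⟩ := hM
      have e2 : ∑ h ∈ H, ind (G M = aff h M) = 1 + ∑ h ∈ H.erase h1, ind (G M = aff h M) := by
        rw [← Finset.add_sum_erase H _ hh1, ind_true hM1]
      have e3 : ∑ h ∈ H.erase h1, ind (G M = aff h M) ≤
          ∑ h' ∈ H, if h1 ≠ h' then ind (aff h1 M = aff h' M) else 0 := by
        rw [← Finset.add_sum_erase H _ hh1, if_neg (fun h => h rfl), zero_add]
        refine Finset.sum_le_sum fun h hh => ?_
        rw [if_pos (Finset.ne_of_mem_erase hh).symm]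
        exact ind_mono fun h2 => hM1.symm.trans h2
      have e4 := Finset.single_le_sum (f := fun h => ∑ h' ∈ H,
        if h ≠ h' then ind (aff h M = aff h' M) else 0)
        (fun h hh => Finset.sum_nonneg (h0 h hh)) hh1
      linarith
  have h2 := avg_mono h1
  rw [avg_sum, avg_add, avg_sub, avg_const, avg_sum] at h2
  simp only [avg_sum] at h2
  refine h2.trans (add_le_add le_rfl ?_)
  have hpow : (0 : ℝ) ≤ 1 / 2 ^ l := by positivity
  have h3 : ∀ h ∈ H, ∑ h' ∈ H, (avg fun M : I → K l =>
      if h ≠ h' then ind (aff h M = aff h' M) else 0) ≤ (H.card : ℝ) * (1 / 2 ^ l) := by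
    intro h _
    have h4 : ∀ h' ∈ H, (avg fun M : I → K l =>
        if h ≠ h' then ind (aff h M = aff h' M) else 0) ≤ 1 / 2 ^ l := by
      intro h' _
      by_cases hh : h ≠ h'
      · simp only [if_pos hh]
        exact avg_aff_eq hh
      · simp only [if_neg hh]
        rw [avg_zero']
        exact hpow
    refine (Finset.sum_le_sum h4).trans (le_of_eq ?_)
    rw [Finset.sum_const, nsmul_eq_mul]
  refine (Finset.sum_le_sum h3).trans (le_of_eq ?_)
  rw [Finset.sum_const, nsmul_eq_mul]
  ring

/-- The value of the dense test. -/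
noncomputable def valC (G : (I → K l) → K l) (lC : (I → K l) → (I → ZMod 2) → K l × ZMod 2) : ℝ :=
  avg fun y : I → ZMod 2 => avg fun M : I → K l => avg fun φ : K l =>
    ind (G (M + tns y φ) = (lC M y).1 + (lC M y).2 • φ)

/-- The squares of the agreements on a line. -/
noncomputable def lineZ (G : (I → K l) → K l) (H : Finset ((I → ZMod 2) × K l)) (M : I → K l)
    (y : I → ZMod 2) : ℝ :=
  (∑ b, ∑ m, pl (rest G H) G M y m b ^ 2) +
    ∑ h ∈ H, (avg fun φ : K l => ind (G (M + tns y φ) = aff h (M + tns y φ))) ^ 2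

/-- Coincidence of the label with the affine function at a point of the line. -/
noncomputable def lcp (m : K l) (b : ZMod 2) (M : I → K l) (y : I → ZMod 2)
    (h : (I → ZMod 2) × K l) (φ : K l) : ℝ :=
  ind (m + b • φ = (evl h.1 M + h.2) + (h.1 ⬝ᵥ y) • φ)

omit [DecidableEq I] in
lemma lcp_nonneg (m : K l) (b : ZMod 2) (M : I → K l) (y : I → ZMod 2)
    (h : (I → ZMod 2) × K l) (φ : K l) : 0 ≤ lcp m b M y h φ := ind_nonneg _

lemma line_rest (G : (I → K l) → K l) (H : Finset ((I → ZMod 2) × K l)) (M : I → K l)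
    (y : I → ZMod 2) (m : K l) (b : ZMod 2)
    (hex : ∀ h ∈ H, (m, b) ≠ (evl h.1 M + h.2, h.1 ⬝ᵥ y)) :
    (avg fun φ : K l => ind (G (M + tns y φ) = m + b • φ)) ≤
      pl (rest G H) G M y m b + H.card / 2 ^ l := by
  have e1 : ∀ φ : K l, ind (G (M + tns y φ) = m + b • φ) ≤
      rest G H (M + tns y φ) * ind (G (M + tns y φ) = m + b • φ) +
      ∑ h ∈ H, lcp m b M y h φ := by
    intro φ
    have hs : 0 ≤ ∑ h ∈ H, lcp m b M y h φ :=
      Finset.sum_nonneg fun h _ => lcp_nonneg m b M y h φ
    by_cases hr : ∀ h ∈ H, G (M + tns y φ) ≠ aff h (M + tns y φ)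
    · have : rest G H (M + tns y φ) = 1 := ind_true hr
      rw [this, one_mul]
      linarith
    · have h0 : rest G H (M + tns y φ) = 0 := ind_false hr
      rw [h0, zero_mul, zero_add]
      push Not at hr
      obtain ⟨h, hh, hG⟩ := hr
      have h3 := Finset.single_le_sum (f := fun h => lcp m b M y h φ)
        (fun h _ => lcp_nonneg m b M y h φ) hh
      have h4 : ind (G (M + tns y φ) = m + b • φ) ≤ lcp m b M y h φ := by
        unfold lcp
        refine ind_mono fun h1 => ?_
        rw [← h1, hG]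
        unfold aff
        rw [evl_line]
        abel
      exact h4.trans h3
  refine (avg_mono e1).trans ?_
  rw [avg_add, avg_sum]
  refine add_le_add le_rfl ?_
  have e5 : ∀ h ∈ H, avg (lcp m b M y h) ≤ 1 / 2 ^ l := fun h hh => avg_line_eq (hex h hh)
  refine (Finset.sum_le_sum e5).trans (le_of_eq ?_)
  rw [Finset.sum_const, nsmul_eq_mul]
  ring

lemma line_bound (G : (I → K l) → K l) (H : Finset ((I → ZMod 2) × K l)) (M : I → K l)
    (y : I → ZMod 2) (m : K l) (b : ZMod 2) :
    (avg fun φ : K l => ind (G (M + tns y φ) = m + b • φ)) ≤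
      Real.sqrt (lineZ G H M y) + H.card / 2 ^ l := by
  have hN : (0 : ℝ) ≤ H.card / 2 ^ l := by positivity
  have hs1 : 0 ≤ ∑ b, ∑ m, pl (rest G H) G M y m b ^ 2 :=
    Finset.sum_nonneg fun _ _ => Finset.sum_nonneg fun _ _ => sq_nonneg _
  have hs2 : 0 ≤ ∑ h ∈ H, (avg fun φ : K l => ind (G (M + tns y φ) = aff h (M + tns y φ))) ^ 2 :=
    Finset.sum_nonneg fun _ _ => sq_nonneg _
  by_cases hex : ∃ h ∈ H, (m, b) = (evl h.1 M + h.2, h.1 ⬝ᵥ y)
  · obtain ⟨h, hh, hmb⟩ := hex
    rw [Prod.mk.injEq] at hmb
    have e1 : (avg fun φ : K l => ind (G (M + tns y φ) = m + b • φ)) =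
        avg fun φ : K l => ind (G (M + tns y φ) = aff h (M + tns y φ)) := by
      refine avg_congr fun φ => ind_congr ?_
      unfold aff
      rw [evl_line, hmb.1, hmb.2]
      have : evl h.1 M + h.2 + (h.1 ⬝ᵥ y) • φ = evl h.1 M + (h.1 ⬝ᵥ y) • φ + h.2 := by abel
      rw [this]
    rw [e1]
    have e2 := Finset.single_le_sum (f := fun h => (avg fun φ : K l =>
      ind (G (M + tns y φ) = aff h (M + tns y φ))) ^ 2) (fun _ _ => sq_nonneg _) hh
    have e3 : (avg fun φ : K l => ind (G (M + tns y φ) = aff h (M + tns y φ))) ≤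
        Real.sqrt (lineZ G H M y) := by
      refine Real.le_sqrt_of_sq_le ?_
      unfold lineZ
      linarith
    linarith
  · push Not at hex
    refine (line_rest G H M y m b hex).trans (add_le_add ?_ le_rfl)
    refine Real.le_sqrt_of_sq_le ?_
    unfold lineZ
    have e3 := Finset.single_le_sum (f := fun b => ∑ m, pl (rest G H) G M y m b ^ 2)
      (fun _ _ => Finset.sum_nonneg fun _ _ => sq_nonneg _) (Finset.mem_univ b)
    have e4 := Finset.single_le_sum (f := fun m => pl (rest G H) G M y m b ^ 2)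
      (fun _ _ => sq_nonneg _) (Finset.mem_univ m)
    linarith

/-- **The bound for the dense test.** -/
theorem valC_le (G : (I → K l) → K l) (H : Finset ((I → ZMod 2) × K l)) {ρ δ : ℝ}
    (hρ : omg (rest G H) G ≤ ρ) (hδ : (H.card : ℝ) ^ 2 / 2 ^ l ≤ δ) (hδ1 : δ ≤ 1)
    (lC : (I → K l) → (I → ZMod 2) → K l × ZMod 2) :
    valC G lC ≤ Real.sqrt ((1 + (1 - avg (rest G H)) ^ 2) / 2 + (2 / 2 ^ l + ρ / 2 + 2 * δ)) +
      H.card / 2 ^ l := by
  set t : ℝ := 1 - avg (rest G H) with ht
  have hr0 : 0 ≤ avg (rest G H) := avg_nonneg fun M => rest_nonneg _ _ _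
  have hr1 : avg (rest G H) ≤ 1 := avg_le_of_le zero_le_one fun M => rest_le_one _ _ _
  have hδ0 : 0 ≤ δ := le_trans (by positivity) hδ
  have h1 : valC G lC ≤ (avg fun y : I → ZMod 2 => avg fun M : I → K l =>
      Real.sqrt (lineZ G H M y)) + H.card / 2 ^ l := by
    unfold valC
    have e1 : ∀ y : I → ZMod 2, ∀ M : I → K l, (avg fun φ : K l =>
        ind (G (M + tns y φ) = (lC M y).1 + (lC M y).2 • φ)) ≤
        Real.sqrt (lineZ G H M y) + H.card / 2 ^ l := fun y M =>
      line_bound G H M y (lC M y).1 (lC M y).2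
    have e2 : (avg fun y : I → ZMod 2 => avg fun M : I → K l =>
        (Real.sqrt (lineZ G H M y) + (H.card : ℝ) / 2 ^ l)) =
        (avg fun y : I → ZMod 2 => avg fun M : I → K l => Real.sqrt (lineZ G H M y)) +
        H.card / 2 ^ l := by
      rw [avg_congr fun y => avg_add _ _, avg_add]
      congr 1
      rw [avg_congr fun y => avg_const _, avg_const]
    exact (avg_mono fun y => avg_mono fun M => e1 y M).trans (le_of_eq e2)
  refine h1.trans (add_le_add ?_ le_rfl)
  have hZ0 : ∀ M y, 0 ≤ lineZ G H M y := by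
    intro M y
    unfold lineZ
    exact add_nonneg (Finset.sum_nonneg fun _ _ => Finset.sum_nonneg fun _ _ => sq_nonneg _)
      (Finset.sum_nonneg fun _ _ => sq_nonneg _)
  have h2 : (avg fun y : I → ZMod 2 => avg fun M : I → K l => Real.sqrt (lineZ G H M y)) ≤
      Real.sqrt (avg fun y : I → ZMod 2 => avg fun M : I → K l => lineZ G H M y) := by
    refine Real.le_sqrt_of_sq_le ?_
    refine (avg_sq_le _).trans (avg_mono fun y => (avg_sq_le _).trans (le_of_eq ?_))
    exact avg_congr fun M => Real.sq_sqrt (hZ0 M y)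
  refine h2.trans (Real.sqrt_le_sqrt ?_)
  have h3 : (avg fun y : I → ZMod 2 => avg fun M : I → K l => lineZ G H M y) ≤
      ((1 / 2 + 2 / 2 ^ l) * avg (rest G H) + 1 / 2 * ρ) +
        ∑ h ∈ H, (1 / 2 * mu G h + 1 / 2 * mu G h ^ 2) := by
    unfold lineZ
    simp only [avg_add]
    refine add_le_add ?_ ?_
    · refine (two_point (rest G H) G).trans ?_
      rw [avg_congr (rest_sq G H)]
      linarith
    · simp only [avg_sum]
      refine Finset.sum_le_sum fun h _ => ?_
      exact line_sq_le (fun M => ind (G M = aff h M)) (fun M => ind_sq _)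
  refine h3.trans ?_
  have h4 := sum_mu_le G H
  set T : ℝ := ∑ h ∈ H, mu G h with hT
  have hT0 : 0 ≤ T := Finset.sum_nonneg fun h _ => mu_nonneg G h
  have h5 : ∑ h ∈ H, mu G h ^ 2 ≤ T ^ 2 := by
    rw [sq, hT, Finset.sum_mul_sum]
    refine Finset.sum_le_sum fun h hh => ?_
    rw [sq]
    exact Finset.single_le_sum (f := fun h' => mu G h * mu G h')
      (fun h' _ => mul_nonneg (mu_nonneg G h) (mu_nonneg G h')) hh
  have h6 : ∑ h ∈ H, (1 / 2 * mu G h + 1 / 2 * mu G h ^ 2) ≤ 1 / 2 * T + 1 / 2 * T ^ 2 := by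
    rw [Finset.sum_add_distrib, ← Finset.mul_sum, ← Finset.mul_sum]
    linarith
  have h7 : T ≤ t + δ := by linarith
  have ht0 : 0 ≤ t := by linarith
  have ht1 : t ≤ 1 := by linarith
  have h8 : T ^ 2 ≤ (t + δ) ^ 2 := pow_le_pow_left₀ hT0 h7 2
  have hpow : (0 : ℝ) ≤ 2 / 2 ^ l := by positivity
  have h9 : avg (rest G H) = 1 - t := by rw [ht]; ring
  rw [h9]
  have h10 : 2 / 2 ^ l * (1 - t) ≤ 2 / 2 ^ l := mul_le_of_le_one_right hpow (by linarith)
  nlinarith [mul_nonneg hδ0 (sub_nonneg.2 ht1), mul_nonneg hδ0 (sub_nonneg.2 hδ1)]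

end Vale.Agent.P339.H937
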