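import Vale.Agent.P339.H937.Defs

/-!
P339: Fourier analysis over the field with two elements, with an abstract pairing.
-/

namespace Vale.Agent.P339.H937

open Finset Vale.Agent.Lib.PCP Vale.Agent.Lib.PCP.HA Vale.Agent.P339.H283

/-! ### Bits and signs -/

lemma bit_cases (x : ZMod 2) : x = 0 ∨ x = 1 := by revert x; decide

lemma bit_ne_zero {x : ZMod 2} (h : x ≠ 0) : x = 1 := (bit_cases x).resolve_left h

lemma sgn_zero : sgn 0 = 1 := by simp [sgn]

lemma sgn_one : sgn 1 = -1 := by simp [sgn]

lemma sgn_add (x y : ZMod 2) : sgn (x + y) = sgn x * sgn y := by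
  have h11 : (1 : ZMod 2) + 1 = 0 := by decide
  rcases bit_cases x with rfl | rfl <;> rcases bit_cases y with rfl | rfl <;>
    simp [sgn_zero, sgn_one, h11]

lemma sgn_mul_self (x : ZMod 2) : sgn x * sgn x = 1 := by
  rcases bit_cases x with rfl | rfl <;> simp [sgn_zero, sgn_one]

lemma sgn_sq (x : ZMod 2) : sgn x ^ 2 = 1 := by rw [sq, sgn_mul_self]

lemma abs_sgn (x : ZMod 2) : |sgn x| = 1 := by
  rcases bit_cases x with rfl | rfl <;> simp [sgn_zero, sgn_one]

lemma ind_nonneg (p : Prop) [Decidable p] : 0 ≤ ind p := by unfold ind; split_ifs <;> norm_num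

lemma ind_le_one (p : Prop) [Decidable p] : ind p ≤ 1 := by unfold ind; split_ifs <;> norm_num

lemma ind_true {p : Prop} [Decidable p] (h : p) : ind p = 1 := if_pos h

lemma ind_false {p : Prop} [Decidable p] (h : ¬ p) : ind p = 0 := if_neg h

lemma ind_sq (p : Prop) [Decidable p] : ind p ^ 2 = ind p := by unfold ind; split_ifs <;> norm_num

lemma ind_mono {p q : Prop} [Decidable p] [Decidable q] (h : p → q) : ind p ≤ ind q := by
  unfold ind
  split_ifs with h1 h2 <;> first | exact absurd (h h1) h2 | norm_num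

lemma ind_congr {p q : Prop} [Decidable p] [Decidable q] (h : p ↔ q) : ind p = ind q := by
  unfold ind
  exact if_congr h rfl rfl

lemma ind_not (p : Prop) [Decidable p] : ind (¬ p) = 1 - ind p := by
  unfold ind
  split_ifs <;> norm_num

/-! ### Averages -/

section avg

variable {X Y : Type*} [Fintype X] [Fintype Y]

lemma avg_abs_le {F : X → ℝ} {c : ℝ} (hc : 0 ≤ c) (h : ∀ x, |F x| ≤ c) : |avg F| ≤ c := by
  rw [abs_le]
  constructor
  · have h1 : avg (fun x => -F x) ≤ c :=
      (avg_mono fun x => (neg_le_abs (F x)).trans (h x)).trans (avg_const_le hc)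
    have h2 : avg (fun x => -F x) = -avg F := by
      have := avg_const_mul (-1) F
      simpa using this
    linarith
  · exact (avg_mono fun x => (le_abs_self (F x)).trans (h x)).trans (avg_const_le hc)

lemma avg_le_of_le {F : X → ℝ} {c : ℝ} (hc : 0 ≤ c) (h : ∀ x, F x ≤ c) : avg F ≤ c :=
  (avg_mono h).trans (avg_const_le hc)

lemma avg_zero' : avg (fun _ : X => (0 : ℝ)) = 0 := by unfold avg; simp

lemma avg_sqrt_le [Nonempty X] (F : X → ℝ) : avg F ≤ Real.sqrt (avg fun x => F x ^ 2) :=
  Real.le_sqrt_of_sq_le (avg_sq_le F)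

lemma sum_eq_card_mul_avg [Nonempty X] (F : X → ℝ) : ∑ x, F x = Fintype.card X * avg F := by
  unfold avg
  have : (Fintype.card X : ℝ) ≠ 0 := by exact_mod_cast Fintype.card_ne_zero
  field_simp

lemma avg_ind_eq [DecidableEq X] [Nonempty X] (a : X) :
    avg (fun x => ind (x = a)) = 1 / Fintype.card X := by
  unfold avg ind
  simp

end avg

/-! ### Pairings -/

/-- A nondegenerate symmetric pairing with values in the field with two elements. -/
structure Pairing {X : Type*} [AddCommGroup X] (b : X → X → ZMod 2) : Prop where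
  add_left : ∀ x y z, b (x + y) z = b x z + b y z
  symm : ∀ x y, b x y = b y x
  nondeg : ∀ x, x ≠ 0 → ∃ y, b x y = 1

/-- Fourier coefficients. -/
noncomputable def ft {X : Type*} [Fintype X] (b : X → X → ZMod 2) (f : X → ℝ) (a : X) : ℝ :=
  avg fun x => f x * sgn (b a x)

section pairing

variable {X : Type*} [Fintype X] [DecidableEq X] [AddCommGroup X] {b : X → X → ZMod 2}

omit [Fintype X] [DecidableEq X] in
lemma Pairing.add_right (h : Pairing b) (x y z : X) : b x (y + z) = b x y + b x z := by
  rw [h.symm x, h.add_left, h.symm y, h.symm z]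

omit [Fintype X] [DecidableEq X] in
lemma Pairing.zero_left (h : Pairing b) (z : X) : b 0 z = 0 := by
  have := h.add_left 0 0 z
  rw [add_zero] at this
  exact (left_eq_add.1 this)

omit [Fintype X] [DecidableEq X] in
lemma Pairing.zero_right (h : Pairing b) (z : X) : b z 0 = 0 := by
  rw [h.symm, h.zero_left]

omit [Fintype X] [DecidableEq X] in
lemma Pairing.add_self (h : Pairing b) (x : X) : x + x = 0 := by
  by_contra hx
  obtain ⟨y, hy⟩ := h.nondeg _ hx
  rw [h.add_left, CharTwo.add_self_eq_zero] at hy
  exact absurd hy (by decide)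

omit [Fintype X] [DecidableEq X] in
lemma Pairing.add_eq_zero (h : Pairing b) {x y : X} : x + y = 0 ↔ x = y := by
  constructor
  · intro hxy
    have h1 : x + y + y = y := by rw [hxy, zero_add]
    rwa [add_assoc, h.add_self, add_zero] at h1
  · rintro rfl
    exact h.add_self x

omit [DecidableEq X] in
lemma avg_add_right (y : X) (F : X → ℝ) : (avg fun x => F (x + y)) = avg F :=
  avg_equiv (Equiv.addRight y) F

lemma Pairing.avg_sgn (h : Pairing b) (a : X) : avg (fun x => sgn (b a x)) = ind (a = 0) := by
  by_cases ha : a = 0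
  · subst ha
    rw [ind_true rfl]
    simp only [h.zero_left, sgn_zero]
    exact avg_const 1
  · rw [ind_false ha]
    obtain ⟨y, hy⟩ := h.nondeg a ha
    have h1 := avg_add_right y fun x => sgn (b a x)
    simp only [h.add_right, hy, sgn_add, sgn_one] at h1
    rw [avg_mul_const] at h1
    linarith

lemma Pairing.avg_sgn' (h : Pairing b) (a : X) : avg (fun x => sgn (b x a)) = ind (a = 0) := by
  rw [← h.avg_sgn a]
  exact avg_congr fun x => by rw [h.symm]

/-- Inversion. -/
lemma Pairing.inversion (h : Pairing b) (f : X → ℝ) (x : X) :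
    f x = ∑ a, ft b f a * sgn (b a x) := by
  have h1 : ∑ a, ft b f a * sgn (b a x) = avg fun y => f y * ∑ a, sgn (b a (y + x)) := by
    unfold ft
    simp only [Finset.mul_sum]
    rw [avg_sum]
    refine Finset.sum_congr rfl fun a _ => ?_
    rw [← avg_mul_const]
    refine avg_congr fun y => ?_
    rw [h.add_right, sgn_add]
    ring
  rw [h1]
  have h2 : ∀ y, ∑ a, sgn (b a (y + x)) = Fintype.card X * ind (y = x) := by
    intro y
    rw [sum_eq_card_mul_avg, h.avg_sgn']
    congr 1
    exact ind_congr h.add_eq_zero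
  simp only [h2]
  have h3 : ∀ y, f y * ((Fintype.card X : ℝ) * ind (y = x)) =
      (f x * Fintype.card X) * ind (y = x) := by
    intro y
    by_cases hy : y = x
    · subst hy; ring
    · rw [ind_false hy]; ring
  simp only [h3]
  rw [avg_const_mul, avg_ind_eq]
  have : (Fintype.card X : ℝ) ≠ 0 := by exact_mod_cast Fintype.card_ne_zero
  field_simp

/-- Parseval. -/
lemma Pairing.parseval (h : Pairing b) (f g : X → ℝ) :
    ∑ a, ft b f a * ft b g a = avg fun x => f x * g x := by
  have h1 : ∀ x, f x * g x = ∑ a, ft b g a * (f x * sgn (b a x)) := by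
    intro x
    rw [h.inversion g x, Finset.mul_sum]
    exact Finset.sum_congr rfl fun a _ => by ring
  simp only [h1]
  rw [avg_sum]
  refine Finset.sum_congr rfl fun a _ => ?_
  rw [avg_const_mul]
  unfold ft
  ring

lemma Pairing.parseval_sq (h : Pairing b) (f : X → ℝ) :
    ∑ a, ft b f a ^ 2 = avg fun x => f x ^ 2 := by
  have := h.parseval f f
  simp only [sq]
  exact this

/-- The fourth moment of the Fourier transform. -/
lemma Pairing.fourth (h : Pairing b) (f1 f2 f3 f4 : X → ℝ) :
    ∑ a, ft b f1 a * ft b f2 a * ft b f3 a * ft b f4 a =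
      avg fun s1 => avg fun s2 => avg fun s3 => f1 s1 * f2 s2 * f3 s3 * f4 (s1 + s2 + s3) := by
  have h1 : ∀ s1 s2 s3, f1 s1 * f2 s2 * f3 s3 * f4 (s1 + s2 + s3) =
      ∑ a, ft b f4 a * ((f1 s1 * sgn (b a s1)) * (f2 s2 * sgn (b a s2)) *
        (f3 s3 * sgn (b a s3))) := by
    intro s1 s2 s3
    conv_lhs => rw [h.inversion f4 (s1 + s2 + s3)]
    rw [Finset.mul_sum]
    refine Finset.sum_congr rfl fun a _ => ?_
    rw [h.add_right, h.add_right, sgn_add, sgn_add]
    ring
  simp only [h1]
  simp only [avg_sum, avg_const_mul, avg_mul_const]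
  refine Finset.sum_congr rfl fun a _ => ?_
  have e : ∀ f : X → ℝ, (avg fun x => f x * sgn (b a x)) = ft b f a := fun f => rfl
  simp only [e]
  ring

end pairing

/-! ### The group of right labels -/

section K

variable {l : ℕ}

lemma K_add_self (x : K l) : x + x = 0 := by
  funext i
  exact CharTwo.add_self_eq_zero (x i)

lemma pairing_dot {ι : Type*} [Fintype ι] [DecidableEq ι] :
    Pairing (fun x y : ι → ZMod 2 => x ⬝ᵥ y) where
  add_left x y z := add_dotProduct x y z
  symm x y := dotProduct_comm x y
  nondeg x hx := by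
    obtain ⟨i, hi⟩ := Function.ne_iff.1 hx
    refine ⟨Pi.single i 1, ?_⟩
    rw [dotProduct_single, mul_one]
    exact bit_ne_zero hi

lemma pairing_K : Pairing (fun x y : K l => x ⬝ᵥ y) := pairing_dot

lemma K_add_eq_zero {x y : K l} : x + y = 0 ↔ x = y := pairing_K.add_eq_zero

lemma card_K : (Fintype.card (K l) : ℝ) = 2 ^ l := by
  rw [Fintype.card_fun, Fintype.card_fin, ZMod.card]
  norm_cast

lemma avg_K_eq (a : K l) : avg (fun x => ind (x = a)) = 1 / 2 ^ l := by
  rw [avg_ind_eq, card_K]

end K

/-! ### Vectors of labels -/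

section V

variable {l : ℕ} {I : Type} [Fintype I]

/-- The linear combination of the entries of `M` with coefficients `t`. -/
def evl (t : I → ZMod 2) (M : I → K l) : K l := ∑ i, t i • M i

/-- The rank one vector `t ⊗ s`. -/
def tns (t : I → ZMod 2) (s : K l) : I → K l := fun i => t i • s

/-- The pairing of vectors of labels. -/
def bV (L M : I → K l) : ZMod 2 := ∑ i, L i ⬝ᵥ M i

lemma evl_add (t : I → ZMod 2) (M N : I → K l) : evl t (M + N) = evl t M + evl t N := by
  unfold evl
  rw [← Finset.sum_add_distrib]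
  exact Finset.sum_congr rfl fun i _ => by rw [Pi.add_apply, smul_add]

lemma evl_add_left (t t' : I → ZMod 2) (M : I → K l) : evl (t + t') M = evl t M + evl t' M := by
  unfold evl
  rw [← Finset.sum_add_distrib]
  exact Finset.sum_congr rfl fun i _ => by rw [Pi.add_apply, add_smul]

lemma bV_tns (t : I → ZMod 2) (s : K l) (M : I → K l) : bV (tns t s) M = s ⬝ᵥ evl t M := by
  unfold bV tns evl
  rw [dotProduct_sum]
  exact Finset.sum_congr rfl fun i _ => by rw [smul_dotProduct, dotProduct_smul]

lemma bV_symm (L M : I → K l) : bV L M = bV M L :=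
  Finset.sum_congr rfl fun i _ => dotProduct_comm _ _

lemma bV_tns' (L : I → K l) (t : I → ZMod 2) (s : K l) : bV L (tns t s) = evl t L ⬝ᵥ s := by
  rw [bV_symm, bV_tns, dotProduct_comm]

lemma evl_tns (t t' : I → ZMod 2) (s : K l) : evl t (tns t' s) = (∑ i, t i * t' i) • s := by
  unfold evl tns
  rw [Finset.sum_smul]
  exact Finset.sum_congr rfl fun i _ => by rw [smul_smul]

variable [DecidableEq I]

lemma pairing_V : Pairing (bV : (I → K l) → (I → K l) → ZMod 2) where
  add_left x y z := by
    unfold bV
    rw [← Finset.sum_add_distrib]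
    exact Finset.sum_congr rfl fun i _ => by rw [Pi.add_apply, add_dotProduct]
  symm x y := bV_symm x y
  nondeg x hx := by
    obtain ⟨i, hi⟩ := Function.ne_iff.1 hx
    obtain ⟨y, hy⟩ := pairing_K.nondeg (x i) hi
    refine ⟨Pi.single i y, ?_⟩
    unfold bV
    rw [Finset.sum_eq_single i]
    · rw [Pi.single_eq_same]
      exact hy
    · intro j _ hj
      rw [Pi.single_eq_of_ne hj, dotProduct_zero]
    · intro h
      exact absurd (Finset.mem_univ i) h

lemma card_V : (Fintype.card (I → K l) : ℝ) = (2 ^ l) ^ Fintype.card I := by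
  rw [Fintype.card_fun]
  push_cast
  rw [card_K]

omit [Fintype I] [DecidableEq I] in
lemma tns_injective {s : K l} (hs : s ≠ 0) : Function.Injective fun t : I → ZMod 2 => tns t s := by
  intro t t' h
  funext i
  have h1 : t i • s = t' i • s := congrFun h i
  rcases bit_cases (t i) with h2 | h2 <;> rcases bit_cases (t' i) with h3 | h3 <;>
    rw [h2, h3] at h1 ⊢
  · rw [zero_smul, one_smul] at h1
    exact absurd h1.symm hs
  · rw [zero_smul, one_smul] at h1
    exact absurd h1 hs

/-- The affine function with coefficients `t` is uniformly distributed. -/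
lemma avg_evl_eq {t : I → ZMod 2} (ht : t ≠ 0) (c : K l) :
    avg (fun M : I → K l => ind (evl t M = c)) = 1 / 2 ^ l := by
  obtain ⟨i, hi⟩ := Function.ne_iff.1 ht
  have hi1 : t i = 1 := bit_ne_zero hi
  have h1 : ∀ x : K l, avg (fun M : I → K l => ind (evl t M = c)) =
      avg fun M : I → K l => ind (x = evl t M + c) := by
    intro x
    rw [← avg_add_right (Pi.single i x : I → K l)]
    refine avg_congr fun M => ind_congr ?_
    rw [evl_add]
    have : evl t (Pi.single i x : I → K l) = x := by
      unfold evl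
      rw [Finset.sum_eq_single i]
      · rw [Pi.single_eq_same, hi1, one_smul]
      · intro j _ hj
        rw [Pi.single_eq_of_ne hj, smul_zero]
      · intro h
        exact absurd (Finset.mem_univ i) h
    rw [this]
    constructor
    · intro h
      rw [← h, ← add_assoc, K_add_self, zero_add]
    · intro h
      rw [h, ← add_assoc, K_add_self, zero_add]
  have h2 : avg (fun M : I → K l => ind (evl t M = c)) =
      avg fun x : K l => avg fun M : I → K l => ind (x = evl t M + c) := by
    rw [avg_congr fun x => (h1 x).symm, avg_const]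
  rw [h2, avg_comm]
  simp only [avg_K_eq]
  rw [avg_const]

end V

end Vale.Agent.P339.H937
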