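import Vale.Agent.P339.H937.Maps

/-!
P339: the game and its soundness.
-/

namespace Vale.Agent.P339.H937

open Finset Vale.Agent.Lib.PCP Vale.Agent.Lib.PCP.HA Vale.Agent.P339.H283
  Vale.Agent.Lib.PolyTime Vale.Agent.P333.NP

instance : Enc (ZMod 2) := inferInstanceAs (Enc (Fin 2))

instance : EncInj (ZMod 2) := inferInstanceAs (EncInj (Fin 2))

section

variable {nA nB k l : ℕ}

/-- Block descriptors. -/
abbrev Blk (nA nB l : ℕ) : Type := (ℕ × (Fin nA → K l)) ⊕ (ℕ × (Fin nB → K l))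

/-- Left vertices. -/
abbrev LV (nA nB k l : ℕ) : Type :=
  ((Fin k → Cs nA nB) × (Fin k × Fin nA → K l) × (Fin k × Fin nA → ZMod 2)) ⊕
    ((Fin k → Cs nA nB) × Fin k × (Fin nA → ZMod 2) × (Fin k × Fin nA → K l))

/-- Right vertices. -/
abbrev RV (nA nB k l : ℕ) : Type :=
  (Fin k → Blk nA nB l) ⊕
    ((Fin k → Cs nA nB) × Fin k × (Fin nA → ZMod 2) × K l × K l × (Fin k × Fin nA → K l))

/-- Parameters `(j, w, θ0, θ1, y, M, φ)`. -/
abbrev Pm (nA k l : ℕ) : Type :=
  Fin k × (Fin nA → ZMod 2) × K l × K l × (Fin k × Fin nA → ZMod 2) ×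
    (Fin k × Fin nA → K l) × K l

/-- The name of a left vertex. -/
noncomputable def nmL (x : LV nA nB k l) : ℕ := wcode (enc x)

/-- The name of a right vertex. -/
noncomputable def nmR (x : RV nA nB k l) : ℕ := wcode (enc x)

lemma nmL_inj : Function.Injective (nmL : LV nA nB k l → ℕ) := fun _ _ h =>
  EncInj.inj (wcode_inj h)

lemma nmR_inj : Function.Injective (nmR : RV nA nB k l → ℕ) := fun _ _ h =>
  EncInj.inj (wcode_inj h)

variable [NeZero nA] [NeZero nB]

/-- The descriptor and the offset of a block of the left question. -/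
def uD (u : ℕ) (m : Fin nA → K l) : Blk nA nB l × K l := (Sum.inl (u, fun a => m a + m 0), m 0)

/-- The descriptor and the offset of a block of the right question. -/
def vD (v : ℕ) (N : Fin nB → K l) : Blk nA nB l × K l := (Sum.inr (v, fun b => N b + N 0), N 0)

/-- The descriptor and the offset of a block. -/
noncomputable def dsc (c : Cs nA nB) (m : Fin nA → K l) : Blk nA nB l × K l := st uD vD c m

/-- The right vertex. -/
noncomputable def r0 (e : Fin k → Cs nA nB) (N : Fin k × Fin nA → K l) : RV nA nB k l :=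
  Sum.inl fun j => (dsc (e j) (blk j N)).1

/-- The offset. -/
noncomputable def off (e : Fin k → Cs nA nB) (N : Fin k × Fin nA → K l) : K l :=
  ∑ j, (dsc (e j) (blk j N)).2

/-- The constraint of a line. -/
noncomputable def lnC (x : LV nA nB k l) (e : Fin k → Cs nA nB) (N : Fin k × Fin nA → K l)
    (φ : K l) (W : ℕ) : Constraint (2 ^ l) := ⟨nmL x, nmR (r0 e N), mkM (lin φ (off e N)), W⟩

/-- The constraint of the second local test. -/
noncomputable def loC (e : Fin k → Cs nA nB) (j : Fin k) (w : Fin nA → ZMod 2) (θ0 θ1 : K l)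
    (M : Fin k × Fin nA → K l) (W : ℕ) : Constraint (2 ^ l) :=
  ⟨nmL (Sum.inr (e, j, w, M) : LV nA nB k l),
    nmR (Sum.inr (e, j, w, θ0, θ1, red j w θ0 θ1 M) : RV nA nB k l), mkM (Phi θ0 θ1), W⟩

/-- The three constraints of a choice of the parameters. -/
noncomputable def trip (WC WA : ℕ) (e : Fin k → Cs nA nB) :
    Pm nA k l → List (Constraint (2 ^ l)) := fun (j, w, θ0, θ1, y, M, φ) =>
  [lnC (Sum.inl (e, M, y)) e (M + tns y φ) φ WC,
    lnC (Sum.inr (e, j, w, M)) e (M + tns (atb j w) φ) φ WA,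
    loC e j w θ0 θ1 M (2 * WA)]

/-- The constraints of the game. -/
noncomputable def gm (k l WC WA : ℕ) (E : PG ℕ ℕ (Fin nA) (Fin nB)) :
    List (Constraint (2 ^ l)) :=
  (tup E k).flatMap fun e => (Finset.univ : Finset (Pm nA k l)).toList.flatMap (trip WC WA e)

lemma gm_two (hl : 0 < l) (WC WA : ℕ) (E : PG ℕ ℕ (Fin nA) (Fin nB)) :
    ∀ c ∈ gm k l WC WA E, ∀ b : Fin (2 ^ l),
      (Finset.univ.filter fun a => c.π a = b).card = 2 := by
  intro c hc b
  unfold gm at hc
  rw [List.mem_flatMap] at hc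
  obtain ⟨e, _, hc⟩ := hc
  rw [List.mem_flatMap] at hc
  obtain ⟨⟨j, w, θ0, θ1, y, M, φ⟩, _, hc⟩ := hc
  unfold trip at hc
  simp only [List.mem_cons, List.not_mem_nil, or_false] at hc
  rcases hc with rfl | rfl | rfl
  · exact mkM_two (lin_two _ _) b
  · exact mkM_two (lin_two _ _) b
  · exact mkM_two (Phi_orb hl θ0 θ1).2 b

lemma ls_gm (WC WA : ℕ) (E : PG ℕ ℕ (Fin nA) (Fin nB)) (ψ : Constraint (2 ^ l) → ℝ) :
    ls (gm k l WC WA E) ψ = ls (tup E k) fun e => ∑ p : Pm nA k l, ls (trip WC WA e p) ψ := by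
  unfold gm
  rw [ls_flatMap]
  refine ls_congr fun e _ => ?_
  rw [ls_flatMap, ls_toList]

lemma gm_weight (WC WA : ℕ) (E : PG ℕ ℕ (Fin nA) (Fin nB)) :
    (weight (gm k l WC WA E) : ℝ) =
      (tup E k).length * (Fintype.card (Pm nA k l) * (WC + 3 * WA)) := by
  rw [weight_real, ls_gm]
  have h1 : ∀ (e : Fin k → Cs nA nB) (p : Pm nA k l),
      (ls (trip WC WA e p) fun c => (c.w : ℝ)) = WC + 3 * WA := by
    intro e p
    obtain ⟨j, w, θ0, θ1, y, M, φ⟩ := p
    unfold trip lnC loC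
    simp only [ls_cons, ls_nil]
    push_cast
    ring
  simp only [h1]
  rw [ls_const, Finset.sum_const, Finset.card_univ, nsmul_eq_mul]

lemma tup_length {T : Type} (E : List T) : ((tup E k).length : ℝ) = (E.length : ℝ) ^ k := by
  have h1 := ls_const (tup E k) 1
  rw [mul_one] at h1
  rw [← h1, ls_tup, Finset.sum_const, Finset.card_univ, Fintype.card_fun, Fintype.card_fin,
    Fintype.card_fin, nsmul_eq_mul, mul_one]
  push_cast
  ring

lemma gm_pos [NeZero k] {WC WA : ℕ} (hW : 0 < WC) {E : PG ℕ ℕ (Fin nA) (Fin nB)} (hE : E ≠ []) :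
    0 < weight (gm k l WC WA E) := by
  have h1 := gm_weight (k := k) (l := l) WC WA E
  rw [tup_length] at h1
  have h2 : (0 : ℝ) < E.length := by
    have := List.length_pos_iff.2 hE
    exact_mod_cast this
  have h3 : (0 : ℝ) < Fintype.card (Pm nA k l) := by
    have : Nonempty (Fin k) := ⟨0⟩
    have : 0 < Fintype.card (Pm nA k l) := Fintype.card_pos
    exact_mod_cast this
  have h4 : (0 : ℝ) < WC := by exact_mod_cast hW
  have h5 : (0 : ℝ) < weight (gm k l WC WA E) := by
    rw [h1]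
    positivity
  exact_mod_cast h5

/-! ### Soundness -/

/-- The table of the right labels. -/
noncomputable def tF (B : ℕ → Fin (2 ^ l)) (x : Fin k → Blk nA nB l × K l) : K l :=
  (eR l).symm (B (nmR (Sum.inl fun j => (x j).1 : RV nA nB k l))) + ∑ j, (x j).2

/-- The table of a tuple. -/
noncomputable def tG (B : ℕ → Fin (2 ^ l)) (e : Fin k → Cs nA nB) :
    (Fin k × Fin nA → K l) → K l := GG uD vD (tF B) e

lemma tG_eq (B : ℕ → Fin (2 ^ l)) (e : Fin k → Cs nA nB) (N : Fin k × Fin nA → K l) :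
    tG B e N = (eR l).symm (B (nmR (r0 e N))) + off e N := rfl

lemma dsc_add {c : Cs nA nB} (hc : Function.Surjective c.2.2) (m : Fin nA → K l) (x : K l) :
    dsc c (fun a => m a + x) = ((dsc c m).1, (dsc c m).2 + x) := by
  by_cases h : Fac c.2.2 m
  · obtain ⟨N, rfl⟩ := h
    unfold dsc
    rw [st_fac hc N, st_fac hc fun b => N b + x]
    unfold vD
    refine Prod.ext ?_ rfl
    dsimp only
    congr 2
    funext b
    have : N b + x + (N 0 + x) = N b + N 0 + (x + x) := by abel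
    rw [this, K_add_self, add_zero]
  · have h' : ¬ Fac c.2.2 (fun a => m a + x) := by
      rintro ⟨N, hN⟩
      refine h ⟨fun b => N b + x, ?_⟩
      funext a
      have h1 := congrFun hN a
      dsimp only at h1 ⊢
      rw [← h1, add_assoc, K_add_self, add_zero]
    unfold dsc
    rw [st_not_fac h, st_not_fac h']
    unfold uD
    refine Prod.ext ?_ rfl
    dsimp only
    congr 2
    funext a
    have : m a + x + (m 0 + x) = m a + m 0 + (x + x) := by abel
    rw [this, K_add_self, add_zero]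

/-- The tables are folded. -/
lemma tG_fold {B : ℕ → Fin (2 ^ l)} {e : Fin k → Cs nA nB}
    (he : ∀ i, Function.Surjective (e i).2.2) (j : Fin k) (x : K l)
    (M : Fin k × Fin nA → K l) : tG B e (M + cst j x) = tG B e M + x := by
  have h1 : ∀ i, dsc (e i) (blk i (M + cst j x)) =
      ((dsc (e i) (blk i M)).1, (dsc (e i) (blk i M)).2 + if i = j then x else 0) := by
    intro i
    by_cases h : i = j
    · rw [if_pos h, ← dsc_add (he i)]
      congr 1
      funext a
      unfold blk cst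
      rw [Pi.add_apply]
      dsimp only
      rw [if_pos h]
    · rw [if_neg h, add_zero]
      congr 1
      funext a
      unfold blk cst
      rw [Pi.add_apply]
      dsimp only
      rw [if_neg h, add_zero]
  rw [tG_eq, tG_eq]
  unfold r0 off
  simp only [h1]
  rw [Finset.sum_add_distrib, Finset.sum_ite_eq', if_pos (Finset.mem_univ _), add_assoc]

lemma lin_eq_iff {φ o : K l} {a : K l × ZMod 2} {b : Fin (2 ^ l)} :
    lin φ o a = b ↔ (eR l).symm b + o = a.1 + a.2 • φ := by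
  unfold lin
  rw [← Equiv.eq_symm_apply]
  constructor
  · intro h
    rw [← h, add_assoc, K_add_self, add_zero]
  · intro h
    rw [← h, add_assoc, K_add_self, add_zero]

/-- The left labels. -/
noncomputable def lA (A : ℕ → Fin (2 * 2 ^ l)) (x : LV nA nB k l) : K l × ZMod 2 :=
  (eL l).symm (A (nmL x))

lemma satc_lnC {A : ℕ → Fin (2 * 2 ^ l)} {B : ℕ → Fin (2 ^ l)} {x : LV nA nB k l}
    {e : Fin k → Cs nA nB} {N : Fin k × Fin nA → K l} {φ : K l} {W : ℕ} :
    satc A B (lnC x e N φ W) ↔ tG B e N = (lA A x).1 + (lA A x).2 • φ := by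
  unfold satc lnC mkM
  exact lin_eq_iff

/-- The labels of the right vertices of the second kind. -/
noncomputable def r1B (B : ℕ → Fin (2 ^ l)) (e : Fin k → Cs nA nB) (j : Fin k)
    (w : Fin nA → ZMod 2) (θ0 θ1 : K l) (M : Fin k × Fin nA → K l) : K l × ZMod 2 :=
  pre θ0 θ1 (B (nmR (Sum.inr (e, j, w, θ0, θ1, red j w θ0 θ1 M) : RV nA nB k l)))

omit [NeZero nA] [NeZero nB] in
lemma satc_loC (hl : 0 < l) {A : ℕ → Fin (2 * 2 ^ l)} {B : ℕ → Fin (2 ^ l)}
    {e : Fin k → Cs nA nB} {j : Fin k} {w : Fin nA → ZMod 2} {θ0 θ1 : K l}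
    {M : Fin k × Fin nA → K l} {W : ℕ} (h : satc A B (loC e j w θ0 θ1 M W)) :
    SatN (lA A (Sum.inr (e, j, w, M) : LV nA nB k l)) (r1B B e j w θ0 θ1 M) (nz θ0) (nz θ1) :=
  satN_of_Phi hl h

omit [NeZero nA] in
lemma avg_Pm (Ψ : Fin k → (Fin nA → ZMod 2) → K l → K l → (Fin k × Fin nA → ZMod 2) →
    (Fin k × Fin nA → K l) → K l → ℝ) :
    (avg fun p : Pm nA k l => Ψ p.1 p.2.1 p.2.2.1 p.2.2.2.1 p.2.2.2.2.1 p.2.2.2.2.2.1
      p.2.2.2.2.2.2) = avg fun j => avg fun w => avg fun θ0 => avg fun θ1 => avg fun y =>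
      avg fun M => avg fun φ => Ψ j w θ0 θ1 y M φ := by
  simp only [avg_prod_comm]

/-- The value of the tests of a tuple. -/
lemma sum_trip_le (hl : 0 < l) [NeZero k] (WC WA : ℕ) (e : Fin k → Cs nA nB)
    (A : ℕ → Fin (2 * 2 ^ l)) (B : ℕ → Fin (2 ^ l)) :
    (∑ p : Pm nA k l, ls (trip WC WA e p) fun c => if satc A B c then (c.w : ℝ) else 0) ≤
      Fintype.card (Pm nA k l) * (WC * valC (tG B e) (fun M y => lA A (Sum.inl (e, M, y))) +
        WA * (valA (tG B e) (fun j w M => lA A (Sum.inr (e, j, w, M))) +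
        2 * valN (fun j w M => lA A (Sum.inr (e, j, w, M))) (r1B B e))) := by
  have hne : Nonempty (Fin k) := ⟨0⟩
  rw [sum_idx_eq_avg]
  refine mul_le_mul_of_nonneg_left ?_ (Nat.cast_nonneg _)
  have h1 : ∀ (j : Fin k) (w : Fin nA → ZMod 2) (θ0 θ1 : K l) (y : Fin k × Fin nA → ZMod 2)
      (M : Fin k × Fin nA → K l) (φ : K l),
      (ls (trip WC WA e (j, w, θ0, θ1, y, M, φ)) fun c =>
        if satc A B c then (c.w : ℝ) else 0) ≤
      WC * ind (tG B e (M + tns y φ) = (lA A (Sum.inl (e, M, y))).1 +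
        (lA A (Sum.inl (e, M, y))).2 • φ) +
      (WA * ind (tG B e (M + tns (atb j w) φ) = (lA A (Sum.inr (e, j, w, M))).1 +
        (lA A (Sum.inr (e, j, w, M))).2 • φ) +
      (2 * WA) * ind (SatN (lA A (Sum.inr (e, j, w, M))) (r1B B e j w θ0 θ1 M)
        (nz θ0) (nz θ1))) := by
    intro j w θ0 θ1 y M φ
    unfold trip
    simp only [ls_cons, ls_nil]
    rw [add_zero]
    refine add_le_add ?_ (add_le_add ?_ ?_)
    · by_cases h : satc A B (lnC (Sum.inl (e, M, y)) e (M + tns y φ) φ WC)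
      · rw [if_pos h, ind_true (satc_lnC.1 h), mul_one]
        rfl
      · rw [if_neg h]
        exact mul_nonneg (Nat.cast_nonneg _) (ind_nonneg _)
    · by_cases h : satc A B (lnC (Sum.inr (e, j, w, M)) e (M + tns (atb j w) φ) φ WA)
      · rw [if_pos h, ind_true (satc_lnC.1 h), mul_one]
        rfl
      · rw [if_neg h]
        exact mul_nonneg (Nat.cast_nonneg _) (ind_nonneg _)
    · by_cases h : satc A B (loC e j w θ0 θ1 M (2 * WA))
      · rw [if_pos h, ind_true (satc_loC hl h), mul_one]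
        refine le_of_eq ?_
        unfold loC
        push_cast
        rfl
      · rw [if_neg h]
        exact mul_nonneg (by positivity) (ind_nonneg _)
  have h2 := avg_mono fun p : Pm nA k l => h1 p.1 p.2.1 p.2.2.1 p.2.2.2.1 p.2.2.2.2.1
    p.2.2.2.2.2.1 p.2.2.2.2.2.2
  refine h2.trans (le_of_eq ?_)
  have e1 := avg_Pm fun (_ : Fin k) (_ : Fin nA → ZMod 2) (_ _ : K l)
    (y : Fin k × Fin nA → ZMod 2) (M : Fin k × Fin nA → K l) (φ : K l) =>
    ind (tG B e (M + tns y φ) = (lA A (Sum.inl (e, M, y))).1 +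
        (lA A (Sum.inl (e, M, y))).2 • φ)
  have e2 := avg_Pm fun (j : Fin k) (w : Fin nA → ZMod 2) (_ _ : K l)
    (_ : Fin k × Fin nA → ZMod 2) (M : Fin k × Fin nA → K l) (φ : K l) =>
    ind (tG B e (M + tns (atb j w) φ) = (lA A (Sum.inr (e, j, w, M))).1 +
        (lA A (Sum.inr (e, j, w, M))).2 • φ)
  have e3 := avg_Pm fun (j : Fin k) (w : Fin nA → ZMod 2) (θ0 θ1 : K l)
    (_ : Fin k × Fin nA → ZMod 2) (M : Fin k × Fin nA → K l) (_ : K l) =>
    ind (SatN (lA A (Sum.inr (e, j, w, M))) (r1B B e j w θ0 θ1 M) (nz θ0) (nz θ1))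
  simp only [avg_const] at e1 e2 e3
  rw [avg_add, avg_add, avg_const_mul, avg_const_mul, avg_const_mul, e1, e2, e3]
  unfold valC valA valN
  ring

end

end Vale.Agent.P339.H937
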