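import Vale.Agent.P339.H937.Game

/-!
P339: soundness of the whole game.
-/

namespace Vale.Agent.P339.H937

open Finset Vale.Agent.Lib.PCP Vale.Agent.Lib.PCP.HA Vale.Agent.P339.H283
  Vale.Agent.Lib.PolyTime Vale.Agent.P333.NP

section

variable {nA nB k l : ℕ} [NeZero nA] [NeZero nB]

/-- The trivial bound for a tuple. -/
lemma sum_trip_triv (WC WA : ℕ) (e : Fin k → Cs nA nB)
    (A : ℕ → Fin (2 * 2 ^ l)) (B : ℕ → Fin (2 ^ l)) :
    (∑ p : Pm nA k l, ls (trip WC WA e p) fun c => if satc A B c then (c.w : ℝ) else 0) ≤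
      Fintype.card (Pm nA k l) * (WC + 3 * WA) := by
  have h1 : ∀ p : Pm nA k l, (ls (trip WC WA e p) fun c =>
      if satc A B c then (c.w : ℝ) else 0) ≤ WC + 3 * WA := by
    intro p
    have h2 : (ls (trip WC WA e p) fun c => (c.w : ℝ)) = WC + 3 * WA := by
      obtain ⟨j, w, θ0, θ1, y, M, φ⟩ := p
      unfold trip lnC loC
      simp only [ls_cons, ls_nil]
      push_cast
      ring
    rw [← h2]
    refine ls_mono fun c _ => ?_
    split_ifs
    · exact le_rfl
    · exact Nat.cast_nonneg _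
  refine (Finset.sum_le_sum fun p _ => h1 p).trans (le_of_eq ?_)
  rw [Finset.sum_const, Finset.card_univ, nsmul_eq_mul]

open Classical in
/-- **Soundness of the game.** -/
theorem gm_sound (hl : 0 < l) [NeZero k] {WC WA : ℕ} {E : PG ℕ ℕ (Fin nA) (Fin nB)}
    (hE : E ≠ []) {η : ℝ} (hs : E.Sound η) (hsur : ∀ c ∈ E, Function.Surjective c.2.2)
    {c c1 ρ δ γ ε S : ℝ} {K0 : ℕ} (hc0 : 0 < c) (hc : 1 / 2 ^ l < c) (hc1 : 0 < c1)
    (hρ0 : 0 ≤ ρ) (hρ : c ^ 2 + 14 / 2 ^ l ≤ ρ ^ 4) (hδ : (1 / c) ^ 2 / 2 ^ l ≤ δ) (hδ1 : δ ≤ 1)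
    (hγ : 0 < γ) (hγc : γ + 2 * rho nA nB l + Real.sqrt (1 / (c1 * k * rho nA nB l)) ≤
      (c - 1 / 2 ^ l) ^ 2) (hK0 : 0 < K0) (hη : η ≤ ε * (c1 * γ ^ 2 / K0)) (hS0 : 0 ≤ S)
    (hS : max (WC * Real.sqrt (1 / 2) + 3 * WA) ((WC : ℝ) + 2 * WA) +
        (WC * (Real.sqrt (2 / 2 ^ l + ρ / 2 + 2 * δ) + 1 / c / 2 ^ l) +
        WA * (13 * (1 / c) / 2 ^ l + 2 * (1 / c) * (c1 + 1 / 2 ^ K0))) ≤ S * (WC + 3 * WA))
    (A : ℕ → Fin (2 * 2 ^ l)) (B : ℕ → Fin (2 ^ l)) :
    (weight ((gm k l WC WA E).filter fun e => e.π (A e.u) = B e.v) : ℝ) ≤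
      (S + ε) * weight (gm k l WC WA E) := by
  have h0 : (weight ((gm k l WC WA E).filter fun e => e.π (A e.u) = B e.v) : ℝ) =
      weight ((gm k l WC WA E).filter fun e => satc A B e) := rfl
  rw [h0, weight_filter_real (gm k l WC WA E) (satc A B), ls_gm, gm_weight, tup_length, ls_tup]
  have hk : 0 < k := Nat.pos_of_ne_zero (NeZero.ne k)
  have hlen : 0 < E.length := List.length_pos_iff.2 hE
  have hP : (0 : ℝ) ≤ Fintype.card (Pm nA k l) := Nat.cast_nonneg _
  have hW : (0 : ℝ) ≤ WC + 3 * WA := by positivity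
  have hp : (0 : ℝ) < c1 * γ ^ 2 / K0 := by
    have : (0 : ℝ) < K0 := by exact_mod_cast hK0
    positivity
  -- one tuple
  have h1 : ∀ f : Fin k → Fin E.length, (∑ p : Pm nA k l, ls (trip WC WA (tpl E f) p) fun c =>
      if satc A B c then (c.w : ℝ) else 0) ≤ Fintype.card (Pm nA k l) * (WC + 3 * WA) *
        (S + ind (Good uD vD (tF B) c c1 K0 (tpl E f))) := by
    intro f
    have hsf : ∀ i, Function.Surjective (tpl E f i).2.2 := fun i => hsur _ (List.get_mem _ _)
    by_cases hg : Good uD vD (tF B) c c1 K0 (tpl E f)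
    · rw [ind_true hg]
      refine (sum_trip_triv WC WA (tpl E f) A B).trans ?_
      refine le_mul_of_one_le_right (mul_nonneg hP hW) ?_
      linarith
    · rw [ind_false hg, add_zero]
      refine (sum_trip_le hl WC WA (tpl E f) A B).trans ?_
      rw [mul_assoc]
      refine mul_le_mul_of_nonneg_left ?_ hP
      rw [mul_comm ((WC : ℝ) + 3 * WA) S]
      refine le_trans ?_ hS
      refine inner_le (tG B (tpl E f)) _ _ _ ?_ hc0 hc.le hc1.le hρ0 hρ hδ hδ1
        (Nat.cast_nonneg _) (Nat.cast_nonneg _) ?_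
      · intro j w θ0 θ1 u M
        unfold r1B
        rw [red_dis]
      · intro h hmu
        by_contra hcon
        push Not at hcon
        refine hg ⟨h, hmu, fun j => ?_, hcon.le⟩
        exact odd_of_folded (tG B (tpl E f)) (fun j x M => tG_fold hsf j x M)
          (lt_of_lt_of_le hc hmu) j
  refine (Finset.sum_le_sum fun f _ => h1 f).trans ?_
  rw [← Finset.mul_sum, Finset.sum_add_distrib, Finset.sum_const, Finset.card_univ,
    Fintype.card_fun, Fintype.card_fin, Fintype.card_fin, nsmul_eq_mul]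
  have hne : Nonempty (Fin k → Fin E.length) := ⟨fun _ => ⟨0, hlen⟩⟩
  have h2 := avg_good_le (l := l) (k := k) (sU := uD) (sV := vD) (F := tF B) (K0 := K0) E hE hs
    hsur hc.le hc1 hk hγ.le hγc
  have h3 : (avg fun f : Fin k → Fin E.length =>
      ind (Good uD vD (tF B) c c1 K0 (tpl E f))) ≤ ε :=
    le_of_mul_le_mul_right (h2.trans hη) hp
  rw [sum_eq_card_mul_avg, Fintype.card_fun, Fintype.card_fin, Fintype.card_fin]
  push_cast
  have hn : (0 : ℝ) ≤ (E.length : ℝ) ^ k := by positivity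
  have h4 := mul_le_mul_of_nonneg_left h3 hn
  have h5 : (E.length : ℝ) ^ k * S + (E.length : ℝ) ^ k * (avg fun f : Fin k → Fin E.length =>
      ind (Good uD vD (tF B) c c1 K0 (tpl E f))) ≤ (S + ε) * (E.length : ℝ) ^ k := by
    linarith
  have h6 := mul_le_mul_of_nonneg_left h5 (mul_nonneg hP hW)
  refine h6.trans (le_of_eq ?_)
  ring

/-! ### Completeness -/

/-- The value of an assignment at a point. -/
def hon (a : ℕ → Fin nA) (e : Fin k → Cs nA nB) (M : Fin k × Fin nA → K l) : K l :=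
  ∑ j, M (j, a (e j).1)

omit [NeZero nA] [NeZero nB] in
lemma hon_tns (a : ℕ → Fin nA) (e : Fin k → Cs nA nB) (M : Fin k × Fin nA → K l)
    (y : Fin k × Fin nA → ZMod 2) (φ : K l) :
    hon a e (M + tns y φ) = hon a e M + (∑ j, y (j, a (e j).1)) • φ := by
  unfold hon tns
  simp only [Pi.add_apply]
  rw [Finset.sum_add_distrib, Finset.sum_smul]

/-- The value of a block descriptor. -/
def val (a : ℕ → Fin nA) (b : ℕ → Fin nB) : Blk nA nB l → K l :=
  Sum.elim (fun x => x.2 (a x.1)) fun x => x.2 (b x.1)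

lemma val_dsc {a : ℕ → Fin nA} {b : ℕ → Fin nB} {c : Cs nA nB} (h : c.2.2 (a c.1) = b c.2.1)
    (m : Fin nA → K l) : val a b (dsc c m).1 + (dsc c m).2 = m (a c.1) := by
  by_cases hf : Fac c.2.2 m
  · unfold dsc st
    rw [dif_pos hf]
    unfold vD val
    dsimp only
    rw [Sum.elim_inr]
    dsimp only
    rw [add_assoc, K_add_self, add_zero, ← h]
    exact (congrFun hf.choose_spec (a c.1)).symm
  · unfold dsc
    rw [st_not_fac hf]
    unfold uD val
    dsimp only
    rw [Sum.elim_inl]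
    dsimp only
    rw [add_assoc, K_add_self, add_zero]

lemma sum_val {a : ℕ → Fin nA} {b : ℕ → Fin nB} {e : Fin k → Cs nA nB}
    (h : ∀ j, (e j).2.2 (a (e j).1) = b (e j).2.1) (N : Fin k × Fin nA → K l) :
    ∑ j, val a b (dsc (e j) (blk j N)).1 = hon a e N + off e N := by
  unfold hon off
  rw [← Finset.sum_add_distrib]
  refine Finset.sum_congr rfl fun j _ => ?_
  have h1 := val_dsc (h j) (blk j N)
  have h2 : N (j, a (e j).1) = blk j N (a (e j).1) := rfl
  rw [h2, ← h1, add_assoc, K_add_self, add_zero]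

/-- The left labels. -/
def lbL (a : ℕ → Fin nA) : LV nA nB k l → K l × ZMod 2 :=
  Sum.elim (fun x => (hon a x.1 x.2.1, ∑ j, x.2.2 (j, a (x.1 j).1)))
    fun x => (hon a x.1 x.2.2.2, x.2.2.1 (a (x.1 x.2.1).1))

/-- The right labels. -/
noncomputable def lbR (a : ℕ → Fin nA) (b : ℕ → Fin nB) : RV nA nB k l → Fin (2 ^ l) :=
  Sum.elim (fun x => eR l (∑ j, val a b (x j)))
    fun x => Phi x.2.2.2.1 x.2.2.2.2.1 (hon a x.1 x.2.2.2.2.2, x.2.2.1 (a (x.1 x.2.1).1))

open Classical in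
/-- The labels of named left vertices. -/
noncomputable def hA (k l : ℕ) (a : ℕ → Fin nA) (nB : ℕ) (n : ℕ) : Fin (2 * 2 ^ l) :=
  if h : ∃ x : LV nA nB k l, nmL x = n then eL l (lbL a h.choose) else eL l 0

open Classical in
/-- The labels of named right vertices. -/
noncomputable def hB (k l : ℕ) (a : ℕ → Fin nA) (b : ℕ → Fin nB) (n : ℕ) : Fin (2 ^ l) :=
  if h : ∃ x : RV nA nB k l, nmR x = n then lbR a b h.choose else eR l 0

omit [NeZero nA] [NeZero nB] in
lemma hA_nm (a : ℕ → Fin nA) (x : LV nA nB k l) : hA k l a nB (nmL x) = eL l (lbL a x) := by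
  have h : ∃ y : LV nA nB k l, nmL y = nmL x := ⟨x, rfl⟩
  unfold hA
  rw [dif_pos h, nmL_inj h.choose_spec]

omit [NeZero nA] [NeZero nB] in
lemma hB_nm (a : ℕ → Fin nA) (b : ℕ → Fin nB) (x : RV nA nB k l) :
    hB k l a b (nmR x) = lbR a b x := by
  have h : ∃ y : RV nA nB k l, nmR y = nmR x := ⟨x, rfl⟩
  unfold hB
  rw [dif_pos h, nmR_inj h.choose_spec]

lemma lnC_complete {a : ℕ → Fin nA} {b : ℕ → Fin nB} {e : Fin k → Cs nA nB}
    (he : ∀ j, (e j).2.2 (a (e j).1) = b (e j).2.1) {x : LV nA nB k l}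
    {N : Fin k × Fin nA → K l} {φ : K l} {W : ℕ}
    (h : hon a e N = (lbL a x).1 + (lbL a x).2 • φ) :
    (lnC x e N φ W).π (hA k l a nB (lnC x e N φ W).u) = hB k l a b (lnC x e N φ W).v := by
  unfold lnC mkM
  dsimp only
  rw [hA_nm, hB_nm, Equiv.symm_apply_apply]
  unfold lin lbR r0
  rw [Sum.elim_inl, sum_val he, h]

/-- **Completeness of the game.** -/
theorem gm_complete (hl : 0 < l) {WC WA : ℕ} {E : PG ℕ ℕ (Fin nA) (Fin nB)} {a : ℕ → Fin nA}
    {b : ℕ → Fin nB} (hab : ∀ c ∈ E, c.2.2 (a c.1) = b c.2.1) :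
    ∀ c ∈ gm k l WC WA E, c.π (hA k l a nB c.u) = hB k l a b c.v := by
  intro c hc
  unfold gm at hc
  rw [List.mem_flatMap] at hc
  obtain ⟨e, he, hc⟩ := hc
  have he' : ∀ j, (e j).2.2 (a (e j).1) = b (e j).2.1 := fun j => hab _ (mem_tup he j)
  rw [List.mem_flatMap] at hc
  obtain ⟨⟨j, w, θ0, θ1, y, M, φ⟩, _, hc⟩ := hc
  unfold trip at hc
  simp only [List.mem_cons, List.not_mem_nil, or_false] at hc
  rcases hc with rfl | rfl | rfl
  · refine lnC_complete he' ?_
    rw [hon_tns]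
    rfl
  · refine lnC_complete he' ?_
    rw [hon_tns]
    unfold lbL
    rw [Sum.elim_inr]
    dsimp only
    congr 2
    rw [Finset.sum_eq_single j]
    · unfold atb
      dsimp only
      rw [if_pos rfl]
    · intro i _ hi
      unfold atb
      dsimp only
      rw [if_neg hi]
    · intro h
      exact absurd (Finset.mem_univ j) h
  · unfold loC mkM
    dsimp only
    rw [hA_nm, hB_nm, Equiv.symm_apply_apply]
    unfold lbL lbR
    rw [Sum.elim_inr, Sum.elim_inr]
    dsimp only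
    obtain ⟨u, hu⟩ := exists_red j w θ0 θ1 M
    have h1 : hon a e M = hon a e (red j w θ0 θ1 M) + u (a (e j).1) •
        (if w (a (e j).1) = 0 then nz θ0 else nz θ1) := by
      conv_lhs => rw [hu]
      unfold hon
      simp only [Pi.add_apply]
      rw [Finset.sum_add_distrib]
      congr 1
      rw [Finset.sum_eq_single j]
      · unfold dis
        dsimp only
        rw [if_pos rfl]
      · intro i _ hi
        unfold dis
        dsimp only
        rw [if_neg hi]
      · intro h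
        exact absurd (Finset.mem_univ j) h
    rw [h1]
    exact Phi_shift hl θ0 θ1 _ _ _

/-! ### Polynomial time -/

variable {A : Set Word} {α : Type*} [Enc α]

omit [NeZero nA] [NeZero nB] in
lemma PT_nmL {f : α → LV nA nB k l} (hf : PT A f) : PT A (fun a => nmL (f a)) := hf.wcode

omit [NeZero nA] [NeZero nB] in
lemma PT_nmR {f : α → RV nA nB k l} (hf : PT A f) : PT A (fun a => nmR (f a)) := hf.wcode

lemma PT_dsc {c : α → Cs nA nB} (hc : PT A c) (m : Fin nA → K l) :
    PT A (fun a => (dsc (c a) m).1) := by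
  have h1 := hc.fst
  have h2 := hc.snd.fst
  have h3 := hc.snd.snd
  refine PT.finCase (c := fun a => (c a).2.2)
    (f := fun π a => (dsc ((c a).1, (c a).2.1, π) m).1) h3 fun π => ?_
  by_cases hf : Fac π m
  · have e1 : ∀ a, (dsc ((c a).1, (c a).2.1, π) m).1 =
        (Sum.inr ((c a).2.1, fun b => hf.choose b + hf.choose 0) : Blk nA nB l) := by
      intro a
      unfold dsc st
      rw [dif_pos hf]
      rfl
    simp only [e1]
    exact PT.inr (h2.pair (PT.const _))
  · have e1 : ∀ a, (dsc ((c a).1, (c a).2.1, π) m).1 =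
        (Sum.inl ((c a).1, fun b => m b + m 0) : Blk nA nB l) := by
      intro a
      unfold dsc st
      rw [dif_neg hf]
      rfl
    simp only [e1]
    exact PT.inl (h1.pair (PT.const _))

lemma dsc_snd (c : Cs nA nB) (m : Fin nA → K l) :
    (dsc c m).2 = (dsc ((0, 0, c.2.2) : Cs nA nB) m).2 := by
  by_cases hf : Fac c.2.2 m
  · unfold dsc st
    rw [dif_pos hf, dif_pos hf]
    rfl
  · unfold dsc st
    rw [dif_neg hf, dif_neg hf]
    rfl

lemma PT_lnC {x : α → LV nA nB k l} {e : α → Fin k → Cs nA nB} (hx : PT A x) (he : PT A e)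
    (N : Fin k × Fin nA → K l) (φ : K l) (W : ℕ) :
    PT A (fun a => raw (lnC (x a) (e a) N φ W)) := by
  have h1 : PT A (fun a => nmR (r0 (e a) N)) := by
    unfold r0
    exact PT_nmR (PT.inl (PT.funMk fun j => PT_dsc (PT.funAt he j) (blk j N)))
  have h2 : ∀ a, (List.ofFn fun t : Fin (2 * 2 ^ l) => (mkM (lin φ (off (e a) N)) t : ℕ)) =
      (fun πs : Fin k → Fin nA → Fin nB => List.ofFn fun t : Fin (2 * 2 ^ l) =>
        (mkM (lin φ (∑ j, (dsc ((0, 0, πs j) : Cs nA nB) (blk j N)).2)) t : ℕ))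
        (fun j => (e a j).2.2) := by
    intro a
    dsimp only
    unfold off
    simp only [← dsc_snd]
  have h3 : PT A (fun a => List.ofFn fun t : Fin (2 * 2 ^ l) =>
      (mkM (lin φ (off (e a) N)) t : ℕ)) := by
    refine PT.congr ?_ fun a => (h2 a).symm
    refine PT.finComp (fun πs : Fin k → Fin nA → Fin nB => List.ofFn fun t : Fin (2 * 2 ^ l) =>
        (mkM (lin φ (∑ j, (dsc ((0, 0, πs j) : Cs nA nB) (blk j N)).2)) t : ℕ)) ?_
    exact PT.funMk fun j => (PT.funAt he j).snd.snd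
  unfold raw lnC
  exact (PT_nmL hx).pair (h1.pair (h3.pair (PT.const _)))

lemma PT_trip {e : α → Fin k → Cs nA nB} (he : PT A e) (WC WA : ℕ) (p : Pm nA k l) :
    PT A (fun a => (trip WC WA (e a) p).map raw) := by
  obtain ⟨j, w, θ0, θ1, y, M, φ⟩ := p
  unfold trip
  simp only [List.map_cons, List.map_nil]
  refine PT.cons (PT_lnC (PT.inl (he.pair (PT.const _))) he _ _ _)
    (PT.cons (PT_lnC (PT.inr (he.pair (PT.const _))) he _ _ _) (PT.cons ?_ PT.nil))
  have h1 : PT A (fun _ : α => ((List.ofFn fun t : Fin (2 * 2 ^ l) =>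
      (mkM (Phi θ0 θ1) t : ℕ), 2 * WA) : List ℕ × ℕ)) := PT.const _
  unfold raw loC
  exact (PT_nmL (PT.inr (he.pair (PT.const _)))).pair
    ((PT_nmR (PT.inr (he.pair (PT.const _)))).pair h1)

lemma PT_gm {E : α → PG ℕ ℕ (Fin nA) (Fin nB)} (hE : PT A E) (WC WA : ℕ) :
    PT A (fun a => (gm k l WC WA (E a)).map raw) := by
  have h1 : ∀ a, (gm k l WC WA (E a)).map raw = (tup (E a) k).flatMap fun e =>
      (Finset.univ : Finset (Pm nA k l)).toList.flatMap fun p => (trip WC WA e p).map raw := by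
    intro a
    unfold gm
    simp only [List.map_flatMap]
  simp only [h1]
  exact PT.flatMap (f := fun (_ : α) (e : Fin k → Cs nA nB) =>
    (Finset.univ : Finset (Pm nA k l)).toList.flatMap fun p => (trip WC WA e p).map raw)
    (PT_tup hE k) (PT.flatMapConst _ fun p _ => PT_trip PT.snd' WC WA p)

end

end Vale.Agent.P339.H937
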