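import Vale.Agent.P339.H937.Local

/-!
P339: the value of the tests for a table without decodable affine functions.
-/

namespace Vale.Agent.P339.H937

open Finset Vale.Agent.Lib.PCP Vale.Agent.Lib.PCP.HA Vale.Agent.P339.H283

variable {l k nA : ℕ}

/-- The value of the second local test. -/
noncomputable def valN (l1 : Fin k → (Fin nA → ZMod 2) → (Fin k × Fin nA → K l) → K l × ZMod 2)
    (r1 : Fin k → (Fin nA → ZMod 2) → K l → K l → (Fin k × Fin nA → K l) → K l × ZMod 2) : ℝ :=
  avg fun j : Fin k => avg fun w : Fin nA → ZMod 2 => avg fun θ0 : K l => avg fun θ1 : K l =>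
    avg fun M : Fin k × Fin nA → K l =>
      ind (SatN (l1 j w M) (r1 j w θ0 θ1 M) (nz θ0) (nz θ1))

/-- Averaging over the displacements. -/
lemma avg_lift (j : Fin k) (w : Fin nA → ZMod 2) (θ0 θ1 : K l)
    (Φ : (Fin k × Fin nA → K l) → ℝ) :
    avg Φ = avg fun M => avg fun u : Fin nA → ZMod 2 => Φ (M + dis j w u θ0 θ1) := by
  have e1 : ∀ u : Fin nA → ZMod 2,
      (avg fun M : Fin k × Fin nA → K l => Φ (M + dis j w u θ0 θ1)) = avg Φ := fun u =>
    avg_add_right (dis j w u θ0 θ1) Φ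
  have e2 := avg_comm fun (M : Fin k × Fin nA → K l) (u : Fin nA → ZMod 2) =>
    Φ (M + dis j w u θ0 θ1)
  rw [e2, avg_congr e1, avg_const]

lemma avg_ind_forall_le (S : Finset (Fin nA)) (c : ZMod 2) :
    (avg fun w : Fin nA → ZMod 2 => ind (∀ a ∈ S, w a = c)) ≤ 1 / 2 ^ S.card := by
  classical
  induction S using Finset.induction_on with
  | empty =>
    rw [Finset.card_empty, pow_zero, div_one]
    exact avg_le_of_le zero_le_one fun w => ind_le_one _
  | insert a S ha ih =>
    set X : (Fin nA → ZMod 2) → ℝ := fun w => ind (∀ x ∈ S, w x = c) with hX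
    set Y : (Fin nA → ZMod 2) → ℝ := fun w => ind (∀ x ∈ insert a S, w x = c) with hY
    have h1 := avg_add_right (Pi.single a 1 : Fin nA → ZMod 2) Y
    have h2 : avg (fun w => Y w + Y (w + Pi.single a 1)) ≤ avg X := by
      refine avg_mono fun w => ?_
      simp only [hX, hY]
      by_cases hS : ∀ x ∈ S, w x = c
      · rw [ind_true hS]
        by_cases hw : w a = c
        · have : ind (∀ x ∈ insert a S, (w + Pi.single a 1 : Fin nA → ZMod 2) x = c) = 0 := by
            refine ind_false fun h => ?_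
            have h3 := h a (Finset.mem_insert_self _ _)
            rw [Pi.add_apply, Pi.single_eq_same, hw] at h3
            exact bit_add_one_ne c h3
          rw [this, add_zero]
          exact ind_le_one _
        · have : ind (∀ x ∈ insert a S, w x = c) = 0 :=
            ind_false fun h => hw (h a (Finset.mem_insert_self _ _))
          rw [this, zero_add]
          exact ind_le_one _
      · have h3 : ind (∀ x ∈ insert a S, w x = c) = 0 :=
          ind_false fun h => hS fun x hx => h x (Finset.mem_insert_of_mem hx)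
        have h4 : ind (∀ x ∈ insert a S, (w + Pi.single a 1 : Fin nA → ZMod 2) x = c) = 0 := by
          refine ind_false fun h => hS fun x hx => ?_
          have h5 := h x (Finset.mem_insert_of_mem hx)
          have hxa : x ≠ a := fun h6 => ha (h6 ▸ hx)
          rwa [Pi.add_apply, Pi.single_eq_of_ne hxa, add_zero] at h5
        rw [h3, h4, ind_false hS, add_zero]
    rw [avg_add, h1] at h2
    rw [Finset.card_insert_of_notMem ha, pow_succ]
    have h3 : (1 : ℝ) / (2 ^ S.card * 2) = 1 / 2 * (1 / 2 ^ S.card) := by field_simp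
    rw [h3]
    have h4 : avg Y ≤ 1 / 2 * avg X := by linarith
    exact h4.trans (mul_le_mul_of_nonneg_left ih (by norm_num))

lemma avg_Bad1_le (t : Fin k × Fin nA → ZMod 2) (j : Fin k) (K0 : ℕ) :
    (avg fun w : Fin nA → ZMod 2 => ind (Bad1 t j w)) ≤
      ind ((sup fun a => t (j, a)).card ≤ K0) + 1 / 2 ^ K0 := by
  have hpow : (0 : ℝ) ≤ 1 / 2 ^ K0 := by positivity
  by_cases hS : (sup fun a => t (j, a)).card ≤ K0
  · rw [ind_true hS]
    have : (avg fun w : Fin nA → ZMod 2 => ind (Bad1 t j w)) ≤ 1 :=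
      avg_le_of_le zero_le_one fun w => ind_le_one _
    linarith
  · rw [ind_false hS, zero_add]
    set S := sup fun a => t (j, a) with hSd
    have h1 : ∀ w : Fin nA → ZMod 2, ind (Bad1 t j w) ≤
        ind (∀ a ∈ S, w a = 0) + ind (∀ a ∈ S, w a = 1) := by
      intro w
      by_cases hb : Bad1 t j w
      · rw [ind_true hb]
        have hm : ∀ a ∈ S, t (j, a) ≠ 0 := by
          intro a ha
          rw [hSd] at ha
          unfold sup at ha
          exact (Finset.mem_filter.1 ha).2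
        rcases bit_cases (t ⬝ᵥ atb j w) with h0 | h0
        · have : ∀ a ∈ S, w a = 0 := fun a ha => (hb a (hm a ha)).trans h0
          rw [ind_true this]
          linarith [ind_nonneg (∀ a ∈ S, w a = 1)]
        · have : ∀ a ∈ S, w a = 1 := fun a ha => (hb a (hm a ha)).trans h0
          rw [ind_true this]
          linarith [ind_nonneg (∀ a ∈ S, w a = 0)]
      · rw [ind_false hb]
        exact add_nonneg (ind_nonneg _) (ind_nonneg _)
    refine (avg_mono h1).trans ?_
    rw [avg_add]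
    have h2 := avg_ind_forall_le S 0
    have h3 := avg_ind_forall_le S 1
    have h4 : (1 : ℝ) / 2 ^ S.card ≤ 1 / 2 ^ (K0 + 1) := by
      apply one_div_le_one_div_of_le (by positivity)
      exact pow_le_pow_right₀ (by norm_num) (by omega)
    have h5 : (1 : ℝ) / 2 ^ K0 = 2 * (1 / 2 ^ (K0 + 1)) := by
      rw [pow_succ]
      field_simp
    rw [h5]
    linarith

lemma avg_exc_le (H : Finset ((Fin k × Fin nA → ZMod 2) × K l)) (x : K l × ZMod 2)
    (M : Fin k × Fin nA → K l) :
    (avg fun θ0 : K l => avg fun θ1 : K l => exc H (nz θ0) (nz θ1) x M) ≤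
      6 * H.card / 2 ^ l := by
  unfold exc
  simp only [avg_sum]
  have h1 : ∀ h ∈ H, (avg fun θ0 : K l => avg fun θ1 : K l => (ind (x.1 + aff h M = nz θ0) +
      ind (x.1 + aff h M = nz θ1) + ind (x.1 + aff h M = nz θ0 + nz θ1))) ≤ 6 / 2 ^ l := by
    intro h _
    generalize x.1 + aff h M = z
    have e1 : (avg fun θ0 : K l => avg fun θ1 : K l => ind (z = nz θ0)) ≤ 2 / 2 ^ l := by
      have := avg_nz z
      refine le_trans (avg_mono fun θ0 => ?_) this
      rw [avg_const]
    have e2 : (avg fun θ0 : K l => avg fun θ1 : K l => ind (z = nz θ1)) ≤ 2 / 2 ^ l :=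
      avg_le_of_le (by positivity) fun θ0 => avg_nz z
    have e3 : (avg fun θ0 : K l => avg fun θ1 : K l => ind (z = nz θ0 + nz θ1)) ≤ 2 / 2 ^ l := by
      refine avg_le_of_le (by positivity) fun θ0 => ?_
      refine le_trans (avg_mono fun θ1 => ind_mono fun h => ?_) (avg_nz (z + nz θ0))
      rw [h]
      have : nz θ0 + nz θ1 + nz θ0 = nz θ1 + (nz θ0 + nz θ0) := by abel
      rw [this, K_add_self, add_zero]
    simp only [avg_add]
    have h6 : (6 : ℝ) / 2 ^ l = 2 / 2 ^ l + 2 / 2 ^ l + 2 / 2 ^ l := by ring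
    rw [h6]
    linarith
  refine (Finset.sum_le_sum h1).trans (le_of_eq ?_)
  rw [Finset.sum_const, nsmul_eq_mul]
  ring

/-- **The bound for the second local test.** -/
theorem valN_le (H : Finset ((Fin k × Fin nA → ZMod 2) × K l))
    (l1 : Fin k → (Fin nA → ZMod 2) → (Fin k × Fin nA → K l) → K l × ZMod 2)
    (r1 : Fin k → (Fin nA → ZMod 2) → K l → K l → (Fin k × Fin nA → K l) → K l × ZMod 2)
    (hr : ∀ j w θ0 θ1 u M, r1 j w θ0 θ1 (M + dis j w u (nz θ0) (nz θ1)) = r1 j w θ0 θ1 M)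
    {c1 : ℝ} {K0 : ℕ} [NeZero k]
    (hH : ∀ h ∈ H, ((univ.filter fun j : Fin k => (sup fun a => h.1 (j, a)).card ≤ K0).card : ℝ) ≤
      c1 * k) :
    valN l1 r1 ≤ 1 - 1 / 2 * prT H l1 + 6 * H.card / 2 ^ l + H.card * (c1 + 1 / 2 ^ K0) := by
  classical
  have hk : (0 : ℝ) < k := by exact_mod_cast Nat.pos_of_ne_zero (NeZero.ne k)
  -- one pair of a block and a local function
  have h1 : ∀ (j : Fin k) (w : Fin nA → ZMod 2) (θ0 θ1 : K l),
      (avg fun M : Fin k × Fin nA → K l =>
        ind (SatN (l1 j w M) (r1 j w θ0 θ1 M) (nz θ0) (nz θ1))) ≤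
      1 - 1 / 2 * (avg fun M : Fin k × Fin nA → K l => ind (Typed H j w (l1 j w M) M)) +
        (avg fun M : Fin k × Fin nA → K l => exc H (nz θ0) (nz θ1) (l1 j w M) M) +
        ∑ h ∈ H, ind (Bad1 h.1 j w) := by
    intro j w θ0 θ1
    have hT1 : (avg fun M : Fin k × Fin nA → K l => ind (Typed H j w (l1 j w M) M)) ≤ 1 :=
      avg_le_of_le zero_le_one fun M => ind_le_one _
    have hE0 : 0 ≤ avg fun M : Fin k × Fin nA → K l =>
        exc H (nz θ0) (nz θ1) (l1 j w M) M := avg_nonneg fun M => exc_nonneg _ _ _ _ _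
    by_cases hb : ∀ h ∈ H, ¬ Bad1 h.1 j w
    · have e0 : ∑ h ∈ H, ind (Bad1 h.1 j w) = 0 := Finset.sum_eq_zero fun h hh =>
        ind_false (hb h hh)
      rw [e0, add_zero]
      rw [avg_lift j w (nz θ0) (nz θ1) fun M =>
        ind (SatN (l1 j w M) (r1 j w θ0 θ1 M) (nz θ0) (nz θ1)),
        avg_lift j w (nz θ0) (nz θ1) fun M => ind (Typed H j w (l1 j w M) M),
        avg_lift j w (nz θ0) (nz θ1) fun M => exc H (nz θ0) (nz θ1) (l1 j w M) M]
      have e1 : ∀ M : Fin k × Fin nA → K l, (avg fun u : Fin nA → ZMod 2 =>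
          ind (SatN (l1 j w (M + dis j w u (nz θ0) (nz θ1)))
            (r1 j w θ0 θ1 (M + dis j w u (nz θ0) (nz θ1))) (nz θ0) (nz θ1))) ≤
          1 - 1 / 2 * (avg fun u : Fin nA → ZMod 2 =>
            ind (Typed H j w (l1 j w (M + dis j w u (nz θ0) (nz θ1)))
              (M + dis j w u (nz θ0) (nz θ1)))) +
          avg fun u : Fin nA → ZMod 2 => exc H (nz θ0) (nz θ1)
            (l1 j w (M + dis j w u (nz θ0) (nz θ1))) (M + dis j w u (nz θ0) (nz θ1)) := by
        intro M
        simp only [hr]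
        exact lifts_le H j w (nz θ0) (nz θ1) M (l1 j w) (r1 j w θ0 θ1 M) hb
      refine (avg_mono e1).trans (le_of_eq ?_)
      rw [avg_add, avg_sub, avg_const, avg_const_mul]
    · push Not at hb
      obtain ⟨h, hh, hbh⟩ := hb
      have e1 := Finset.single_le_sum (f := fun h : (Fin k × Fin nA → ZMod 2) × K l =>
        ind (Bad1 h.1 j w)) (fun h _ => ind_nonneg (Bad1 h.1 j w)) hh
      have e2 := ind_true hbh
      have e3 : (avg fun M : Fin k × Fin nA → K l =>
        ind (SatN (l1 j w M) (r1 j w θ0 θ1 M) (nz θ0) (nz θ1))) ≤ 1 :=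
        avg_le_of_le zero_le_one fun M => ind_le_one _
      linarith
  unfold valN prT
  have h2 : ∀ (j : Fin k) (w : Fin nA → ZMod 2), (avg fun θ0 : K l => avg fun θ1 : K l =>
      avg fun M : Fin k × Fin nA → K l =>
        ind (SatN (l1 j w M) (r1 j w θ0 θ1 M) (nz θ0) (nz θ1))) ≤
      1 - 1 / 2 * (avg fun M : Fin k × Fin nA → K l => ind (Typed H j w (l1 j w M) M)) +
        6 * H.card / 2 ^ l + ∑ h ∈ H, ind (Bad1 h.1 j w) := by
    intro j w
    refine (avg_mono fun θ0 => avg_mono fun θ1 => h1 j w θ0 θ1).trans ?_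
    simp only [avg_add, avg_sub, avg_const]
    refine add_le_add (add_le_add le_rfl ?_) le_rfl
    have e2 : (avg fun θ0 : K l => avg fun θ1 : K l => avg fun M : Fin k × Fin nA → K l =>
        exc H (nz θ0) (nz θ1) (l1 j w M) M) = avg fun M : Fin k × Fin nA → K l =>
        avg fun θ0 : K l => avg fun θ1 : K l => exc H (nz θ0) (nz θ1) (l1 j w M) M := by
      have e3 : ∀ θ0 : K l, (avg fun θ1 : K l => avg fun M : Fin k × Fin nA → K l =>
          exc H (nz θ0) (nz θ1) (l1 j w M) M) = avg fun M : Fin k × Fin nA → K l =>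
          avg fun θ1 : K l => exc H (nz θ0) (nz θ1) (l1 j w M) M := fun θ0 => avg_comm _
      rw [avg_congr e3]
      exact avg_comm _
    rw [e2]
    exact avg_le_of_le (by positivity) fun M => avg_exc_le H (l1 j w M) M
  refine (avg_mono fun j => avg_mono fun w => h2 j w).trans ?_
  have h3 : (avg fun j : Fin k => avg fun w : Fin nA → ZMod 2 =>
      ∑ h ∈ H, ind (Bad1 h.1 j w)) ≤ H.card * (c1 + 1 / 2 ^ K0) := by
    simp only [avg_sum]
    have e1 : ∀ h ∈ H, (avg fun j : Fin k => avg fun w : Fin nA → ZMod 2 =>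
        ind (Bad1 h.1 j w)) ≤ c1 + 1 / 2 ^ K0 := by
      intro h hh
      refine (avg_mono fun j => avg_Bad1_le h.1 j K0).trans ?_
      rw [avg_add, avg_const]
      refine add_le_add ?_ le_rfl
      have e2 : (avg fun j : Fin k => ind ((sup fun a => h.1 (j, a)).card ≤ K0)) =
          ((univ.filter fun j : Fin k => (sup fun a => h.1 (j, a)).card ≤ K0).card : ℝ) / k := by
        unfold avg ind
        rw [Finset.sum_boole, Fintype.card_fin]
      rw [e2, div_le_iff₀ hk]
      exact hH h hh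
    refine (Finset.sum_le_sum e1).trans (le_of_eq ?_)
    rw [Finset.sum_const, nsmul_eq_mul]
  simp only [avg_add, avg_sub, avg_const, avg_const_mul]
  linarith

/-! ### All tests together -/

lemma sqrt_convex {t : ℝ} (h0 : 0 ≤ t) (h1 : t ≤ 1) :
    Real.sqrt ((1 + t ^ 2) / 2) ≤ (1 - t) * Real.sqrt (1 / 2) + t := by
  have hs0 : 0 ≤ Real.sqrt (1 / 2) := Real.sqrt_nonneg _
  have hs : Real.sqrt (1 / 2) ^ 2 = 1 / 2 := Real.sq_sqrt (by norm_num)
  have hs1 : 1 / 2 ≤ Real.sqrt (1 / 2) := by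
    refine Real.le_sqrt_of_sq_le ?_
    norm_num
  refine Real.sqrt_le_iff.2 ⟨by nlinarith, ?_⟩
  have h2 : ((1 - t) * Real.sqrt (1 / 2) + t) ^ 2 =
      (1 - t) ^ 2 * Real.sqrt (1 / 2) ^ 2 + 2 * (1 - t) * t * Real.sqrt (1 / 2) + t ^ 2 := by ring
  rw [h2, hs]
  have h3 : 0 ≤ (1 - t) * t := mul_nonneg (by linarith) h0
  nlinarith [mul_nonneg h3 (sub_nonneg.2 hs1)]

lemma sqrt_add_le' {x y : ℝ} (hx : 0 ≤ x) (hy : 0 ≤ y) :
    Real.sqrt (x + y) ≤ Real.sqrt x + Real.sqrt y := by
  refine Real.sqrt_le_iff.2 ⟨by positivity, ?_⟩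
  have h1 := Real.sq_sqrt hx
  have h2 := Real.sq_sqrt hy
  have h3 : 0 ≤ Real.sqrt x * Real.sqrt y := by positivity
  nlinarith

/-- **The value of the tests for a table without decodable affine functions.** -/
theorem inner_le [NeZero k] (G : (Fin k × Fin nA → K l) → K l)
    (lC : (Fin k × Fin nA → K l) → (Fin k × Fin nA → ZMod 2) → K l × ZMod 2)
    (l1 : Fin k → (Fin nA → ZMod 2) → (Fin k × Fin nA → K l) → K l × ZMod 2)
    (r1 : Fin k → (Fin nA → ZMod 2) → K l → K l → (Fin k × Fin nA → K l) → K l × ZMod 2)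
    (hr : ∀ j w θ0 θ1 u M, r1 j w θ0 θ1 (M + dis j w u (nz θ0) (nz θ1)) = r1 j w θ0 θ1 M)
    {c c1 ρ δ WC WA : ℝ} {K0 : ℕ} (hc : 0 < c) (hcl : 1 / 2 ^ l ≤ c) (hc1 : 0 ≤ c1)
    (hρ0 : 0 ≤ ρ) (hρ : c ^ 2 + 14 / 2 ^ l ≤ ρ ^ 4) (hδ : (1 / c) ^ 2 / 2 ^ l ≤ δ) (hδ1 : δ ≤ 1)
    (hWC : 0 ≤ WC) (hWA : 0 ≤ WA)
    (hG : ∀ h : (Fin k × Fin nA → ZMod 2) × K l, c ≤ mu G h →
      ((univ.filter fun j : Fin k => (sup fun a => h.1 (j, a)).card ≤ K0).card : ℝ) ≤ c1 * k) :
    WC * valC G lC + WA * (valA G l1 + 2 * valN l1 r1) ≤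
      max (WC * Real.sqrt (1 / 2) + 3 * WA) (WC + 2 * WA) +
        (WC * (Real.sqrt (2 / 2 ^ l + ρ / 2 + 2 * δ) + 1 / c / 2 ^ l) +
        WA * (13 * (1 / c) / 2 ^ l + 2 * (1 / c) * (c1 + 1 / 2 ^ K0))) := by
  obtain ⟨H, hH1, hH2, hH3⟩ := exists_list G hc
  have hpow : (0 : ℝ) < 2 ^ l := by positivity
  have hN : (H.card : ℝ) ≤ 1 / c := by rwa [le_div_iff₀ hc]
  have hN0 : (0 : ℝ) ≤ H.card := Nat.cast_nonneg _
  have hω : omg (rest G H) G ≤ ρ := by
    have h1 := rank_one (u := rest G H) (G := G) (rest_nonneg G H) (rest_le_one G H) hcl hH3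
    have h2 : omg (rest G H) G ^ 4 ≤ ρ ^ 4 := h1.trans hρ
    exact le_of_pow_le_pow_left₀ (by norm_num) hρ0 h2
  have hδ' : (H.card : ℝ) ^ 2 / 2 ^ l ≤ δ := by
    refine le_trans ?_ hδ
    exact div_le_div_of_nonneg_right (pow_le_pow_left₀ hN0 hN 2) hpow.le
  have hδ0 : 0 ≤ δ := le_trans (by positivity) hδ'
  have hCv := valC_le G H hω hδ' hδ1 lC
  have hAv := valA_le G H l1
  have hNv := valN_le H l1 r1 hr (c1 := c1) (K0 := K0) fun h hh => hG h (hH2 h hh)
  set t : ℝ := 1 - avg (rest G H) with ht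
  have hr0 : 0 ≤ avg (rest G H) := avg_nonneg fun M => rest_nonneg _ _ _
  have hr1 : avg (rest G H) ≤ 1 := avg_le_of_le zero_le_one fun M => rest_le_one _ _ _
  have ht0 : 0 ≤ t := by linarith
  have ht1 : t ≤ 1 := by linarith
  have h1 : Real.sqrt ((1 + t ^ 2) / 2 + (2 / 2 ^ l + ρ / 2 + 2 * δ)) ≤
      (1 - t) * Real.sqrt (1 / 2) + t + Real.sqrt (2 / 2 ^ l + ρ / 2 + 2 * δ) :=
    (sqrt_add_le' (by positivity) (by positivity)).trans
      (add_le_add (sqrt_convex ht0 ht1) le_rfl)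
  have h2 : (H.card : ℝ) / 2 ^ l ≤ 1 / c / 2 ^ l := div_le_div_of_nonneg_right hN hpow.le
  have h3 : valC G lC ≤ (1 - t) * Real.sqrt (1 / 2) + t +
      (Real.sqrt (2 / 2 ^ l + ρ / 2 + 2 * δ) + 1 / c / 2 ^ l) := by linarith
  have h4 : valA G l1 + 2 * valN l1 r1 ≤ 3 - t +
      (13 * (1 / c) / 2 ^ l + 2 * (1 / c) * (c1 + 1 / 2 ^ K0)) := by
    have e1 : (H.card : ℝ) * (c1 + 1 / 2 ^ K0) ≤ 1 / c * (c1 + 1 / 2 ^ K0) :=
      mul_le_mul_of_nonneg_right hN (by positivity)
    have e2 : 13 * (1 / c) / 2 ^ l = 13 * (1 / c / 2 ^ l) := by ring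
    have e3 : 6 * (H.card : ℝ) / 2 ^ l = 6 * (H.card / 2 ^ l) := by ring
    rw [e3] at hNv
    rw [e2]
    linarith
  have h5 := mul_le_mul_of_nonneg_left h3 hWC
  have h6 := mul_le_mul_of_nonneg_left h4 hWA
  have h7 : (1 - t) * (WC * Real.sqrt (1 / 2) + 3 * WA) + t * (WC + 2 * WA) ≤
      max (WC * Real.sqrt (1 / 2) + 3 * WA) (WC + 2 * WA) := by
    have a1 := mul_le_mul_of_nonneg_left (le_max_left (WC * Real.sqrt (1 / 2) + 3 * WA)
      (WC + 2 * WA)) (sub_nonneg.2 ht1)
    have a2 := mul_le_mul_of_nonneg_left (le_max_right (WC * Real.sqrt (1 / 2) + 3 * WA)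
      (WC + 2 * WA)) ht0
    nlinarith
  nlinarith

/-- The constant displacement of a block. -/
def cst (j : Fin k) (c : K l) : Fin k × Fin nA → K l := fun p => if p.1 = j then c else 0

lemma natCast_card_sup (t : Fin nA → ZMod 2) : ((sup t).card : ZMod 2) = ∑ a, t a := by
  unfold sup
  rw [Finset.card_filter]
  push_cast
  refine Finset.sum_congr rfl fun a _ => ?_
  rcases bit_cases (t a) with h | h <;> simp [h]

/-- The blocks of an affine function which agrees with a folded table are odd. -/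
lemma odd_of_folded (G : (Fin k × Fin nA → K l) → K l)
    (hfold : ∀ (j : Fin k) (c : K l) M, G (M + cst j c) = G M + c)
    {h : (Fin k × Fin nA → ZMod 2) × K l} (hmu : 1 / 2 ^ l < mu G h) (j : Fin k) :
    Odd (sup fun a => h.1 (j, a)).card := by
  rw [← ZMod.natCast_eq_one_iff_odd, natCast_card_sup]
  by_contra hne
  have h0 : ∑ a, h.1 (j, a) = 0 := (bit_cases _).resolve_right hne
  have h1 : ∀ c : K l, mu G h = avg fun M : Fin k × Fin nA → K l => ind (c = G M + aff h M) := by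
    intro c
    unfold mu
    rw [← avg_add_right (cst j c : Fin k × Fin nA → K l)]
    refine avg_congr fun M => ind_congr ?_
    rw [hfold]
    have h2 : aff h (M + cst j c) = aff h M := by
      unfold aff
      rw [evl_add]
      have : evl h.1 (cst j c : Fin k × Fin nA → K l) = 0 := by
        unfold evl
        rw [sum_block j]
        · unfold cst
          simp only [if_true]
          rw [← Finset.sum_smul, h0, zero_smul]
        · intro p hp
          unfold cst
          rw [if_neg hp, smul_zero]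
      rw [this, add_zero]
    rw [h2]
    constructor
    · intro h3
      rw [← h3, ← add_assoc, K_add_self, zero_add]
    · intro h3
      rw [h3, ← add_assoc, K_add_self, zero_add]
  have h2 : mu G h = 1 / 2 ^ l := by
    have e1 : mu G h = avg fun c : K l => avg fun M : Fin k × Fin nA → K l =>
        ind (c = G M + aff h M) := by
      rw [avg_congr fun c => (h1 c).symm, avg_const]
    rw [e1, avg_comm, avg_congr fun M => avg_K_eq (G M + aff h M), avg_const]
  linarith

end Vale.Agent.P339.H937
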