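import Vale.Agent.P339.H937.Dense

/-!
P339: the local tests at a visible block.
-/

namespace Vale.Agent.P339.H937

open Finset Vale.Agent.Lib.PCP Vale.Agent.Lib.PCP.HA Vale.Agent.P339.H283

variable {l k nA : ℕ}

/-- The function `w` of the block `j`. -/
def atb (j : Fin k) (w : Fin nA → ZMod 2) : Fin k × Fin nA → ZMod 2 := fun p =>
  if p.1 = j then w p.2 else 0

/-- A displacement in the block `j` which is not seen by the right vertices of the second kind. -/
def dis (j : Fin k) (w u : Fin nA → ZMod 2) (θ0 θ1 : K l) : Fin k × Fin nA → K l := fun p =>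
  if p.1 = j then u p.2 • (if w p.2 = 0 then θ0 else θ1) else 0

/-- A nonzero vector. -/
def nz (θ : K l) : K l := if θ = 0 then fun _ => 1 else θ

/-- The label of a left vertex is compatible with the representative of the label of a right
vertex of the second kind. -/
def SatN (x y : K l × ZMod 2) (θ0 θ1 : K l) : Prop :=
  x.2 = y.2 ∧ (x.1 + y.1 = 0 ∨ x.1 + y.1 = if x.2 = 0 then θ0 else θ1)

instance (x y : K l × ZMod 2) (θ0 θ1 : K l) : Decidable (SatN x y θ0 θ1) := by
  unfold SatN
  infer_instance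

/-- The coefficient of `θ_β` in the displacement of an affine function. -/
def cc (t : Fin k × Fin nA → ZMod 2) (j : Fin k) (w : Fin nA → ZMod 2) (β : ZMod 2)
    (u : Fin nA → ZMod 2) : ZMod 2 := ∑ a, if w a = β then t (j, a) * u a else 0

lemma sum_block {M : Type*} [AddCommMonoid M] (j : Fin k) (f : Fin k × Fin nA → M)
    (h : ∀ p, p.1 ≠ j → f p = 0) : ∑ p, f p = ∑ a, f (j, a) := by
  rw [Fintype.sum_prod_type, Finset.sum_eq_single j]
  · intro b _ hb
    exact Finset.sum_eq_zero fun a _ => h (b, a) hb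
  · intro h
    exact absurd (Finset.mem_univ j) h

lemma evl_dis (t : Fin k × Fin nA → ZMod 2) (j : Fin k) (w u : Fin nA → ZMod 2) (θ0 θ1 : K l) :
    evl t (dis j w u θ0 θ1) = cc t j w 0 u • θ0 + cc t j w 1 u • θ1 := by
  unfold evl
  rw [sum_block j]
  · unfold cc dis
    rw [Finset.sum_smul, Finset.sum_smul, ← Finset.sum_add_distrib]
    refine Finset.sum_congr rfl fun a _ => ?_
    dsimp only
    rw [if_pos rfl]
    rcases bit_cases (w a) with h | h
    · have h1 : ¬ (0 : ZMod 2) = 1 := by decide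
      rw [h, if_pos rfl, if_pos rfl, if_neg h1, zero_smul, add_zero, smul_smul]
    · have h1 : ¬ (1 : ZMod 2) = 0 := by decide
      rw [h, if_neg h1, if_neg h1, if_pos rfl, zero_smul, zero_add, smul_smul]
  · intro p hp
    unfold dis
    rw [if_neg hp, smul_zero]

lemma dot_atb (t : Fin k × Fin nA → ZMod 2) (j : Fin k) (w : Fin nA → ZMod 2) :
    t ⬝ᵥ atb j w = ∑ a, t (j, a) * w a := by
  unfold dotProduct
  rw [sum_block j]
  · refine Finset.sum_congr rfl fun a _ => ?_
    unfold atb
    rw [if_pos rfl]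
  · intro p hp
    unfold atb
    rw [if_neg hp, mul_zero]

lemma nz_ne (hl : 0 < l) (θ : K l) : nz θ ≠ 0 := by
  unfold nz
  split_ifs with h
  · intro h1
    have : (1 : ZMod 2) = 0 := congrFun h1 ⟨0, hl⟩
    exact absurd this (by decide)
  · exact h

lemma avg_nz (x : K l) : (avg fun θ : K l => ind (x = nz θ)) ≤ 2 / 2 ^ l := by
  have h1 : ∀ θ : K l, ind (x = nz θ) ≤ ind (θ = x) + ind (θ = 0) := by
    intro θ
    unfold nz
    by_cases h : θ = 0
    · rw [ind_true h]
      linarith [ind_nonneg (θ = x), ind_le_one (x = if θ = 0 then fun _ => 1 else θ)]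
    · rw [if_neg h, ind_false h, add_zero]
      exact ind_mono fun h => h.symm
  refine (avg_mono h1).trans (le_of_eq ?_)
  rw [avg_add, avg_K_eq, avg_K_eq]
  ring

/-- The left vertex has the label of an affine function of the list. -/
def Typed (H : Finset ((Fin k × Fin nA → ZMod 2) × K l)) (j : Fin k) (w : Fin nA → ZMod 2)
    (x : K l × ZMod 2) (M : Fin k × Fin nA → K l) : Prop :=
  ∃ h ∈ H, x = (aff h M, h.1 ⬝ᵥ atb j w)

instance (H : Finset ((Fin k × Fin nA → ZMod 2) × K l)) (j : Fin k) (w : Fin nA → ZMod 2)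
    (x : K l × ZMod 2) (M : Fin k × Fin nA → K l) : Decidable (Typed H j w x M) := by
  unfold Typed
  infer_instance

/-- The value of the first local test. -/
noncomputable def valA (G : (Fin k × Fin nA → K l) → K l)
    (l1 : Fin k → (Fin nA → ZMod 2) → (Fin k × Fin nA → K l) → K l × ZMod 2) : ℝ :=
  avg fun j : Fin k => avg fun w : Fin nA → ZMod 2 => avg fun M : Fin k × Fin nA → K l =>
    avg fun φ : K l => ind (G (M + tns (atb j w) φ) = (l1 j w M).1 + (l1 j w M).2 • φ)

/-- The probability of a typed vertex. -/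
noncomputable def prT (H : Finset ((Fin k × Fin nA → ZMod 2) × K l))
    (l1 : Fin k → (Fin nA → ZMod 2) → (Fin k × Fin nA → K l) → K l × ZMod 2) : ℝ :=
  avg fun j : Fin k => avg fun w : Fin nA → ZMod 2 => avg fun M : Fin k × Fin nA → K l =>
    ind (Typed H j w (l1 j w M) M)

/-- **The bound for the first local test.** -/
theorem valA_le (G : (Fin k × Fin nA → K l) → K l) (H : Finset ((Fin k × Fin nA → ZMod 2) × K l))
    (l1 : Fin k → (Fin nA → ZMod 2) → (Fin k × Fin nA → K l) → K l × ZMod 2) [NeZero k] :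
    valA G l1 ≤ avg (rest G H) + prT H l1 + H.card / 2 ^ l := by
  unfold valA prT
  have h1 : ∀ (j : Fin k) (w : Fin nA → ZMod 2) (M : Fin k × Fin nA → K l), (avg fun φ : K l =>
      ind (G (M + tns (atb j w) φ) = (l1 j w M).1 + (l1 j w M).2 • φ)) ≤
      (avg fun φ : K l => rest G H (M + tns (atb j w) φ)) + ind (Typed H j w (l1 j w M) M) +
        H.card / 2 ^ l := by
    intro j w M
    have hN : (0 : ℝ) ≤ H.card / 2 ^ l := by positivity
    have hr : 0 ≤ avg fun φ : K l => rest G H (M + tns (atb j w) φ) :=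
      avg_nonneg fun φ => rest_nonneg _ _ _
    by_cases hT : Typed H j w (l1 j w M) M
    · rw [ind_true hT]
      have : (avg fun φ : K l =>
          ind (G (M + tns (atb j w) φ) = (l1 j w M).1 + (l1 j w M).2 • φ)) ≤ 1 :=
        avg_le_of_le zero_le_one fun φ => ind_le_one _
      linarith
    · rw [ind_false hT, add_zero]
      refine (line_rest G H M (atb j w) (l1 j w M).1 (l1 j w M).2 ?_).trans
        (add_le_add ?_ le_rfl)
      · intro h hh hcon
        exact hT ⟨h, hh, hcon⟩
      · unfold pl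
        exact avg_mono fun φ => mul_le_of_le_one_right (rest_nonneg _ _ _) (ind_le_one _)
  refine (avg_mono fun j => avg_mono fun w => avg_mono fun M => h1 j w M).trans ?_
  have h3 : ∀ (j : Fin k) (w : Fin nA → ZMod 2), (avg fun M : Fin k × Fin nA → K l =>
      avg fun φ : K l => rest G H (M + tns (atb j w) φ)) = avg (rest G H) := by
    intro j w
    have e1 : ∀ φ : K l, (avg fun M : Fin k × Fin nA → K l => rest G H (M + tns (atb j w) φ)) =
        avg (rest G H) := fun φ => avg_add_right (tns (atb j w) φ) (rest G H)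
    have e2 := avg_comm fun (M : Fin k × Fin nA → K l) (φ : K l) =>
      rest G H (M + tns (atb j w) φ)
    rw [e2, avg_congr e1, avg_const]
  have h2 : ∀ (j : Fin k) (w : Fin nA → ZMod 2), (avg fun M : Fin k × Fin nA → K l =>
      ((avg fun φ : K l => rest G H (M + tns (atb j w) φ)) + ind (Typed H j w (l1 j w M) M) +
        (H.card : ℝ) / 2 ^ l)) = avg (rest G H) + (avg fun M : Fin k × Fin nA → K l =>
        ind (Typed H j w (l1 j w M) M)) + (H.card : ℝ) / 2 ^ l := by
    intro j w
    rw [avg_add, avg_add, avg_const, h3]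
  refine le_of_eq ?_
  rw [avg_congr fun j => avg_congr fun w => h2 j w]
  rw [avg_congr fun j => avg_add _ _, avg_add, avg_congr fun j => avg_add _ _, avg_add]
  simp only [avg_const]

/-! ### The second local test -/

/-- The exceptional event. -/
noncomputable def exc (H : Finset ((Fin k × Fin nA → ZMod 2) × K l)) (θ0 θ1 : K l)
    (x : K l × ZMod 2) (M : Fin k × Fin nA → K l) : ℝ :=
  ∑ h ∈ H, (ind (x.1 + aff h M = θ0) + ind (x.1 + aff h M = θ1) + ind (x.1 + aff h M = θ0 + θ1))

lemma exc_nonneg (H : Finset ((Fin k × Fin nA → ZMod 2) × K l)) (θ0 θ1 : K l)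
    (x : K l × ZMod 2) (M : Fin k × Fin nA → K l) : 0 ≤ exc H θ0 θ1 x M :=
  Finset.sum_nonneg fun _ _ => add_nonneg (add_nonneg (ind_nonneg _) (ind_nonneg _))
    (ind_nonneg _)

/-- The block `j` of `t` does not see the exception. -/
def Bad1 (t : Fin k × Fin nA → ZMod 2) (j : Fin k) (w : Fin nA → ZMod 2) : Prop :=
  ∀ a, t (j, a) ≠ 0 → w a = t ⬝ᵥ atb j w

instance (t : Fin k × Fin nA → ZMod 2) (j : Fin k) (w : Fin nA → ZMod 2) :
    Decidable (Bad1 t j w) := by
  unfold Bad1
  infer_instance

lemma bit_add_one_ne (γ : ZMod 2) : γ + 1 ≠ γ := by revert γ; decide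

lemma cc_add (t : Fin k × Fin nA → ZMod 2) (j : Fin k) (w : Fin nA → ZMod 2) (β : ZMod 2)
    (u u' : Fin nA → ZMod 2) : cc t j w β (u + u') = cc t j w β u + cc t j w β u' := by
  unfold cc
  rw [← Finset.sum_add_distrib]
  refine Finset.sum_congr rfl fun a _ => ?_
  split_ifs
  · rw [Pi.add_apply, mul_add]
  · rw [add_zero]

lemma cc_single {t : Fin k × Fin nA → ZMod 2} {j : Fin k} {w : Fin nA → ZMod 2} {β : ZMod 2}
    {a : Fin nA} (ha : t (j, a) ≠ 0) (hw : w a = β) : cc t j w β (Pi.single a 1) = 1 := by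
  unfold cc
  rw [Finset.sum_eq_single a]
  · rw [if_pos hw, Pi.single_eq_same, mul_one]
    exact bit_ne_zero ha
  · intro b _ hb
    rw [Pi.single_eq_of_ne hb, mul_zero, ite_self]
  · intro h
    exact absurd (Finset.mem_univ a) h

lemma avg_cc_le {t : Fin k × Fin nA → ZMod 2} {j : Fin k} {w : Fin nA → ZMod 2} {β : ZMod 2}
    {a : Fin nA} (ha : t (j, a) ≠ 0) (hw : w a = β) (γ : ZMod 2) :
    (avg fun u : Fin nA → ZMod 2 => ind (cc t j w β u = γ)) ≤ 1 / 2 := by
  have h1 := avg_add_right (Pi.single a 1 : Fin nA → ZMod 2) fun u => ind (cc t j w β u = γ)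
  have h2 : (avg fun u : Fin nA → ZMod 2 => (ind (cc t j w β u = γ) +
      ind (cc t j w β (u + Pi.single a 1) = γ))) ≤ 1 := by
    refine avg_le_of_le zero_le_one fun u => ?_
    rw [cc_add, cc_single ha hw]
    by_cases h : cc t j w β u = γ
    · rw [ind_true h, ind_false]
      · norm_num
      · rw [h]
        exact bit_add_one_ne γ
    · rw [ind_false h]
      linarith [ind_le_one (cc t j w β u + 1 = γ)]
  rw [avg_add, h1] at h2
  linarith

/-- **The second local test at one right vertex.** -/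
lemma lifts_le (H : Finset ((Fin k × Fin nA → ZMod 2) × K l)) (j : Fin k) (w : Fin nA → ZMod 2)
    (θ0 θ1 : K l) (M : Fin k × Fin nA → K l) (L : (Fin k × Fin nA → K l) → K l × ZMod 2)
    (r : K l × ZMod 2) (hbad : ∀ h ∈ H, ¬ Bad1 h.1 j w) :
    (avg fun u : Fin nA → ZMod 2 => ind (SatN (L (M + dis j w u θ0 θ1)) r θ0 θ1)) ≤
      1 - 1 / 2 * (avg fun u : Fin nA → ZMod 2 =>
        ind (Typed H j w (L (M + dis j w u θ0 θ1)) (M + dis j w u θ0 θ1))) +
      avg fun u : Fin nA → ZMod 2 =>
        exc H θ0 θ1 (L (M + dis j w u θ0 θ1)) (M + dis j w u θ0 θ1) := by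
  classical
  have hT1 : (avg fun u : Fin nA → ZMod 2 =>
      ind (Typed H j w (L (M + dis j w u θ0 θ1)) (M + dis j w u θ0 θ1))) ≤ 1 :=
    avg_le_of_le zero_le_one fun u => ind_le_one _
  have hT0 : 0 ≤ avg fun u : Fin nA → ZMod 2 =>
      ind (Typed H j w (L (M + dis j w u θ0 θ1)) (M + dis j w u θ0 θ1)) :=
    avg_nonneg fun u => ind_nonneg _
  have haff : ∀ (h : (Fin k × Fin nA → ZMod 2) × K l) (u : Fin nA → ZMod 2),
      aff h (M + dis j w u θ0 θ1) = aff h M + (cc h.1 j w 0 u • θ0 + cc h.1 j w 1 u • θ1) := by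
    intro h u
    unfold aff
    rw [evl_add, evl_dis]
    abel
  by_cases hc : ∃ h ∈ H, r.2 = h.1 ⬝ᵥ atb j w ∧
      ∃ α β : ZMod 2, r.1 + aff h M = α • θ0 + β • θ1
  · obtain ⟨h, hh, hr2, α, β, hαβ⟩ := hc
    have hb := hbad h hh
    unfold Bad1 at hb
    push Not at hb
    obtain ⟨a, ha, hwa⟩ := hb
    rw [← hr2] at hwa
    have key : ∃ β' γ : ZMod 2, w a = β' ∧ ∀ u : Fin nA → ZMod 2,
        ind (SatN (L (M + dis j w u θ0 θ1)) r θ0 θ1) ≤ ind (cc h.1 j w β' u = γ) +
          exc H θ0 θ1 (L (M + dis j w u θ0 θ1)) (M + dis j w u θ0 θ1) := by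
      refine ⟨w a, if r.2 = 0 then β else α, rfl, fun u => ?_⟩
      set x := L (M + dis j w u θ0 θ1) with hx
      have hex0 := exc_nonneg H θ0 θ1 x (M + dis j w u θ0 θ1)
      by_cases hs : SatN x r θ0 θ1
      swap
      · rw [ind_false hs]
        linarith [ind_nonneg (cc h.1 j w (w a) u = if r.2 = 0 then β else α)]
      obtain ⟨hs1, hs2⟩ := hs
      -- the difference from the affine function
      have hδ : x.1 + aff h (M + dis j w u θ0 θ1) = (x.1 + r.1) + (r.1 + aff h M) +
          (cc h.1 j w 0 u • θ0 + cc h.1 j w 1 u • θ1) := by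
        rw [haff]
        have : x.1 + r.1 + (r.1 + aff h M) + (cc h.1 j w 0 u • θ0 + cc h.1 j w 1 u • θ1) =
          x.1 + (aff h M + (cc h.1 j w 0 u • θ0 + cc h.1 j w 1 u • θ1)) + (r.1 + r.1) := by abel
        rw [this, K_add_self, add_zero]
      obtain ⟨ε, hε⟩ : ∃ ε : ZMod 2, x.1 + r.1 = ε • (if r.2 = 0 then θ0 else θ1) := by
        rcases hs2 with h0 | h0
        · exact ⟨0, by rw [h0, zero_smul]⟩
        · exact ⟨1, by rw [h0, one_smul, hs1]⟩
      obtain ⟨p, q, hpq, hpq2⟩ : ∃ p q : ZMod 2,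
          x.1 + aff h (M + dis j w u θ0 θ1) = p • θ0 + q • θ1 ∧
          (p = 0 ∧ q = 0 → cc h.1 j w (w a) u = if r.2 = 0 then β else α) := by
        rcases bit_cases r.2 with hr | hr
        · rw [hr] at hwa hε
          rw [if_pos rfl] at hε
          have hwa1 := bit_ne_zero hwa
          refine ⟨ε + α + cc h.1 j w 0 u, β + cc h.1 j w 1 u, ?_, ?_⟩
          · rw [hδ, hε, hαβ]
            module
          · rintro ⟨_, h2⟩
            rw [hwa1, hr, if_pos rfl]
            revert h2
            generalize cc h.1 j w 1 u = z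
            clear * -
            revert β z
            decide
        · rw [hr] at hwa hε
          have h10 : ¬ (1 : ZMod 2) = 0 := by decide
          rw [if_neg h10] at hε
          have hwa0 : w a = 0 := (bit_cases (w a)).resolve_right hwa
          refine ⟨α + cc h.1 j w 0 u, ε + β + cc h.1 j w 1 u, ?_, ?_⟩
          · rw [hδ, hε, hαβ]
            module
          · rintro ⟨h2, _⟩
            rw [hwa0, hr, if_neg h10]
            revert h2
            generalize cc h.1 j w 0 u = z
            clear * -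
            revert α z
            decide
      by_cases h00 : p = 0 ∧ q = 0
      · rw [ind_true (hpq2 h00)]
        linarith [ind_le_one (SatN x r θ0 θ1)]
      · have h1 : 1 ≤ exc H θ0 θ1 x (M + dis j w u θ0 θ1) := by
          unfold exc
          have e1 := Finset.single_le_sum (f := fun h => ind (x.1 + aff h (M + dis j w u θ0 θ1) =
            θ0) + ind (x.1 + aff h (M + dis j w u θ0 θ1) = θ1) +
            ind (x.1 + aff h (M + dis j w u θ0 θ1) = θ0 + θ1)) (fun h _ =>
            add_nonneg (add_nonneg (ind_nonneg (x.1 + aff h (M + dis j w u θ0 θ1) = θ0))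
              (ind_nonneg (x.1 + aff h (M + dis j w u θ0 θ1) = θ1)))
            (ind_nonneg (x.1 + aff h (M + dis j w u θ0 θ1) = θ0 + θ1))) hh
          refine le_trans ?_ e1
          have n1 := ind_nonneg (x.1 + aff h (M + dis j w u θ0 θ1) = θ0)
          have n2 := ind_nonneg (x.1 + aff h (M + dis j w u θ0 θ1) = θ1)
          have n3 := ind_nonneg (x.1 + aff h (M + dis j w u θ0 θ1) = θ0 + θ1)
          rcases bit_cases p with hp | hp <;> rcases bit_cases q with hq | hq
          · exact absurd ⟨hp, hq⟩ h00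
          · have : x.1 + aff h (M + dis j w u θ0 θ1) = θ1 := by
              rw [hpq, hp, hq, zero_smul, one_smul, zero_add]
            have := ind_true this
            linarith
          · have : x.1 + aff h (M + dis j w u θ0 θ1) = θ0 := by
              rw [hpq, hp, hq, zero_smul, one_smul, add_zero]
            have := ind_true this
            linarith
          · have : x.1 + aff h (M + dis j w u θ0 θ1) = θ0 + θ1 := by
              rw [hpq, hp, hq, one_smul, one_smul]
            have := ind_true this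
            linarith
        linarith [ind_le_one (SatN x r θ0 θ1),
          ind_nonneg (cc h.1 j w (w a) u = if r.2 = 0 then β else α)]
    obtain ⟨β', γ, hw, hk⟩ := key
    refine (avg_mono hk).trans ?_
    rw [avg_add]
    have := avg_cc_le ha hw γ
    linarith
  · have key : ∀ u : Fin nA → ZMod 2, ind (SatN (L (M + dis j w u θ0 θ1)) r θ0 θ1) ≤
        1 - ind (Typed H j w (L (M + dis j w u θ0 θ1)) (M + dis j w u θ0 θ1)) := by
      intro u
      by_cases hT : Typed H j w (L (M + dis j w u θ0 θ1)) (M + dis j w u θ0 θ1)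
      · rw [ind_true hT, ind_false, sub_self]
        rintro ⟨hs1, hs2⟩
        obtain ⟨h, hh, hL⟩ := hT
        apply hc
        rw [hL] at hs1 hs2
        dsimp only at hs1 hs2
        refine ⟨h, hh, hs1.symm, ?_⟩
        rw [haff] at hs2
        have e1 : ∀ z : K l, aff h M + (cc h.1 j w 0 u • θ0 + cc h.1 j w 1 u • θ1) + r.1 = z →
            r.1 + aff h M = z + (cc h.1 j w 0 u • θ0 + cc h.1 j w 1 u • θ1) := by
          rintro z rfl
          have : aff h M + (cc h.1 j w 0 u • θ0 + cc h.1 j w 1 u • θ1) + r.1 +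
            (cc h.1 j w 0 u • θ0 + cc h.1 j w 1 u • θ1) = r.1 + aff h M +
            ((cc h.1 j w 0 u • θ0 + cc h.1 j w 1 u • θ1) +
              (cc h.1 j w 0 u • θ0 + cc h.1 j w 1 u • θ1)) := by abel
          rw [this, K_add_self, add_zero]
        rcases hs2 with h0 | h0
        · refine ⟨cc h.1 j w 0 u, cc h.1 j w 1 u, ?_⟩
          rw [e1 _ h0, zero_add]
        · by_cases hb : h.1 ⬝ᵥ atb j w = 0
          · rw [if_pos hb] at h0
            refine ⟨1 + cc h.1 j w 0 u, cc h.1 j w 1 u, ?_⟩
            rw [e1 _ h0]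
            module
          · rw [if_neg hb] at h0
            refine ⟨cc h.1 j w 0 u, 1 + cc h.1 j w 1 u, ?_⟩
            rw [e1 _ h0]
            module
      · rw [ind_false hT, sub_zero]
        exact ind_le_one _
    refine (avg_mono key).trans ?_
    rw [avg_sub, avg_const]
    have := avg_nonneg fun u : Fin nA → ZMod 2 =>
      exc_nonneg H θ0 θ1 (L (M + dis j w u θ0 θ1)) (M + dis j w u θ0 θ1)
    linarith

end Vale.Agent.P339.H937
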