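import Vale.Agent.P339.H937.GameSound
import Vale.Agent.P339.H283.Main

/-!
P339: NP-hardness of `Gap_q(1, s)` for every `s > (18 + √2) / 23`, with `q = q(s)`.
-/

namespace Vale.Agent.P339.H937

open Finset Vale.Agent.Lib.PCP Vale.Agent.Lib.PCP.HA Vale.Agent.P339.H283
  Vale.Agent.Lib.PolyTime Vale.Agent.P333.NP

/-! ### The parameters -/

/-- Choice of the weights. -/
theorem exists_weights {Δ : ℝ} (hΔ : 0 < Δ) : ∃ WC WA : ℕ, 0 < WC ∧
    max (WC * Real.sqrt (1 / 2) + 3 * WA) ((WC : ℝ) + 2 * WA) ≤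
      ((18 + Real.sqrt 2) / 23 + Δ) * (WC + 3 * WA) := by
  have hr0 : 0 ≤ Real.sqrt (1 / 2) := Real.sqrt_nonneg _
  have hr : Real.sqrt (1 / 2) ^ 2 = 1 / 2 := Real.sq_sqrt (by norm_num)
  have hr2 : Real.sqrt 2 = 2 * Real.sqrt (1 / 2) := by
    rw [Real.sqrt_eq_iff_mul_self_eq (by norm_num) (by positivity)]
    nlinarith
  rw [hr2]
  set r := Real.sqrt (1 / 2) with hrd
  have hr1 : r ≤ 1 := by nlinarith
  obtain ⟨N0, hN0⟩ := exists_nat_gt (3 / Δ)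
  set N := N0 + 1 with hN
  have hN1 : 3 < N * Δ := by
    rw [div_lt_iff₀ hΔ] at hN0
    have : (N0 : ℝ) * Δ ≤ N * Δ := by
      refine mul_le_mul_of_nonneg_right ?_ hΔ.le
      rw [hN]
      push_cast
      linarith
    linarith
  have hNr : (0 : ℝ) ≤ N := Nat.cast_nonneg _
  have hα : 0 ≤ (1 - r) * N := mul_nonneg (by linarith) hNr
  set W := ⌈(1 - r) * N⌉₊ with hW
  have hW1 : (1 - r) * N ≤ W := Nat.le_ceil _
  have hW2 : (W : ℝ) < (1 - r) * N + 1 := Nat.ceil_lt_add_one hα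
  refine ⟨N, W, by omega, ?_⟩
  have h1 : max (N * r + 3 * W) ((N : ℝ) + 2 * W) = N * r + 3 * W := by
    rw [max_eq_left]
    linarith
  rw [h1]
  set x := (W : ℝ) - (1 - r) * N with hx
  have hx0 : 0 ≤ x := by linarith
  have hx1 : x < 1 := by linarith
  have hWx : (W : ℝ) = (1 - r) * N + x := by rw [hx]; ring
  rw [hWx]
  have e1 : (18 + 2 * r) / 23 * (N + 3 * ((1 - r) * N + x)) =
      N * (3 - 2 * r) + (18 + 2 * r) / 23 * (3 * x) + N * (1 / 2 - r ^ 2) * (6 / 23) := by ring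
  have e2 : N * r + 3 * ((1 - r) * N + x) = N * (3 - 2 * r) + 3 * x := by ring
  rw [add_mul, e1, e2, hr]
  have e3 : 0 ≤ (18 + 2 * r) / 23 * (3 * x) := by positivity
  have e4 : N * 1 ≤ N + 3 * ((1 - r) * N + x) := by
    have : 0 ≤ 3 * ((1 - r) * N + x) := by positivity
    linarith
  have e5 : Δ * (N * 1) ≤ Δ * (N + 3 * ((1 - r) * N + x)) := mul_le_mul_of_nonneg_left e4 hΔ.le
  have e6 : N * Δ = Δ * (N * 1) := by ring
  rw [e6] at hN1
  linarith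

/-- Choice of the other parameters which do not depend on the alphabets of the projection game. -/
theorem exists_small {Δ : ℝ} (hΔ : 0 < Δ) (hΔ1 : Δ ≤ 1) : ∃ (c c1 ρ δ : ℝ) (K0 l : ℕ),
    0 < c ∧ 0 < c1 ∧ 0 ≤ ρ ∧ 0 < K0 ∧ 0 < l ∧ 1 / 2 ^ l < c ∧
    c ^ 2 + 14 / 2 ^ l ≤ ρ ^ 4 ∧ (1 / c) ^ 2 / 2 ^ l ≤ δ ∧ δ ≤ 1 ∧
    Real.sqrt (2 / 2 ^ l + ρ / 2 + 2 * δ) + 1 / c / 2 ^ l ≤ Δ ∧
    13 * (1 / c) / 2 ^ l + 2 * (1 / c) * (c1 + 1 / 2 ^ K0) ≤ Δ ∧
    (1 : ℝ) / 2 ^ l ≤ c ^ 2 / 32 ∧ (1 : ℝ) / 2 ^ l ≤ c / 2 := by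
  set κ : ℝ := (Δ / 2) ^ 2 with hκ
  have hκ0 : 0 < κ := by positivity
  have hκ1 : κ ≤ 1 := by
    rw [hκ]
    nlinarith
  set ρ : ℝ := κ / 2 with hρ
  have hρ0 : 0 < ρ := by positivity
  set δ : ℝ := κ / 8 with hδ
  have hδ0 : 0 < δ := by positivity
  set c : ℝ := ρ ^ 2 / 2 with hc
  have hc0 : 0 < c := by positivity
  set c1 : ℝ := c * Δ / 8 with hc1
  have hc10 : 0 < c1 := by positivity
  obtain ⟨n1, hn1⟩ := exists_pow_lt_of_lt_one hc10 (show (1 / 2 : ℝ) < 1 by norm_num)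
  have hτ : 0 < min (κ / 8) (min (ρ ^ 4 / 28) (min (δ * c ^ 2) (min (c * Δ / 52)
    (min (c ^ 2 / 32) (c / 2))))) := by
    refine lt_min (by positivity) (lt_min (by positivity) (lt_min (by positivity)
      (lt_min (by positivity) (lt_min (by positivity) (by positivity)))))
  obtain ⟨n2, hn2⟩ := exists_pow_lt_of_lt_one hτ (show (1 / 2 : ℝ) < 1 by norm_num)
  have hl : (1 : ℝ) / 2 ^ (n2 + 1) ≤ (1 / 2) ^ n2 := by
    rw [pow_succ, div_pow, one_pow]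
    refine one_div_le_one_div_of_le (by positivity) ?_
    have : (0 : ℝ) < 2 ^ n2 := by positivity
    linarith
  have hK : (1 : ℝ) / 2 ^ (n1 + 1) ≤ (1 / 2) ^ n1 := by
    rw [pow_succ, div_pow, one_pow]
    refine one_div_le_one_div_of_le (by positivity) ?_
    have : (0 : ℝ) < 2 ^ n1 := by positivity
    linarith
  have hK' : (1 : ℝ) / 2 ^ (n1 + 1) ≤ c1 := hK.trans hn1.le
  simp only [lt_min_iff] at hn2
  obtain ⟨t1, t2, t3, t4, t5, t6⟩ := hn2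
  set τ : ℝ := 1 / 2 ^ (n2 + 1) with hτd
  have hτ0 : 0 < τ := by positivity
  have hdiv : ∀ x : ℝ, x / 2 ^ (n2 + 1) = x * τ := fun x => by rw [hτd]; ring
  have hcc : 1 / c * c = 1 := by field_simp
  have hci : 0 < 1 / c := by positivity
  refine ⟨c, c1, ρ, δ, n1 + 1, n2 + 1, hc0, hc10, hρ0.le, by omega, by omega, ?_, ?_, ?_, ?_, ?_,
    ?_, ?_, ?_⟩
  · linarith
  · rw [hdiv]
    have e1 : c ^ 2 = ρ ^ 4 / 4 := by rw [hc]; ring
    rw [e1]
    have : 0 < ρ ^ 4 := by positivity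
    linarith
  · rw [hdiv]
    have e1 : (1 / c) ^ 2 * τ ≤ (1 / c) ^ 2 * (δ * c ^ 2) :=
      mul_le_mul_of_nonneg_left (by linarith) (by positivity)
    refine e1.trans (le_of_eq ?_)
    field_simp
  · rw [hδ]
    linarith
  · rw [hdiv, hdiv]
    have e1 : Real.sqrt (2 * τ + ρ / 2 + 2 * δ) ≤ Δ / 2 := by
      rw [Real.sqrt_le_left (by positivity), ← hκ]
      rw [hδ, hρ]
      linarith
    have e2 : 1 / c * τ ≤ 1 / c * (c * Δ / 52) :=
      mul_le_mul_of_nonneg_left (by linarith) hci.le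
    have e3 : 1 / c * (c * Δ / 52) = Δ / 52 := by field_simp
    rw [e3] at e2
    linarith
  · rw [hdiv]
    have e1 : 13 * (1 / c) * τ ≤ 13 * (1 / c) * (c * Δ / 52) :=
      mul_le_mul_of_nonneg_left (by linarith) (by positivity)
    have e2 : 13 * (1 / c) * (c * Δ / 52) = Δ / 4 := by field_simp; norm_num
    have e3 : 2 * (1 / c) * (c1 + 1 / 2 ^ (n1 + 1)) ≤ 2 * (1 / c) * (c1 + c1) :=
      mul_le_mul_of_nonneg_left (by linarith) (by positivity)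
    have e4 : 2 * (1 / c) * (c1 + c1) = Δ / 2 := by
      rw [hc1]
      field_simp
      norm_num
    rw [e2] at e1
    rw [e4] at e3
    linarith
  · linarith
  · linarith

lemma rho_eq (R m l : ℕ) : rho (R + m) m l = 1 / (2 ^ l) ^ R := by
  unfold rho
  rw [pow_add]
  have h1 : ((2 : ℝ) ^ l) ^ m ≠ 0 := by positivity
  have h2 : ((2 : ℝ) ^ l) ^ R ≠ 0 := by positivity
  field_simp

lemma rho_le {R : ℕ} (hR : 0 < R) (m l : ℕ) : rho (R + m) m l ≤ 1 / 2 ^ l := by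
  rw [rho_eq]
  refine one_div_le_one_div_of_le (by positivity) ?_
  exact le_self_pow₀ (one_le_pow₀ (by norm_num)) (by omega)

lemma sum_err {WC WA : ℕ} {s Δ x y z : ℝ} (hΔ : 0 ≤ Δ) (hz : z ≤ (s + Δ) * (WC + 3 * WA))
    (hx : x ≤ Δ) (hy : y ≤ Δ) : z + (WC * x + WA * y) ≤ (s + Δ + Δ) * (WC + 3 * WA) := by
  have e1 : (WC : ℝ) * x ≤ WC * Δ := mul_le_mul_of_nonneg_left hx (Nat.cast_nonneg _)
  have e2 : (WA : ℝ) * y ≤ WA * Δ := mul_le_mul_of_nonneg_left hy (Nat.cast_nonneg _)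
  have e3 : 0 ≤ (WA : ℝ) * Δ := mul_nonneg (Nat.cast_nonneg _) hΔ
  linarith

/-! ### The main theorem -/

/-- **NP-hardness of `Gap_q(1, s)` for every `s > (18 + √2) / 23`.** -/
theorem gapHard' {s : ℝ} (hs : (18 + Real.sqrt 2) / 23 < s) :
    ∃ q : ℕ, 2 ≤ q ∧ GapHard q 1 s := by
  set s' : ℝ := (18 + Real.sqrt 2) / 23 with hs'
  have hs'0 : 0 ≤ s' := by positivity
  set Δ : ℝ := min 1 (s - s') / 4 with hΔd
  have hΔ : 0 < Δ := by
    have : 0 < min 1 (s - s') := lt_min one_pos (by linarith)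
    positivity
  have hΔ1 : Δ ≤ 1 := by
    have : min 1 (s - s') ≤ 1 := min_le_left _ _
    rw [hΔd]
    linarith
  have hΔs : s' + Δ + Δ + Δ ≤ s := by
    have : min 1 (s - s') ≤ s - s' := min_le_right _ _
    have h4 : 4 * Δ = min 1 (s - s') := by rw [hΔd]; ring
    linarith
  obtain ⟨WC, WA, hWC, hW⟩ := exists_weights hΔ
  obtain ⟨c, c1, ρ, δ, K0, l, hc0, hc10, hρ0, hK0, hl, hlc, hcρ, hδ, hδ1, he1, he2, hl1, hl2⟩ :=
    exists_small hΔ hΔ1
  obtain ⟨S, _, _, s0, s1, γp, P, hs01, hγ, hγ1, hPne, hPs, hPg, hP⟩ := pcp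
  have hne : Nonempty (S × S) := ⟨(s0, s0)⟩
  set r := Fintype.card (S × S) with hr
  have hr0 : NeZero r := ⟨Fintype.card_ne_zero⟩
  let e : S × S ≃ Fin r := Fintype.equivFin (S × S)
  have hK0r : (0 : ℝ) < K0 := by exact_mod_cast hK0
  set γ : ℝ := c ^ 2 / 16 with hγd
  have hγ0 : 0 < γ := by positivity
  set η : ℝ := Δ * (c1 * γ ^ 2 / K0) with hη
  have hη0 : 0 < η := by positivity
  obtain ⟨k0, hk0⟩ := exists_pow (γ := γp / 2) (η := η / 2) (by positivity) (by linarith)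
    (by positivity)
  set R := r ^ k0 with hR
  have hRpos : 0 < R := Nat.pos_of_ne_zero (NeZero.ne _)
  set m := max R ⌈2 / η⌉₊ with hm
  have hRm : R ≤ m := le_max_left _ _
  have hmη : 2 / η ≤ m := (Nat.le_ceil _).trans (by exact_mod_cast le_max_right _ _)
  have hmz : NeZero m := ⟨by omega⟩
  have hmpos : (0 : ℝ) < m := by exact_mod_cast Nat.pos_of_ne_zero (NeZero.ne m)
  have hm1 : 1 / (m : ℝ) ≤ η / 2 := by
    rw [div_le_iff₀ hmpos]
    rw [div_le_iff₀ hη0] at hmη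
    linarith
  -- the number of blocks
  have hρp := rho_pos (R + m) m l
  obtain ⟨k', hk'⟩ := exists_nat_gt (1 / (c1 * rho (R + m) m l * (c ^ 2 / 8) ^ 2))
  set k := k' + 1 with hk
  have hkz : NeZero k := ⟨by omega⟩
  have hkpos : (0 : ℝ) < k := by exact_mod_cast Nat.pos_of_ne_zero (NeZero.ne k)
  have hkr : Real.sqrt (1 / (c1 * k * rho (R + m) m l)) ≤ c ^ 2 / 8 := by
    rw [Real.sqrt_le_left (by positivity), div_le_iff₀ (by positivity)]
    rw [div_lt_iff₀ (by positivity)] at hk'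
    have e1 : (k' : ℝ) ≤ k := by rw [hk]; push_cast; linarith
    have e2 : (k' : ℝ) * (c1 * rho (R + m) m l * (c ^ 2 / 8) ^ 2) ≤
        k * (c1 * rho (R + m) m l * (c ^ 2 / 8) ^ 2) :=
      mul_le_mul_of_nonneg_right e1 (by positivity)
    nlinarith
  have hγc : γ + 2 * rho (R + m) m l + Real.sqrt (1 / (c1 * k * rho (R + m) m l)) ≤
      (c - 1 / 2 ^ l) ^ 2 := by
    have e1 := (rho_le hRpos m l).trans hl1
    have e2 : (c / 2) ^ 2 ≤ (c - 1 / 2 ^ l) ^ 2 := pow_le_pow_left₀ (by positivity) (by linarith) 2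
    have e3 : (c / 2) ^ 2 = c ^ 2 / 4 := by ring
    rw [e3] at e2
    rw [hγd]
    linarith
  -- the projection game
  set Γ : Formula → PG ℕ ℕ (Fin (R + m)) (Fin m) := fun φ =>
    srj hRm (powG (triv (lcN e s0 s1 (P φ))) k0) with hΓ
  have hlne : ∀ φ, lcN e s0 s1 (P φ) ≠ [] := fun φ => lcN_ne e (hPne φ)
  have hΓne : ∀ φ, Γ φ ≠ [] := fun φ => srj_ne hRm (powG_ne _ (triv_ne _ (hlne φ)) k0)
  have hPT : PT ∅ Γ := PT_srj hRm (PT_powG (PT_triv (PT_lc s0 s1 (conv e s0) hP)) k0)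
  -- the reduction
  let f : Formula → Game (2 ^ l) := fun φ =>
    ⟨gm k l WC WA (Γ φ), gm_two hl WC WA (Γ φ), gm_pos hWC (hΓne φ)⟩
  have hq : 2 ≤ 2 ^ l := by
    calc 2 = 2 ^ 1 := (pow_one 2).symm
      _ ≤ 2 ^ l := Nat.pow_le_pow_right (by norm_num) hl
  refine ⟨2 ^ l, hq, f, ?_, fun φ => ⟨fun hφ => ?_, fun hφ => ?_⟩⟩
  · obtain ⟨g, hg, hg'⟩ := PT_gm (k := k) (l := l) hPT WC WA
    refine exists_tm2_of_polyTimeFun _ _ _ g (polyTimeFun_iff.2 hg) fun φ => ?_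
    rw [formulaW_eq, gameW_eq]
    exact hg' φ
  · obtain ⟨a, b, hab⟩ := powG_perfect _ (triv_perfect _ (lcN_perfect (s1 := s1) e
      (hPs _ ((sat_iff φ).1 hφ)))) k0
    have hall : ∀ c ∈ powG (triv (lcN e s0 s1 (P φ))) k0, c.2.2 (a c.1) = b c.2.1 := by
      unfold PG.sat at hab
      rw [List.countP_eq_length] at hab
      intro c hc
      simpa using hab c hc
    exact Game.one_le_value (f φ) (gm_complete (a := fun u => Fin.castAdd m (a u))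
      (b := fun v => Fin.castLE hRm (b v)) hl (srj_complete hRm hall))
  · have h1 : (Γ φ).Sound η := by
      have h2 := srj_sound hRm (hk0 r (lcN e s0 s1 (P φ)) (hlne φ)
        (lcN_sound e hs01 (hPg _ fun h => hφ ((sat_iff φ).2 h))))
      intro A B
      refine (h2 A B).trans (mul_le_mul_of_nonneg_right ?_ (Nat.cast_nonneg _))
      linarith
    refine Game.value_le (f φ) (by positivity) fun A B => ?_
    have h2 := gm_sound (k := k) hl (WC := WC) (WA := WA) (hΓne φ) h1 (srj_surj hRm _)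
      (ε := Δ) (S := s' + Δ + Δ) hc0 hlc hc10 hρ0 hcρ hδ hδ1 hγ0 hγc hK0 le_rfl (by positivity)
      (sum_err hΔ.le hW he1 he2) A B
    have h0 : (0 : ℝ) < weight (f φ).cons := by exact_mod_cast (f φ).weight_pos
    unfold Game.prob
    rw [div_le_iff₀ h0]
    refine h2.trans ?_
    exact mul_le_mul_of_nonneg_right hΔs h0.le

theorem sStar_le' : sStar ≤ (18 + Real.sqrt 2) / 23 := by
  have h2 : Real.sqrt 2 < 3 / 2 := by
    rw [Real.sqrt_lt' (by norm_num)]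
    norm_num
  have h20 := Real.sqrt_nonneg 2
  refine le_of_forall_gt_imp_ge_of_dense fun s hs => ?_
  unfold sStar
  have hbdd : BddBelow {s : ℝ | 0 < s ∧ s < 1 ∧ ∃ q : ℕ, 2 ≤ q ∧ GapHard q 1 s} :=
    ⟨0, fun x hx => hx.1.le⟩
  by_cases h1 : s < 1
  · exact csInf_le hbdd ⟨by linarith, h1, gapHard' hs⟩
  · refine (csInf_le hbdd (⟨?_, ?_, gapHard' ?_⟩ :
      (19 / 20 : ℝ) ∈ {s : ℝ | 0 < s ∧ s < 1 ∧ ∃ q : ℕ, 2 ≤ q ∧ GapHard q 1 s})).trans ?_ <;>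
    linarith

end Vale.Agent.P339.H937
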