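import Vale.Agent.P339.H937.Base

/-!
P339: the maps of the game: exactly 2-to-1 maps, representatives of the blocks and of the right
vertices of the second kind.
-/

namespace Vale.Agent.P339.H937

open Finset Vale.Agent.Lib.PCP Vale.Agent.Lib.PCP.HA Vale.Agent.P339.H283
  Vale.Agent.Lib.PolyTime Vale.Agent.P333.NP

/-! ### Exactly 2-to-1 maps -/

/-- The fibres of the map are the orbits of the involution. -/
def Orb {T : Type} [Fintype T] [DecidableEq T] {q : ℕ} (σ : T → T) (Φ : T → Fin q) : Prop :=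
  (∀ x y, Φ x = Φ y ↔ (y = x ∨ y = σ x)) ∧ ∀ b, (univ.filter fun x => Φ x = b).card = 2

theorem exists_orb {T : Type} [Fintype T] [DecidableEq T] (σ : T → T) (hσ : ∀ x, σ (σ x) = x)
    (hne : ∀ x, σ x ≠ x) {q : ℕ} (hq : Fintype.card T = 2 * q) : ∃ Φ : T → Fin q, Orb σ Φ := by
  classical
  let S : Setoid T :=
    { r := fun x y => y = x ∨ y = σ x
      iseqv :=
        { refl := fun x => Or.inl rfl
          symm := by
            rintro x y (rfl | rfl)
            · exact Or.inl rfl
            · exact Or.inr (hσ x).symm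
          trans := by
            rintro x y z (rfl | rfl) (rfl | rfl)
            · exact Or.inl rfl
            · exact Or.inr rfl
            · exact Or.inr rfl
            · exact Or.inl (hσ x) } }
  have hfib : ∀ c : Quotient S, (univ.filter fun x => (⟦x⟧ : Quotient S) = c).card = 2 := by
    intro c
    induction c using Quotient.inductionOn with
    | h x =>
      have h1 : (univ.filter fun y => (⟦y⟧ : Quotient S) = ⟦x⟧) = {x, σ x} := by
        ext y
        rw [Finset.mem_filter, Finset.mem_insert, Finset.mem_singleton]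
        constructor
        · rintro ⟨_, h⟩
          exact Quotient.exact h.symm
        · intro h
          exact ⟨Finset.mem_univ _, (Quotient.sound h).symm⟩
      rw [h1, Finset.card_pair (hne x).symm]
  have hcard : Fintype.card (Quotient S) = q := by
    have h1 : Fintype.card T = ∑ c : Quotient S, (univ.filter fun x =>
        (⟦x⟧ : Quotient S) = c).card :=
      Finset.card_eq_sum_card_fiberwise (fun x _ => Finset.mem_univ _)
    simp only [hfib] at h1
    rw [Finset.sum_const, Finset.card_univ, smul_eq_mul] at h1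
    omega
  let e : Quotient S ≃ Fin q := Fintype.equivFinOfCardEq hcard
  refine ⟨fun x => e ⟦x⟧, fun x y => ⟨fun h => ?_, fun h => ?_⟩, fun b => ?_⟩
  · exact Quotient.exact (e.injective h)
  · exact congrArg e (Quotient.sound h)
  · rw [← hfib (e.symm b)]
    congr 1
    ext x
    rw [Finset.mem_filter, Finset.mem_filter, Equiv.eq_symm_apply]

variable {l : ℕ}

lemma card_KZ : Fintype.card (K l × ZMod 2) = 2 * 2 ^ l := by
  rw [Fintype.card_prod, Fintype.card_fun, ZMod.card, Fintype.card_fin, mul_comm]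

/-- Left labels. -/
noncomputable def eL (l : ℕ) : K l × ZMod 2 ≃ Fin (2 * 2 ^ l) :=
  Fintype.equivFinOfCardEq card_KZ

/-- Right labels. -/
noncomputable def eR (l : ℕ) : K l ≃ Fin (2 ^ l) :=
  Fintype.equivFinOfCardEq (by rw [Fintype.card_fun, ZMod.card, Fintype.card_fin])

/-- A projection. -/
noncomputable def mkM (f : K l × ZMod 2 → Fin (2 ^ l)) : Fin (2 * 2 ^ l) → Fin (2 ^ l) :=
  fun a => f ((eL l).symm a)

lemma mkM_two {f : K l × ZMod 2 → Fin (2 ^ l)} (h : ∀ b, (univ.filter fun x => f x = b).card = 2)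
    (b : Fin (2 ^ l)) : (univ.filter fun a => mkM f a = b).card = 2 := by
  refine (Finset.card_bij (fun a _ => (eL l).symm a) ?_ ?_ ?_).trans (h b)
  · intro a ha
    exact Finset.mem_filter.2 ⟨Finset.mem_univ _, (Finset.mem_filter.1 ha).2⟩
  · intro a _ a' _ haa
    exact (eL l).symm.injective haa
  · intro t ht
    refine ⟨eL l t, ?_, Equiv.symm_apply_apply _ _⟩
    refine Finset.mem_filter.2 ⟨Finset.mem_univ _, ?_⟩
    unfold mkM
    rw [Equiv.symm_apply_apply]
    exact (Finset.mem_filter.1 ht).2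

/-- The map of a line. -/
noncomputable def lin (φ o : K l) (x : K l × ZMod 2) : Fin (2 ^ l) := eR l (x.1 + x.2 • φ + o)

lemma lin_two (φ o : K l) (b : Fin (2 ^ l)) : (univ.filter fun x => lin φ o x = b).card = 2 := by
  have h1 : (univ.filter fun x => lin φ o x = b) =
      (univ : Finset (ZMod 2)).image fun β => ((eR l).symm b + o + β • φ, β) := by
    ext ⟨m, β⟩
    rw [Finset.mem_filter, Finset.mem_image]
    unfold lin
    dsimp only
    constructor
    · rintro ⟨_, h⟩
      refine ⟨β, Finset.mem_univ _, ?_⟩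
      rw [← h, Equiv.symm_apply_apply]
      have : m + β • φ + o + o + β • φ = m := by
        have e1 : m + β • φ + o + o + β • φ = m + (β • φ + β • φ) + (o + o) := by abel
        rw [e1, K_add_self, K_add_self, add_zero, add_zero]
      rw [this]
    · rintro ⟨β', _, h⟩
      obtain ⟨h1, h2⟩ := Prod.ext_iff.1 h
      dsimp only at h1 h2
      subst h2
      refine ⟨Finset.mem_univ _, ?_⟩
      rw [← h1]
      have : (eR l).symm b + o + β' • φ + β' • φ + o = (eR l).symm b := by
        have e1 : (eR l).symm b + o + β' • φ + β' • φ + o =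
          (eR l).symm b + (β' • φ + β' • φ) + (o + o) := by abel
        rw [e1, K_add_self, K_add_self, add_zero, add_zero]
      rw [this, Equiv.apply_symm_apply]
  rw [h1, Finset.card_image_of_injective]
  · rfl
  · intro β β' h
    exact (Prod.ext_iff.1 h).2

/-- The involution of the second local test. -/
def inv2 (θ0 θ1 : K l) (x : K l × ZMod 2) : K l × ZMod 2 :=
  (x.1 + if x.2 = 0 then nz θ0 else nz θ1, x.2)

open Classical in
/-- The map of the second local test. -/
noncomputable def Phi (θ0 θ1 : K l) : K l × ZMod 2 → Fin (2 ^ l) :=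
  if h : ∃ Φ : K l × ZMod 2 → Fin (2 ^ l), Orb (inv2 θ0 θ1) Φ then h.choose
  else fun _ => eR l 0

lemma Phi_orb (hl : 0 < l) (θ0 θ1 : K l) : Orb (inv2 θ0 θ1) (Phi θ0 θ1) := by
  have h : ∃ Φ : K l × ZMod 2 → Fin (2 ^ l), Orb (inv2 θ0 θ1) Φ := by
    refine exists_orb _ (fun x => ?_) (fun x h => ?_) card_KZ
    · unfold inv2
      dsimp only
      rw [add_assoc, K_add_self, add_zero]
    · unfold inv2 at h
      have h1 := (Prod.ext_iff.1 h).1
      dsimp only at h1
      rw [add_eq_left] at h1
      split_ifs at h1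
      · exact nz_ne hl _ h1
      · exact nz_ne hl _ h1
  unfold Phi
  rw [dif_pos h]
  exact h.choose_spec

/-- A preimage. -/
noncomputable def pre (θ0 θ1 : K l) (b : Fin (2 ^ l)) : K l × ZMod 2 :=
  Function.invFun (Phi θ0 θ1) b

lemma Phi_pre (hl : 0 < l) (θ0 θ1 : K l) (b : Fin (2 ^ l)) : Phi θ0 θ1 (pre θ0 θ1 b) = b := by
  refine Function.invFun_eq ?_
  have h := (Phi_orb hl θ0 θ1).2 b
  have h1 : (univ.filter fun x => Phi θ0 θ1 x = b).Nonempty := by
    rw [← Finset.card_pos, h]
    norm_num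
  obtain ⟨x, hx⟩ := h1
  exact ⟨x, (Finset.mem_filter.1 hx).2⟩

lemma satN_of_Phi (hl : 0 < l) {θ0 θ1 : K l} {x : K l × ZMod 2} {b : Fin (2 ^ l)}
    (h : Phi θ0 θ1 x = b) : SatN x (pre θ0 θ1 b) (nz θ0) (nz θ1) := by
  rw [← Phi_pre hl θ0 θ1 b] at h
  rcases ((Phi_orb hl θ0 θ1).1 _ _).1 h with h1 | h1
  · rw [h1]
    exact ⟨rfl, Or.inl (K_add_self _)⟩
  · rw [h1]
    refine ⟨rfl, Or.inr ?_⟩
    unfold inv2
    dsimp only
    rw [← add_assoc, K_add_self, zero_add]

lemma Phi_shift (hl : 0 < l) (θ0 θ1 : K l) (m : K l) (β γ : ZMod 2) :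
    Phi θ0 θ1 (m + γ • (if β = 0 then nz θ0 else nz θ1), β) = Phi θ0 θ1 (m, β) := by
  refine ((Phi_orb hl θ0 θ1).1 _ _).2 ?_
  rcases bit_cases γ with h | h
  · left
    rw [h, zero_smul, add_zero]
  · right
    unfold inv2
    dsimp only
    rw [h, one_smul, add_assoc, K_add_self, add_zero]

/-! ### Representatives of the right vertices of the second kind -/

section red

variable {nA k : ℕ}

lemma dis_add (j : Fin k) (w u u' : Fin nA → ZMod 2) (θ0 θ1 : K l) :
    dis j w (u + u') θ0 θ1 = dis j w u θ0 θ1 + dis j w u' θ0 θ1 := by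
  funext p
  rw [Pi.add_apply]
  unfold dis
  split_ifs
  · rw [Pi.add_apply, add_smul]
  · rw [Pi.add_apply, add_smul]
  · rw [add_zero]

lemma dis_zero (j : Fin k) (w : Fin nA → ZMod 2) (θ0 θ1 : K l) : dis j w 0 θ0 θ1 = 0 := by
  funext p
  unfold dis
  simp

/-- Points which are not distinguished. -/
def disS (j : Fin k) (w : Fin nA → ZMod 2) (θ0 θ1 : K l) : Setoid (Fin k × Fin nA → K l) where
  r M M' := ∃ u : Fin nA → ZMod 2, M' = M + dis j w u θ0 θ1
  iseqv :=
    { refl := fun M => ⟨0, by rw [dis_zero, add_zero]⟩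
      symm := by
        rintro M M' ⟨u, rfl⟩
        refine ⟨u, ?_⟩
        rw [add_assoc, ← dis_add]
        have : u + u = 0 := by
          funext a
          exact CharTwo.add_self_eq_zero _
        rw [this, dis_zero, add_zero]
      trans := by
        rintro M M' M'' ⟨u, rfl⟩ ⟨u', rfl⟩
        exact ⟨u + u', by rw [dis_add, add_assoc]⟩ }

/-- The representative. -/
noncomputable def red (j : Fin k) (w : Fin nA → ZMod 2) (θ0 θ1 : K l)
    (M : Fin k × Fin nA → K l) : Fin k × Fin nA → K l :=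
  Quotient.out (Quotient.mk (disS j w (nz θ0) (nz θ1)) M)

lemma red_dis (j : Fin k) (w u : Fin nA → ZMod 2) (θ0 θ1 : K l) (M : Fin k × Fin nA → K l) :
    red j w θ0 θ1 (M + dis j w u (nz θ0) (nz θ1)) = red j w θ0 θ1 M := by
  unfold red
  congr 1
  exact (Quotient.sound (s := disS j w (nz θ0) (nz θ1)) ⟨u, rfl⟩).symm

lemma exists_red (j : Fin k) (w : Fin nA → ZMod 2) (θ0 θ1 : K l) (M : Fin k × Fin nA → K l) :
    ∃ u : Fin nA → ZMod 2, M = red j w θ0 θ1 M + dis j w u (nz θ0) (nz θ1) :=
  Quotient.exact (s := disS j w (nz θ0) (nz θ1)) (Quotient.out_eq _)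

end red

end Vale.Agent.P339.H937
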