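import Vale.Agent.P339.H937.Close

/-!
P339: decoding of the affine functions to a labelling of the projection game.
-/

namespace Vale.Agent.P339.H937

open Finset Vale.Agent.Lib.PCP Vale.Agent.Lib.PCP.HA Vale.Agent.P339.H283

/-! ### Random labels from coefficients -/

section dcd

set_option linter.unusedSectionVars false

variable {l : ℕ} {I C : Type} [Fintype I] [DecidableEq I] [Fintype C] [DecidableEq C]

/-- The coefficients of a table without weight. -/
noncomputable def cf (g : (I → K l) → K l) (s : K l) (t : I → ZMod 2) : ℝ :=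
  bts (fun _ => 1) g s t

lemma sum_cf_sq (g : (I → K l) → K l) (s : K l) : ∑ t, cf g s t ^ 2 ≤ 1 :=
  sum_bts_sq (fun _ => by simp) s

lemma abs_cf (g : (I → K l) → K l) (s : K l) (t : I → ZMod 2) : |cf g s t| ≤ 1 :=
  abs_bts (fun _ => by simp) s t

/-- The weight of a label. -/
noncomputable def wt (b : C → I) (t : I → ZMod 2) (c : C) : ℝ :=
  if t (b c) ≠ 0 then 1 / ((sup fun c => t (b c)).card : ℝ) else 0

lemma wt_nonneg (b : C → I) (t : I → ZMod 2) (c : C) : 0 ≤ wt b t c := by
  unfold wt
  split_ifs <;> positivity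

lemma sum_wt_le (b : C → I) (t : I → ZMod 2) : ∑ c, wt b t c ≤ 1 := by
  unfold wt
  rw [← Finset.sum_filter]
  have h1 : (univ.filter fun c => t (b c) ≠ 0) = sup fun c => t (b c) := rfl
  rw [h1, Finset.sum_const, nsmul_eq_mul]
  by_cases h : ((sup fun c => t (b c)).card : ℝ) = 0
  · rw [h]; simp
  · field_simp
    exact le_rfl

/-- The random label of a block. -/
noncomputable def dcd (g : (I → K l) → K l) (s : K l) (b : C → I) (c : C) : ℝ :=
  ∑ t : I → ZMod 2, cf g s t ^ 2 * wt b t c

lemma dcd_nonneg (g : (I → K l) → K l) (s : K l) (b : C → I) (c : C) : 0 ≤ dcd g s b c :=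
  Finset.sum_nonneg fun t _ => mul_nonneg (sq_nonneg _) (wt_nonneg b t c)

lemma sum_dcd_le (g : (I → K l) → K l) (s : K l) (b : C → I) : ∑ c, dcd g s b c ≤ 1 := by
  unfold dcd
  rw [Finset.sum_comm]
  refine le_trans (Finset.sum_le_sum fun t _ => ?_) (sum_cf_sq g s)
  rw [← Finset.mul_sum]
  exact mul_le_of_le_one_right (sq_nonneg _) (sum_wt_le b t)

lemma le_dcd (g : (I → K l) → K l) (s : K l) (b : C → I) (t : I → ZMod 2) (c : C) :
    cf g s t ^ 2 * wt b t c ≤ dcd g s b c := by
  have h := Finset.single_le_sum (f := fun t : I → ZMod 2 => cf g s t ^ 2 * wt b t c)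
    (fun t _ => mul_nonneg (sq_nonneg _) (wt_nonneg b t c)) (Finset.mem_univ t)
  exact h

end dcd

section tables

variable {nA nB k l : ℕ} {X : Type}

/-- Constraints. -/
abbrev Cs (nA nB : ℕ) : Type := ℕ × ℕ × (Fin nA → Fin nB)

variable (sU : ℕ → (Fin nA → K l) → X) (sV : ℕ → (Fin nB → K l) → X) (F : (Fin k → X) → K l)

open Classical in
/-- The block of the right vertex: it names the right question if the function factors through
the projection and the left question otherwise. -/
noncomputable def st (c : Cs nA nB) (m : Fin nA → K l) : X :=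
  if h : Fac c.2.2 m then sV c.2.1 h.choose else sU c.1 m

/-- The table of the tuple `e` of constraints. -/
noncomputable def GG (e : Fin k → Cs nA nB) (M : Fin k × Fin nA → K l) : K l :=
  F fun j => st sU sV (e j) (blk j M)

/-- The table of the left question. -/
noncomputable def GU (e : Fin k → Cs nA nB) (i : Fin k) (u : ℕ) (M : Fin k × Fin nA → K l) : K l :=
  F fun j => if j = i then sU u (blk i M) else st sU sV (e j) (blk j M)

/-- The table of the right question. -/
noncomputable def GV (e : Fin k → Cs nA nB) (i : Fin k) (v : ℕ)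
    (Q : (Fin k × Fin nA) ⊕ Fin nB → K l) : K l :=
  F fun j => if j = i then sV v (fun b => Q (Sum.inr b)) else
    st sU sV (e j) (fun a => Q (Sum.inl (j, a)))

variable {sU sV F}

lemma st_fac {c : Cs nA nB} (hc : Function.Surjective c.2.2) (N : Fin nB → K l) :
    st sU sV c (fun a => N (c.2.2 a)) = sV c.2.1 N := by
  have h : Fac c.2.2 (fun a => N (c.2.2 a)) := ⟨N, rfl⟩
  unfold st
  rw [dif_pos h]
  congr 1
  funext b
  obtain ⟨a, rfl⟩ := hc b
  exact (congrFun h.choose_spec a).symm

lemma st_not_fac {c : Cs nA nB} {m : Fin nA → K l} (h : ¬ Fac c.2.2 m) :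
    st sU sV c m = sU c.1 m := by
  unfold st
  rw [dif_neg h]

lemma GV_eq {e : Fin k → Cs nA nB} {i : Fin k} (hi : Function.Surjective (e i).2.2)
    (Q : (Fin k × Fin nA) ⊕ Fin nB → K l) :
    GV sU sV F e i (e i).2.1 Q = GG sU sV F e
      (plant i (e i).2.2 (fun b => Q (Sum.inr b)) fun p => Q (Sum.inl p)) := by
  unfold GV GG
  congr 1
  funext j
  by_cases h : j = i
  · subst h
    rw [if_pos rfl]
    unfold plant
    rw [blk_upd]
    exact (st_fac hi (fun b => Q (Sum.inr b))).symm
  · rw [if_neg h]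
    unfold plant
    rw [blk_upd_ne h]
    rfl

lemma GU_eq {e : Fin k → Cs nA nB} {i : Fin k} {M : Fin k × Fin nA → K l}
    (h : ¬ Fac (e i).2.2 (blk i M)) : GU sU sV F e i (e i).1 M = GG sU sV F e M := by
  unfold GU GG
  congr 1
  funext j
  by_cases hj : j = i
  · subst hj
    rw [if_pos rfl, st_not_fac h]
  · rw [if_neg hj]

lemma GU_update (e : Fin k → Cs nA nB) (i : Fin k) (c : Cs nA nB) (u : ℕ) :
    GU sU sV F (Function.update e i c) i u = GU sU sV F e i u := by
  funext M
  unfold GU
  congr 1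
  funext j
  by_cases hj : j = i
  · rw [if_pos hj, if_pos hj]
  · rw [if_neg hj, if_neg hj, Function.update_of_ne hj]

lemma GV_update (e : Fin k → Cs nA nB) (i : Fin k) (c : Cs nA nB) (v : ℕ) :
    GV sU sV F (Function.update e i c) i v = GV sU sV F e i v := by
  funext M
  unfold GV
  congr 1
  funext j
  by_cases hj : j = i
  · rw [if_pos hj, if_pos hj]
  · rw [if_neg hj, if_neg hj, Function.update_of_ne hj]

/-- The coefficients of the right question. -/
def psh (i : Fin k) (π : Fin nA → Fin nB) (t : Fin k × Fin nA → ZMod 2) :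
    (Fin k × Fin nA) ⊕ Fin nB → ZMod 2 :=
  Sum.elim (fun p => if p.1 = i then 0 else t p) fun b => ∑ a, if π a = b then t (i, a) else 0

lemma evl_psh (i : Fin k) (π : Fin nA → Fin nB) (t : Fin k × Fin nA → ZMod 2)
    (Q : (Fin k × Fin nA) ⊕ Fin nB → K l) :
    evl (psh i π t) Q = evl t (plant i π (fun b => Q (Sum.inr b)) fun p => Q (Sum.inl p)) := by
  unfold evl
  rw [Fintype.sum_sum_type]
  have h1 : ∀ p : Fin k × Fin nA, t p • plant i π (fun b => Q (Sum.inr b))
      (fun p => Q (Sum.inl p)) p = psh i π t (Sum.inl p) • Q (Sum.inl p) +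
      (if p.1 = i then t p else 0) • Q (Sum.inr (π p.2)) := by
    intro p
    unfold plant upd psh
    by_cases h : p.1 = i
    · simp [h]
    · simp [h]
  simp only [h1]
  rw [Finset.sum_add_distrib]
  congr 1
  rw [sum_block i (fun p => (if p.1 = i then t p else 0) • Q (Sum.inr (π p.2)))]
  · have h2 : ∀ b, psh i π t (Sum.inr b) • Q (Sum.inr b) =
        ∑ a, if π a = b then t (i, a) • Q (Sum.inr (π a)) else 0 := by
      intro b
      unfold psh
      rw [Sum.elim_inr, Finset.sum_smul]
      refine Finset.sum_congr rfl fun a _ => ?_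
      by_cases h : π a = b
      · rw [if_pos h, if_pos h, h]
      · rw [if_neg h, if_neg h, zero_smul]
    simp only [h2]
    rw [Finset.sum_comm]
    refine Finset.sum_congr rfl fun a _ => ?_
    rw [Finset.sum_ite_eq, if_pos (Finset.mem_univ _)]
    simp
  · intro p hp
    rw [if_neg hp, zero_smul]

/-- The function whose average is the coefficient. -/
noncomputable def psi (e : Fin k → Cs nA nB) (s : K l) (t : Fin k × Fin nA → ZMod 2)
    (sU : ℕ → (Fin nA → K l) → X) (sV : ℕ → (Fin nB → K l) → X) (F : (Fin k → X) → K l)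
    (M : Fin k × Fin nA → K l) : ℝ :=
  sgn (s ⬝ᵥ GG sU sV F e M) * sgn (s ⬝ᵥ evl t M)

lemma cf_eq {I : Type} [Fintype I] [DecidableEq I] (g : (I → K l) → K l) {s : K l} (hs : s ≠ 0)
    (t : I → ZMod 2) : cf g s t = avg fun M => sgn (s ⬝ᵥ g M) * sgn (s ⬝ᵥ evl t M) := by
  unfold cf bts
  rw [if_neg hs]
  unfold ft gs
  refine avg_congr fun M => ?_
  rw [bV_tns, one_mul]

lemma cf_zero {I : Type} [Fintype I] [DecidableEq I] (g : (I → K l) → K l) (t : I → ZMod 2) :
    cf g 0 t = 0 := by
  unfold cf bts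
  rw [if_pos rfl]

lemma abs_psi (e : Fin k → Cs nA nB) (s : K l) (t : Fin k × Fin nA → ZMod 2)
    (M : Fin k × Fin nA → K l) : |psi e s t sU sV F M| ≤ 1 := by
  unfold psi
  rw [abs_mul, abs_sgn, abs_sgn, mul_one]

lemma cfV_eq {e : Fin k → Cs nA nB} {i : Fin k} (hi : Function.Surjective (e i).2.2) {s : K l}
    (hs : s ≠ 0) (t : Fin k × Fin nA → ZMod 2) :
    cf (GV sU sV F e i (e i).2.1) s (psh i (e i).2.2 t) =
      avg fun M : Fin k × Fin nA → K l => avg fun N : Fin nB → K l =>
        psi e s t sU sV F (plant i (e i).2.2 N M) := by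
  rw [cf_eq _ hs]
  have h1 : ∀ Q : (Fin k × Fin nA) ⊕ Fin nB → K l,
      sgn (s ⬝ᵥ GV sU sV F e i (e i).2.1 Q) * sgn (s ⬝ᵥ evl (psh i (e i).2.2 t) Q) =
      (fun z : (Fin k × Fin nA → K l) × (Fin nB → K l) =>
        psi e s t sU sV F (plant i (e i).2.2 z.2 z.1))
        (Equiv.sumArrowEquivProdArrow (Fin k × Fin nA) (Fin nB) (K l) Q) := by
    intro Q
    rw [GV_eq hi, evl_psh]
    rfl
  rw [avg_congr h1, avg_equiv (Equiv.sumArrowEquivProdArrow (Fin k × Fin nA) (Fin nB) (K l))
    (fun z : (Fin k × Fin nA → K l) × (Fin nB → K l) =>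
        psi e s t sU sV F (plant i (e i).2.2 z.2 z.1)), avg_prod_comm]

lemma cfU_le {e : Fin k → Cs nA nB} {i : Fin k} (hi : Function.Surjective (e i).2.2) (s : K l)
    (t : Fin k × Fin nA → ZMod 2) :
    |cf (GU sU sV F e i (e i).1) s t - cf (GG sU sV F e) s t| ≤ 2 * rho nA nB l := by
  classical
  have hρ := rho_pos nA nB l
  by_cases hs : s = 0
  · subst hs
    rw [cf_zero, cf_zero, sub_zero, abs_zero]
    positivity
  · rw [cf_eq _ hs, cf_eq _ hs, ← avg_sub]
    have h1 : ∀ M : Fin k × Fin nA → K l,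
        |sgn (s ⬝ᵥ GU sU sV F e i (e i).1 M) * sgn (s ⬝ᵥ evl t M) -
        sgn (s ⬝ᵥ GG sU sV F e M) * sgn (s ⬝ᵥ evl t M)| ≤ 2 * ind (Fac (e i).2.2 (blk i M)) := by
      intro M
      by_cases h : Fac (e i).2.2 (blk i M)
      · rw [ind_true h, ← sub_mul, abs_mul, abs_sgn, mul_one, mul_one]
        refine (abs_sub _ _).trans ?_
        rw [abs_sgn, abs_sgn]
        norm_num
      · rw [GU_eq h, sub_self, abs_zero]
        exact mul_nonneg (by norm_num) (ind_nonneg _)
    have h2 : (avg fun M : Fin k × Fin nA → K l => 2 * ind (Fac (e i).2.2 (blk i M))) =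
        2 * rho nA nB l := by
      rw [avg_const_mul, avg_resample i]
      simp only [blk_upd]
      rw [avg_ind_fac hi, avg_const]
    rw [← h2, abs_le]
    constructor
    · rw [neg_le_iff_add_nonneg, ← avg_add]
      refine avg_nonneg fun M => ?_
      have := (abs_le.1 (h1 M)).1
      linarith
    · exact avg_mono fun M => (abs_le.1 (h1 M)).2

/-- The products of the coefficients of the two questions. -/
lemma sum_cf_mul {e : Fin k → Cs nA nB} (he : ∀ i, Function.Surjective (e i).2.2) (s : K l)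
    (t : Fin k × Fin nA → ZMod 2) (J : Finset (Fin k)) :
    J.card * (cf (GG sU sV F e) s t ^ 2 - 2 * rho nA nB l) - Real.sqrt (J.card / rho nA nB l) ≤
      ∑ i ∈ J, cf (GU sU sV F e i (e i).1) s t *
        cf (GV sU sV F e i (e i).2.1) s (psh i (e i).2.2 t) := by
  have hρ := rho_pos nA nB l
  have hs0 : 0 ≤ Real.sqrt (J.card / rho nA nB l) := Real.sqrt_nonneg _
  by_cases hs : s = 0
  · subst hs
    simp only [cf_zero]
    have : 0 ≤ (J.card : ℝ) * rho nA nB l := by positivity
    simp only [mul_zero, Finset.sum_const_zero]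
    nlinarith
  · set α := cf (GG sU sV F e) s t with hα
    have hα1 : |α| ≤ 1 := abs_cf _ _ _
    set D : ℝ := ∑ i ∈ J, (cf (GV sU sV F e i (e i).2.1) s (psh i (e i).2.2 t) - α) with hD
    have hD1 : |D| ≤ Real.sqrt (J.card / rho nA nB l) := by
      have h1 := closeness (fun i => (e i).2.2) he J (psi e s t sU sV F)
        (abs_psi e s t)
      have h2 : D = ∑ i ∈ J, ((avg fun M : Fin k × Fin nA → K l => avg fun N : Fin nB → K l =>
          psi e s t sU sV F (plant i (e i).2.2 N M)) - avg (psi e s t sU sV F)) := by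
        rw [hD]
        refine Finset.sum_congr rfl fun i _ => ?_
        rw [cfV_eq (he i) hs, hα, cf_eq _ hs]
        rfl
      rw [h2]
      exact h1
    have h1 : ∀ i ∈ J, α * α + α * (cf (GV sU sV F e i (e i).2.1) s (psh i (e i).2.2 t) - α) -
        2 * rho nA nB l ≤ cf (GU sU sV F e i (e i).1) s t *
        cf (GV sU sV F e i (e i).2.1) s (psh i (e i).2.2 t) := by
      intro i _
      have h2 := cfU_le (sU := sU) (sV := sV) (F := F) (he i) s t
      have h3 := abs_cf (GV sU sV F e i (e i).2.1) s (psh i (e i).2.2 t)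
      rw [← hα] at h2
      set U := cf (GU sU sV F e i (e i).1) s t
      set V := cf (GV sU sV F e i (e i).2.1) s (psh i (e i).2.2 t)
      have h4 : |(U - α) * V| ≤ 2 * rho nA nB l := by
        rw [abs_mul]
        exact (mul_le_mul h2 h3 (abs_nonneg _) (by positivity)).trans (le_of_eq (mul_one _))
      have h5 := (abs_le.1 h4).1
      nlinarith
    refine le_trans ?_ (Finset.sum_le_sum h1)
    have h8 : ∑ i ∈ J, α * (cf (GV sU sV F e i (e i).2.1) s (psh i (e i).2.2 t) - α) = α * D := by
      rw [hD, Finset.mul_sum]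
    rw [Finset.sum_sub_distrib, Finset.sum_add_distrib, h8,
      Finset.sum_const, Finset.sum_const, nsmul_eq_mul, nsmul_eq_mul]
    have h6 : |α * D| ≤ Real.sqrt (J.card / rho nA nB l) := by
      rw [abs_mul]
      exact (mul_le_mul hα1 hD1 (abs_nonneg _) zero_le_one).trans (le_of_eq (one_mul _))
    have h7 := (abs_le.1 h6).1
    nlinarith

/-- The product of the random labels. -/
lemma dcd_mul_ge (gU : (Fin k × Fin nA → K l) → K l)
    (gV : ((Fin k × Fin nA) ⊕ Fin nB → K l) → K l) (i : Fin k) (π : Fin nA → Fin nB) (s : K l)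
    (t : Fin k × Fin nA → ZMod 2) {K0 : ℕ} (hK : (sup fun a => t (i, a)).card ≤ K0)
    (hodd : Odd (sup fun a => t (i, a)).card) :
    cf gU s t ^ 2 * cf gV s (psh i π t) ^ 2 / K0 ≤
      ∑ a, dcd gU s (fun a => (i, a)) a * dcd gV s (fun b : Fin nB => Sum.inr b) (π a) := by
  classical
  set S := sup fun a => t (i, a) with hS
  set S' := sup fun b : Fin nB => psh i π t (Sum.inr b) with hS'
  have hScard : 0 < S.card := hodd.pos
  have hK0 : 0 < K0 := by omega
  have hpsh : ∀ b, psh i π t (Sum.inr b) = ∑ a, if π a = b then t (i, a) else 0 := fun b => rfl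
  have hne : S'.Nonempty := by
    by_contra h
    rw [Finset.not_nonempty_iff_eq_empty] at h
    have h1 : ∀ b, psh i π t (Sum.inr b) = 0 := by
      intro b
      by_contra hb
      have : b ∈ S' := Finset.mem_filter.2 ⟨Finset.mem_univ _, hb⟩
      rw [h] at this
      exact absurd this (Finset.notMem_empty b)
    have h2 : ∑ b, psh i π t (Sum.inr b) = ∑ a, t (i, a) := by
      simp only [hpsh]
      rw [Finset.sum_comm]
      refine Finset.sum_congr rfl fun a _ => ?_
      rw [Finset.sum_ite_eq, if_pos (Finset.mem_univ _)]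
    rw [Finset.sum_congr rfl fun b _ => h1 b, Finset.sum_const_zero, ← natCast_card_sup] at h2
    rw [← ZMod.natCast_eq_one_iff_odd] at hodd
    rw [hodd] at h2
    exact absurd h2 (by decide)
  have hS'card : 0 < S'.card := hne.card_pos
  -- the number of good labels
  have hle : S'.card ≤ (S.filter fun a => π a ∈ S').card := by
    have h1 : S' ⊆ (S.filter fun a => π a ∈ S').image π := by
      intro b hb
      have h2 : psh i π t (Sum.inr b) ≠ 0 := (Finset.mem_filter.1 hb).2
      rw [hpsh] at h2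
      obtain ⟨a, _, ha⟩ := Finset.exists_ne_zero_of_sum_ne_zero h2
      have h3 : π a = b := by
        by_contra h
        exact ha (if_neg h)
      rw [if_pos h3] at ha
      refine Finset.mem_image.2 ⟨a, Finset.mem_filter.2 ⟨?_, ?_⟩, h3⟩
      · exact Finset.mem_filter.2 ⟨Finset.mem_univ _, ha⟩
      · rw [h3]
        exact hb
    exact (Finset.card_le_card h1).trans Finset.card_image_le
  have hw : 1 / (K0 : ℝ) ≤ ∑ a, wt (fun a => (i, a)) t a *
      wt (fun b : Fin nB => Sum.inr b) (psh i π t) (π a) := by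
    have h1 : ∀ a, wt (fun a => (i, a)) t a *
        wt (fun b : Fin nB => Sum.inr b) (psh i π t) (π a) =
        if a ∈ S.filter fun a => π a ∈ S' then 1 / (S.card : ℝ) * (1 / S'.card) else 0 := by
      intro a
      unfold wt
      by_cases ha : t (i, a) ≠ 0
      · have haS : a ∈ S := Finset.mem_filter.2 ⟨Finset.mem_univ _, ha⟩
        rw [if_pos ha]
        by_cases hb : psh i π t (Sum.inr (π a)) ≠ 0
        · have hbS : π a ∈ S' := Finset.mem_filter.2 ⟨Finset.mem_univ _, hb⟩
          rw [if_pos hb, if_pos (Finset.mem_filter.2 ⟨haS, hbS⟩)]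
        · rw [if_neg hb, mul_zero, if_neg]
          intro h
          exact hb (Finset.mem_filter.1 (Finset.mem_filter.1 h).2).2
      · rw [if_neg ha, zero_mul, if_neg]
        intro h
        exact ha (Finset.mem_filter.1 (Finset.mem_filter.1 h).1).2
    simp only [h1]
    rw [Finset.sum_ite_mem, Finset.univ_inter, Finset.sum_const, nsmul_eq_mul]
    have hSr : (0 : ℝ) < S.card := by exact_mod_cast hScard
    have hS'r : (0 : ℝ) < S'.card := by exact_mod_cast hS'card
    have hKr : (0 : ℝ) < K0 := by exact_mod_cast hK0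
    have hle' : (S'.card : ℝ) ≤ ((S.filter fun a => π a ∈ S').card : ℝ) := by exact_mod_cast hle
    have hK' : (S.card : ℝ) ≤ K0 := by exact_mod_cast hK
    calc 1 / (K0 : ℝ) ≤ 1 / S.card := one_div_le_one_div_of_le hSr hK'
      _ = S'.card * (1 / S.card * (1 / S'.card)) := by field_simp
      _ ≤ _ := mul_le_mul_of_nonneg_right hle' (by positivity)
  have h2 : ∀ a, (cf gU s t ^ 2 * cf gV s (psh i π t) ^ 2) * (wt (fun a => (i, a)) t a *
      wt (fun b : Fin nB => Sum.inr b) (psh i π t) (π a)) ≤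
      dcd gU s (fun a => (i, a)) a * dcd gV s (fun b : Fin nB => Sum.inr b) (π a) := by
    intro a
    have e1 := le_dcd gU s (fun a => (i, a)) t a
    have e2 := le_dcd gV s (fun b : Fin nB => Sum.inr b) (psh i π t) (π a)
    have e3 : 0 ≤ cf gV s (psh i π t) ^ 2 *
        wt (fun b : Fin nB => Sum.inr b) (psh i π t) (π a) :=
      mul_nonneg (sq_nonneg _) (wt_nonneg _ _ _)
    calc (cf gU s t ^ 2 * cf gV s (psh i π t) ^ 2) * (wt (fun a => (i, a)) t a *
        wt (fun b : Fin nB => Sum.inr b) (psh i π t) (π a)) =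
        (cf gU s t ^ 2 * wt (fun a => (i, a)) t a) * (cf gV s (psh i π t) ^ 2 *
        wt (fun b : Fin nB => Sum.inr b) (psh i π t) (π a)) := by ring
      _ ≤ _ := mul_le_mul e1 e2 e3 (dcd_nonneg _ _ _ _)
  refine le_trans ?_ (Finset.sum_le_sum fun a _ => h2 a)
  rw [← Finset.mul_sum, div_eq_mul_one_div]
  exact mul_le_mul_of_nonneg_left hw (by positivity)

end tables

end Vale.Agent.P339.H937
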