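import Vale.Agent.P339.H937.TwoPt

/-!
P339: if the table agrees with no affine function, then its rank one weight is small.
-/

namespace Vale.Agent.P339.H937

open Finset Vale.Agent.Lib.PCP Vale.Agent.Lib.PCP.HA Vale.Agent.P339.H283

variable {l : ℕ} {I : Type} [Fintype I] [DecidableEq I]

/-- Bessel inequality for the rank one vectors of `s`. -/
lemma bessel (f : (I → K l) → ℝ) {s : K l} (hs : s ≠ 0) :
    ∑ t : I → ZMod 2, ft bV f (tns t s) ^ 2 ≤ avg fun M => f M ^ 2 := by
  classical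
  rw [← pairing_V.parseval_sq]
  have h1 : ∑ t : I → ZMod 2, ft bV f (tns t s) ^ 2 =
      ∑ L ∈ (Finset.univ : Finset (I → ZMod 2)).image (fun t => tns t s), ft bV f L ^ 2 := by
    rw [Finset.sum_image]
    intro t _ t' _ h
    exact tns_injective hs h
  rw [h1]
  exact Finset.sum_le_sum_of_subset_of_nonneg (Finset.subset_univ _) fun _ _ _ => sq_nonneg _

/-- The rank one coefficients. -/
noncomputable def bts (u : (I → K l) → ℝ) (G : (I → K l) → K l) (s : K l) (t : I → ZMod 2) : ℝ :=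
  if s = 0 then 0 else ft bV (gs u G s) (tns t s)

/-- The rank one part. -/
noncomputable def phi (u : (I → K l) → ℝ) (G : (I → K l) → K l) (M : I → K l) (s : K l) : ℝ :=
  ∑ t : I → ZMod 2, bts u G s t * sgn (s ⬝ᵥ evl t M)

/-- The agreement with an affine function. -/
noncomputable def agr (u : (I → K l) → ℝ) (G : (I → K l) → K l) (t : I → ZMod 2) (v : K l) : ℝ :=
  avg fun M : I → K l => u M * ind (G M = evl t M + v)

variable {u : (I → K l) → ℝ} {G : (I → K l) → K l}

lemma omg_eq_bts : omg u G = avg fun s : K l => ∑ t : I → ZMod 2, bts u G s t ^ 2 := by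
  unfold omg bts
  refine avg_congr fun s => ?_
  split_ifs with h
  · simp
  · rfl

lemma sum_bts_sq (hu : ∀ M, |u M| ≤ 1) (s : K l) : ∑ t : I → ZMod 2, bts u G s t ^ 2 ≤ 1 := by
  unfold bts
  split_ifs with h
  · simp
  · refine (bessel _ h).trans (avg_le_of_le zero_le_one fun M => ?_)
    rw [gs_sq]
    have := hu M
    rw [abs_le] at this
    nlinarith

lemma abs_bts (hu : ∀ M, |u M| ≤ 1) (s : K l) (t : I → ZMod 2) : |bts u G s t| ≤ 1 := by
  have h1 : bts u G s t ^ 2 ≤ 1 :=
    (Finset.single_le_sum (f := fun t => bts u G s t ^ 2) (fun _ _ => sq_nonneg _)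
      (Finset.mem_univ t)).trans (sum_bts_sq hu s)
  exact abs_le_one_iff_mul_self_le_one.2 (by rw [← sq]; exact h1)

lemma omg_nonneg : 0 ≤ omg u G := by
  rw [omg_eq_bts]
  exact avg_nonneg fun s => Finset.sum_nonneg fun t _ => sq_nonneg _

lemma omg_le_one (hu : ∀ M, |u M| ≤ 1) : omg u G ≤ 1 := by
  rw [omg_eq_bts]
  exact avg_le_of_le zero_le_one fun s => sum_bts_sq hu s

lemma omg_eq : omg u G = avg fun M : I → K l =>
    u M * ft (fun x y : K l => x ⬝ᵥ y) (phi u G M) (G M) := by
  have h1 : ∀ M : I → K l, u M * ft (fun x y : K l => x ⬝ᵥ y) (phi u G M) (G M) =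
      avg fun s : K l => ∑ t : I → ZMod 2, bts u G s t * (gs u G s M * sgn (bV (tns t s) M)) := by
    intro M
    unfold ft phi
    rw [← avg_const_mul]
    refine avg_congr fun s => ?_
    rw [Finset.sum_mul, Finset.mul_sum]
    refine Finset.sum_congr rfl fun t _ => ?_
    rw [bV_tns]
    unfold gs
    dsimp only
    rw [dotProduct_comm (G M) s]
    ring
  simp only [h1]
  rw [avg_comm, omg_eq_bts]
  refine avg_congr fun s => ?_
  rw [avg_sum]
  refine Finset.sum_congr rfl fun t _ => ?_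
  rw [avg_const_mul, sq]
  unfold bts
  split_ifs with h
  · simp
  · rfl

lemma avg_pow_four_le {X : Type*} [Fintype X] (F : X → ℝ) : avg F ^ 4 ≤ avg fun x => F x ^ 4 := by
  have h1 := avg_sq_le F
  have h2 := avg_sq_le fun x => F x ^ 2
  have h3 : (avg F ^ 2) ^ 2 ≤ (avg fun x => F x ^ 2) ^ 2 := pow_le_pow_left₀ (sq_nonneg _) h1 2
  calc avg F ^ 4 = (avg F ^ 2) ^ 2 := by ring
    _ ≤ (avg fun x => F x ^ 2) ^ 2 := h3
    _ ≤ avg fun x => (F x ^ 2) ^ 2 := h2
    _ = avg fun x => F x ^ 4 := avg_congr fun x => by ring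

lemma omg_pow_le (hu : ∀ M, |u M| ≤ 1) : omg u G ^ 4 ≤ avg fun M : I → K l =>
    ∑ g, ft (fun x y : K l => x ⬝ᵥ y) (phi u G M) g ^ 4 := by
  rw [omg_eq]
  refine (avg_pow_four_le _).trans (avg_mono fun M => ?_)
  rw [mul_pow]
  have h1 : u M ^ 4 ≤ 1 := by
    have h2 : u M ^ 2 ≤ 1 := by
      have := hu M
      rw [abs_le] at this
      nlinarith
    nlinarith [sq_nonneg (u M), sq_nonneg (u M ^ 2)]
  have h3 : 0 ≤ ft (fun x y : K l => x ⬝ᵥ y) (phi u G M) (G M) ^ 4 := by positivity
  refine (mul_le_of_le_one_left h3 h1).trans ?_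
  exact Finset.single_le_sum (f := fun g => ft (fun x y : K l => x ⬝ᵥ y) (phi u G M) g ^ 4)
    (fun g _ => by positivity) (Finset.mem_univ _)

/-- Three linearly independent vectors. -/
def Ind3 (s1 s2 s3 : K l) : Prop :=
  ∀ a b c : ZMod 2, a • s1 + b • s2 + c • s3 = 0 → a = 0 ∧ b = 0 ∧ c = 0

instance (s1 s2 s3 : K l) : Decidable (Ind3 s1 s2 s3) := by
  unfold Ind3
  infer_instance

lemma ind_not_Ind3 (s1 s2 s3 : K l) : ind (¬ Ind3 s1 s2 s3) ≤ ind (s1 = 0) +
    (ind (s2 = 0) + ind (s2 = s1)) +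
    (ind (s3 = 0) + ind (s3 = s1) + ind (s3 = s2) + ind (s3 = s1 + s2)) := by
  by_cases h : Ind3 s1 s2 s3
  · rw [ind_false (fun h' => h' h)]
    linarith [ind_nonneg (s1 = 0), ind_nonneg (s2 = 0), ind_nonneg (s2 = s1),
      ind_nonneg (s3 = 0), ind_nonneg (s3 = s1), ind_nonneg (s3 = s2), ind_nonneg (s3 = s1 + s2)]
  · rw [ind_true h]
    have key : s1 = 0 ∨ s2 = 0 ∨ s2 = s1 ∨ s3 = 0 ∨ s3 = s1 ∨ s3 = s2 ∨ s3 = s1 + s2 := by
      unfold Ind3 at h
      push Not at h
      obtain ⟨a, b, c, h1, h2⟩ := h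
      rcases bit_cases a with rfl | rfl <;> rcases bit_cases b with rfl | rfl <;>
        rcases bit_cases c with rfl | rfl <;>
        simp only [zero_smul, one_smul, zero_add, add_zero] at h1
      · exact absurd rfl (h2 rfl rfl)
      · right; right; right; left; exact h1
      · right; left; exact h1
      · right; right; right; right; right; left; exact (K_add_eq_zero.1 h1).symm
      · left; exact h1
      · right; right; right; right; left; exact (K_add_eq_zero.1 h1).symm
      · right; right; left; exact (K_add_eq_zero.1 h1).symm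
      · right; right; right; right; right; right; exact (K_add_eq_zero.1 h1).symm
    have hn := fun p : Prop => fun _ : Decidable p => ind_nonneg p
    rcases key with h | h | h | h | h | h | h <;>
      · have h3 := ind_true h
        linarith [ind_nonneg (s1 = 0), ind_nonneg (s2 = 0), ind_nonneg (s2 = s1),
          ind_nonneg (s3 = 0), ind_nonneg (s3 = s1), ind_nonneg (s3 = s2),
          ind_nonneg (s3 = s1 + s2)]

lemma avg_not_Ind3 : (avg fun s1 : K l => avg fun s2 : K l => avg fun s3 : K l =>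
    ind (¬ Ind3 s1 s2 s3)) ≤ 7 / 2 ^ l := by
  refine (avg_mono fun s1 => avg_mono fun s2 => avg_mono fun s3 => ind_not_Ind3 s1 s2 s3).trans
    (le_of_eq ?_)
  simp only [avg_add, avg_const, avg_K_eq]
  have h1 : ∀ s1 : K l, (avg fun s2 : K l => ind (s2 = s1)) = 1 / 2 ^ l := fun s1 => avg_K_eq s1
  ring

omit [DecidableEq I] in
/-- The inner product with a combination of the entries. -/
lemma dot_evl (s : K l) (t : I → ZMod 2) (N : I → K l) :
    s ⬝ᵥ evl t N = t ⬝ᵥ fun i => s ⬝ᵥ N i := by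
  unfold evl
  rw [dotProduct_sum]
  unfold dotProduct
  refine Finset.sum_congr rfl fun i _ => ?_
  rw [Finset.mul_sum]
  exact Finset.sum_congr rfl fun j _ => by rw [Pi.smul_apply, smul_eq_mul]; ring

lemma abs_phi (hu : ∀ M, |u M| ≤ 1) (M : I → K l) (s : K l) : |phi u G M s| ≤ 1 := by
  by_cases hs : s = 0
  · unfold phi bts
    simp [hs]
  · set W : (I → K l) → ℝ := fun N => ∑ t : I → ZMod 2, sgn (s ⬝ᵥ evl t N) with hW
    have hW0 : ∀ N, 0 ≤ W N := by
      intro N
      simp only [hW, dot_evl]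
      rw [sum_eq_card_mul_avg]
      refine mul_nonneg (Nat.cast_nonneg _) ?_
      have := pairing_dot.avg_sgn' (fun i => s ⬝ᵥ N i)
      rw [this]
      exact ind_nonneg _
    have hW1 : avg W = 1 := by
      simp only [hW]
      rw [avg_sum]
      have h1 : ∀ t : I → ZMod 2, (avg fun N : I → K l => sgn (s ⬝ᵥ evl t N)) =
          if t = 0 then 1 else 0 := by
        intro t
        have h2 : (avg fun N : I → K l => sgn (s ⬝ᵥ evl t N)) =
            avg fun N : I → K l => sgn (bV (tns t s) N) := avg_congr fun N => by rw [bV_tns]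
        rw [h2, pairing_V.avg_sgn]
        unfold ind
        refine if_congr ?_ rfl rfl
        constructor
        · intro h
          have h3 : tns t s = tns (0 : I → ZMod 2) s := by
            rw [h]
            funext i
            simp [tns]
          exact tns_injective hs h3
        · rintro rfl
          funext i
          simp [tns]
      simp only [h1]
      rw [Finset.sum_ite_eq', if_pos (Finset.mem_univ _)]
    have h1 : phi u G M s = avg fun M' : I → K l => gs u G s M' * W (M' + M) := by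
      unfold phi bts
      simp only [if_neg hs, hW]
      have h2 : ∀ t : I → ZMod 2, ft bV (gs u G s) (tns t s) * sgn (s ⬝ᵥ evl t M) =
          avg fun M' : I → K l => gs u G s M' * sgn (s ⬝ᵥ evl t (M' + M)) := by
        intro t
        unfold ft
        rw [← avg_mul_const]
        refine avg_congr fun M' => ?_
        rw [bV_tns, evl_add, dotProduct_add, sgn_add]
        ring
      simp only [h2]
      rw [← avg_sum]
      exact avg_congr fun M' => by rw [Finset.mul_sum]
    rw [h1]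
    have hW2 : (avg fun M' : I → K l => W (M' + M)) = 1 := by rw [avg_add_right, hW1]
    have hg : ∀ M', |gs u G s M'| ≤ 1 := by
      intro M'
      unfold gs
      rw [abs_mul, abs_sgn, mul_one]
      exact hu M'
    rw [abs_le]
    constructor
    · have h3 : avg (fun M' : I → K l => -W (M' + M)) ≤
          avg fun M' : I → K l => gs u G s M' * W (M' + M) := avg_mono fun M' => by
        have := hg M'
        rw [abs_le] at this
        nlinarith [hW0 (M' + M)]
      have h4 : avg (fun M' : I → K l => -W (M' + M)) = -1 := by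
        have := avg_const_mul (-1) fun M' : I → K l => W (M' + M)
        rw [hW2] at this
        simpa using this
      linarith
    · rw [← hW2]
      refine avg_mono fun M' => ?_
      have := hg M'
      rw [abs_le] at this
      nlinarith [hW0 (M' + M)]

omit [Fintype I] [DecidableEq I] in
lemma tns_sum_eq_zero {s1 s2 s3 : K l} (h : Ind3 s1 s2 s3) (t1 t2 t3 t4 : I → ZMod 2) :
    tns t1 s1 + tns t2 s2 + tns t3 s3 + tns t4 (s1 + s2 + s3) = 0 ↔
      t1 = t4 ∧ t2 = t4 ∧ t3 = t4 := by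
  have hbit : ∀ a b : ZMod 2, a + b = 0 → a = b := by decide
  constructor
  · intro h1
    have h2 : ∀ i, t1 i + t4 i = 0 ∧ t2 i + t4 i = 0 ∧ t3 i + t4 i = 0 := by
      intro i
      apply h
      have h3 := congrFun h1 i
      simp only [Pi.add_apply, tns, Pi.zero_apply] at h3
      rw [← h3]
      module
    exact ⟨funext fun i => hbit _ _ (h2 i).1, funext fun i => hbit _ _ (h2 i).2.1,
      funext fun i => hbit _ _ (h2 i).2.2⟩
  · rintro ⟨rfl, rfl, rfl⟩
    funext i
    simp only [Pi.add_apply, tns, Pi.zero_apply]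
    have : t3 i • s1 + t3 i • s2 + t3 i • s3 + t3 i • (s1 + s2 + s3) =
      t3 i • (s1 + s2 + s3) + t3 i • (s1 + s2 + s3) := by module
    rw [this, K_add_self]

lemma sum_mul4 {ι : Type*} (S : Finset ι) (f g h k : ι → ℝ) :
    (∑ a ∈ S, f a) * (∑ b ∈ S, g b) * (∑ c ∈ S, h c) * (∑ d ∈ S, k d) =
      ∑ a ∈ S, ∑ b ∈ S, ∑ c ∈ S, ∑ d ∈ S, f a * g b * h c * k d := by
  simp only [Finset.sum_mul, Finset.mul_sum]
  have e1 : ∀ w : ι → ι → ι → ι → ℝ, ∑ a ∈ S, ∑ b ∈ S, ∑ c ∈ S, ∑ d ∈ S, w a b c d =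
      ∑ d ∈ S, ∑ c ∈ S, ∑ b ∈ S, ∑ a ∈ S, w a b c d := by
    intro w
    have h1 : ∀ a, ∑ b ∈ S, ∑ c ∈ S, ∑ d ∈ S, w a b c d =
        ∑ d ∈ S, ∑ c ∈ S, ∑ b ∈ S, w a b c d := by
      intro a
      calc ∑ b ∈ S, ∑ c ∈ S, ∑ d ∈ S, w a b c d
          = ∑ b ∈ S, ∑ d ∈ S, ∑ c ∈ S, w a b c d :=
            Finset.sum_congr rfl fun b _ => Finset.sum_comm
        _ = ∑ d ∈ S, ∑ b ∈ S, ∑ c ∈ S, w a b c d := Finset.sum_comm
        _ = _ := Finset.sum_congr rfl fun d _ => Finset.sum_comm
    simp only [h1]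
    rw [Finset.sum_comm]
    refine Finset.sum_congr rfl fun d _ => ?_
    rw [Finset.sum_comm]
    exact Finset.sum_congr rfl fun c _ => Finset.sum_comm
  first
    | rfl
    | exact e1 _

/-- The fourth moment for independent vectors. -/
lemma avg_phi_ind {s1 s2 s3 : K l} (h : Ind3 s1 s2 s3) :
    (avg fun M : I → K l => phi u G M s1 * phi u G M s2 * phi u G M s3 *
      phi u G M (s1 + s2 + s3)) =
    ∑ t : I → ZMod 2, bts u G s1 t * bts u G s2 t * bts u G s3 t * bts u G (s1 + s2 + s3) t := by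
  classical
  have h1 : ∀ M : I → K l, phi u G M s1 * phi u G M s2 * phi u G M s3 *
      phi u G M (s1 + s2 + s3) = ∑ t1 : I → ZMod 2, ∑ t2 : I → ZMod 2,
      ∑ t3 : I → ZMod 2, ∑ t4 : I → ZMod 2, (bts u G s1 t1 * bts u G s2 t2 * bts u G s3 t3 *
        bts u G (s1 + s2 + s3) t4) *
        sgn (bV (tns t1 s1 + tns t2 s2 + tns t3 s3 + tns t4 (s1 + s2 + s3)) M) := by
    intro M
    unfold phi
    rw [sum_mul4]
    refine Finset.sum_congr rfl fun t1 _ => Finset.sum_congr rfl fun t2 _ =>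
      Finset.sum_congr rfl fun t3 _ => Finset.sum_congr rfl fun t4 _ => ?_
    rw [pairing_V.add_left, pairing_V.add_left, pairing_V.add_left, sgn_add, sgn_add, sgn_add,
      bV_tns, bV_tns, bV_tns, bV_tns]
    ring
  simp only [h1, avg_sum, avg_const_mul, pairing_V.avg_sgn]
  refine Finset.sum_congr rfl fun t1 _ => ?_
  have h2 : ∀ t2 t3 t4 : I → ZMod 2,
      ind (tns t1 s1 + tns t2 s2 + tns t3 s3 + tns t4 (s1 + s2 + s3) = 0) =
      ind (t1 = t4 ∧ t2 = t4 ∧ t3 = t4) := fun t2 t3 t4 => ind_congr (tns_sum_eq_zero h _ _ _ _)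
  simp only [h2]
  rw [Finset.sum_eq_single t1, Finset.sum_eq_single t1, Finset.sum_eq_single t1]
  · rw [ind_true ⟨rfl, rfl, rfl⟩, mul_one]
  · intro b _ hb
    rw [ind_false (fun h => hb h.1.symm), mul_zero]
  · intro h
    exact absurd (Finset.mem_univ _) h
  · intro b _ hb
    refine Finset.sum_eq_zero fun c _ => ?_
    rw [ind_false (fun h => hb (h.2.2.trans h.1.symm)), mul_zero]
  · intro h
    exact absurd (Finset.mem_univ _) h
  · intro b _ hb
    refine Finset.sum_eq_zero fun c _ => Finset.sum_eq_zero fun d _ => ?_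
    rw [ind_false (fun h => hb (h.2.1.trans h.1.symm)), mul_zero]
  · intro h
    exact absurd (Finset.mem_univ _) h

lemma abs_sum_bts (hu : ∀ M, |u M| ≤ 1) (s1 s2 s3 s4 : K l) :
    |∑ t : I → ZMod 2, bts u G s1 t * bts u G s2 t * bts u G s3 t * bts u G s4 t| ≤ 1 := by
  refine (Finset.abs_sum_le_sum_abs _ _).trans ?_
  have h1 : ∀ t : I → ZMod 2, |bts u G s1 t * bts u G s2 t * bts u G s3 t * bts u G s4 t| ≤
      1 / 2 * bts u G s1 t ^ 2 + 1 / 2 * bts u G s2 t ^ 2 := by
    intro t
    rw [abs_mul, abs_mul, abs_mul]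
    have h3 := abs_bts (G := G) hu s3 t
    have h4 := abs_bts (G := G) hu s4 t
    have h5 : |bts u G s1 t| * |bts u G s2 t| * |bts u G s3 t| * |bts u G s4 t| ≤
        |bts u G s1 t| * |bts u G s2 t| := by
      have h6 : 0 ≤ |bts u G s1 t| * |bts u G s2 t| := by positivity
      calc |bts u G s1 t| * |bts u G s2 t| * |bts u G s3 t| * |bts u G s4 t|
          ≤ |bts u G s1 t| * |bts u G s2 t| * |bts u G s3 t| :=
            mul_le_of_le_one_right (by positivity) h4
        _ ≤ _ := mul_le_of_le_one_right h6 h3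
    refine h5.trans ?_
    nlinarith [sq_nonneg (|bts u G s1 t| - |bts u G s2 t|), sq_abs (bts u G s1 t),
      sq_abs (bts u G s2 t)]
  refine (Finset.sum_le_sum fun t _ => h1 t).trans ?_
  rw [Finset.sum_add_distrib, ← Finset.mul_sum, ← Finset.mul_sum]
  linarith [sum_bts_sq (G := G) hu s1, sum_bts_sq (G := G) hu s2]

lemma avg_phi_le (hu : ∀ M, |u M| ≤ 1) (s1 s2 s3 : K l) :
    (avg fun M : I → K l => phi u G M s1 * phi u G M s2 * phi u G M s3 *
      phi u G M (s1 + s2 + s3)) ≤
    (∑ t : I → ZMod 2, bts u G s1 t * bts u G s2 t * bts u G s3 t * bts u G (s1 + s2 + s3) t) +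
      2 * ind (¬ Ind3 s1 s2 s3) := by
  by_cases h : Ind3 s1 s2 s3
  · rw [avg_phi_ind h]
    linarith [ind_nonneg (¬ Ind3 s1 s2 s3)]
  · rw [ind_true h]
    have h1 := abs_sum_bts (G := G) hu s1 s2 s3 (s1 + s2 + s3)
    rw [abs_le] at h1
    have h2 : (avg fun M : I → K l => phi u G M s1 * phi u G M s2 * phi u G M s3 *
        phi u G M (s1 + s2 + s3)) ≤ 1 := by
      refine avg_le_of_le zero_le_one fun M => (le_abs_self _).trans ?_
      rw [abs_mul, abs_mul, abs_mul]
      have a1 := abs_phi (G := G) hu M s1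
      have a2 := abs_phi (G := G) hu M s2
      have a3 := abs_phi (G := G) hu M s3
      have a4 := abs_phi (G := G) hu M (s1 + s2 + s3)
      calc |phi u G M s1| * |phi u G M s2| * |phi u G M s3| * |phi u G M (s1 + s2 + s3)|
          ≤ 1 * 1 * 1 * 1 := by gcongr
        _ = 1 := by norm_num
    linarith [h1.1]

/-- The coefficients in terms of the agreements. -/
lemma ft_bts (t : I → ZMod 2) (g : K l) :
    ft (fun x y : K l => x ⬝ᵥ y) (fun s => bts u G s t) g = agr u G t g - avg u / 2 ^ l := by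
  classical
  have h1 : ∀ s : K l, bts u G s t * sgn (g ⬝ᵥ s) =
      ft bV (gs u G s) (tns t s) * sgn (g ⬝ᵥ s) - avg u * ind (s = 0) := by
    intro s
    unfold bts
    by_cases hs : s = 0
    · subst hs
      rw [if_pos rfl, ind_true rfl, dotProduct_zero, sgn_zero]
      have : ft bV (gs u G 0) (tns t 0) = avg u := by
        unfold ft
        refine avg_congr fun M => ?_
        rw [bV_tns, zero_dotProduct, sgn_zero, mul_one]
        unfold gs
        rw [zero_dotProduct, sgn_zero, mul_one]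
      rw [this]
      ring
    · rw [if_neg hs, ind_false hs]
      ring
  unfold ft
  dsimp only
  simp only [h1]
  rw [avg_sub, avg_const_mul, avg_K_eq]
  congr 1
  · unfold agr ft
    have h2 : ∀ s : K l, (avg fun M : I → K l => gs u G s M * sgn (bV (tns t s) M)) *
        sgn (g ⬝ᵥ s) = avg fun M : I → K l => u M * sgn ((G M + (evl t M + g)) ⬝ᵥ s) := by
      intro s
      rw [← avg_mul_const]
      refine avg_congr fun M => ?_
      rw [bV_tns, add_dotProduct, add_dotProduct, sgn_add, sgn_add, dotProduct_comm s]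
      unfold gs
      rw [dotProduct_comm s (G M)]
      ring
    simp only [h2]
    rw [avg_comm]
    refine avg_congr fun M => ?_
    rw [avg_const_mul, pairing_K.avg_sgn]
    congr 1
    exact ind_congr K_add_eq_zero
  · ring

/-- **Small agreement gives small rank one weight.** -/
theorem rank_one {c : ℝ} (hu0 : ∀ M, 0 ≤ u M) (hu1 : ∀ M, u M ≤ 1) (hc : 1 / 2 ^ l ≤ c)
    (hA : ∀ t g, agr u G t g ≤ c) : omg u G ^ 4 ≤ c ^ 2 + 14 / 2 ^ l := by
  have hu : ∀ M, |u M| ≤ 1 := fun M => by rw [abs_of_nonneg (hu0 M)]; exact hu1 M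
  have hpow : (0 : ℝ) < 2 ^ l := by positivity
  refine (omg_pow_le hu).trans ?_
  have h1 : ∀ M : I → K l, ∑ g, ft (fun x y : K l => x ⬝ᵥ y) (phi u G M) g ^ 4 =
      avg fun s1 : K l => avg fun s2 : K l => avg fun s3 : K l =>
        phi u G M s1 * phi u G M s2 * phi u G M s3 * phi u G M (s1 + s2 + s3) := by
    intro M
    rw [← pairing_K.fourth]
    exact Finset.sum_congr rfl fun g _ => by ring
  simp only [h1]
  have h2 : (avg fun M : I → K l => avg fun s1 : K l => avg fun s2 : K l => avg fun s3 : K l =>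
        phi u G M s1 * phi u G M s2 * phi u G M s3 * phi u G M (s1 + s2 + s3)) =
      avg fun s1 : K l => avg fun s2 : K l => avg fun s3 : K l => avg fun M : I → K l =>
        phi u G M s1 * phi u G M s2 * phi u G M s3 * phi u G M (s1 + s2 + s3) := by
    rw [avg_comm]
    refine avg_congr fun s1 => ?_
    rw [avg_comm]
    refine avg_congr fun s2 => ?_
    rw [avg_comm]
  rw [h2]
  refine (avg_mono fun s1 => avg_mono fun s2 => avg_mono fun s3 =>
    avg_phi_le hu s1 s2 s3).trans ?_
  simp only [avg_add, avg_const_mul]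
  have h3 := avg_not_Ind3 (l := l)
  have h4 : (avg fun s1 : K l => avg fun s2 : K l => avg fun s3 : K l =>
      ∑ t : I → ZMod 2, bts u G s1 t * bts u G s2 t * bts u G s3 t *
        bts u G (s1 + s2 + s3) t) =
      ∑ t : I → ZMod 2, ∑ g : K l, ft (fun x y : K l => x ⬝ᵥ y) (fun s => bts u G s t) g ^ 4 := by
    simp only [avg_sum]
    refine Finset.sum_congr rfl fun t _ => ?_
    rw [← pairing_K.fourth (fun s => bts u G s t) (fun s => bts u G s t)
      (fun s => bts u G s t) (fun s => bts u G s t)]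
    exact Finset.sum_congr rfl fun g _ => by ring
  rw [h4]
  have hau : 0 ≤ avg u ∧ avg u ≤ 1 := ⟨avg_nonneg hu0, avg_le_of_le zero_le_one hu1⟩
  have h5 : ∀ t g, ft (fun x y : K l => x ⬝ᵥ y) (fun s => bts u G s t) g ^ 4 ≤
      c ^ 2 * ft (fun x y : K l => x ⬝ᵥ y) (fun s => bts u G s t) g ^ 2 := by
    intro t g
    have e1 : ft (fun x y : K l => x ⬝ᵥ y) (fun s => bts u G s t) g ^ 2 ≤ c ^ 2 := by
      rw [ft_bts]
      have hA0 : 0 ≤ agr u G t g := avg_nonneg fun M => mul_nonneg (hu0 M) (ind_nonneg _)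
      have hq : avg u / 2 ^ l ≤ c := le_trans (div_le_div_of_nonneg_right hau.2 hpow.le) hc
      have hq0 : 0 ≤ avg u / 2 ^ l := div_nonneg hau.1 hpow.le
      refine sq_le_sq' ?_ ?_
      · linarith
      · linarith [hA t g]
    nlinarith [sq_nonneg (ft (fun x y : K l => x ⬝ᵥ y) (fun s => bts u G s t) g)]
  have h6 : ∑ t : I → ZMod 2, ∑ g : K l,
      ft (fun x y : K l => x ⬝ᵥ y) (fun s => bts u G s t) g ^ 2 = omg u G := by
    rw [omg_eq_bts, avg_sum]
    exact Finset.sum_congr rfl fun t _ => pairing_K.parseval_sq _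
  have h7 : ∑ t : I → ZMod 2, ∑ g : K l,
      ft (fun x y : K l => x ⬝ᵥ y) (fun s => bts u G s t) g ^ 4 ≤ c ^ 2 * omg u G := by
    rw [← h6, Finset.mul_sum]
    refine Finset.sum_le_sum fun t _ => ?_
    rw [Finset.mul_sum]
    exact Finset.sum_le_sum fun g _ => h5 t g
  have h8 : c ^ 2 * omg u G ≤ c ^ 2 := mul_le_of_le_one_right (sq_nonneg c) (omg_le_one hu)
  have h9 : (14 : ℝ) / 2 ^ l = 2 * (7 / 2 ^ l) := by ring
  rw [h9]
  linarith

end Vale.Agent.P339.H937
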