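import Vale.Agent.P339.H937.Four

/-!
P339: the two-point bound of the dense test.
-/

namespace Vale.Agent.P339.H937

open Finset Vale.Agent.Lib.PCP Vale.Agent.Lib.PCP.HA Vale.Agent.P339.H283

variable {l : ℕ} {I : Type} [Fintype I] [DecidableEq I]

/-- The average over a line, twisted by a character. -/
lemma line_avg (f : (I → K l) → ℝ) (c : K l) (y : I → ZMod 2) :
    (avg fun M : I → K l => (avg fun φ : K l => f (M + tns y φ) * sgn (c ⬝ᵥ φ)) ^ 2) =
      ∑ L, ft bV f L ^ 2 * ind (evl y L = c) := by
  rw [← pairing_V.parseval_sq]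
  refine Finset.sum_congr rfl fun L _ => ?_
  have h1 : ft bV (fun M : I → K l => avg fun φ : K l => f (M + tns y φ) * sgn (c ⬝ᵥ φ)) L =
      ft bV f L * ind (evl y L = c) := by
    unfold ft
    have e1 : ∀ M : I → K l, (avg fun φ : K l => f (M + tns y φ) * sgn (c ⬝ᵥ φ)) * sgn (bV L M) =
        avg fun φ : K l => (f (M + tns y φ) * sgn (bV L (M + tns y φ))) *
          sgn ((evl y L + c) ⬝ᵥ φ) := by
      intro M
      rw [← avg_mul_const]
      refine avg_congr fun φ => ?_
      rw [pairing_V.add_right, bV_tns', add_dotProduct, sgn_add, sgn_add]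
      have := sgn_mul_self (evl y L ⬝ᵥ φ)
      linear_combination (-(f (M + tns y φ) * sgn (c ⬝ᵥ φ) * sgn (bV L M))) * this
    simp only [e1]
    rw [avg_comm]
    have e2 : ∀ φ : K l, (avg fun M : I → K l => (f (M + tns y φ) * sgn (bV L (M + tns y φ))) *
        sgn ((evl y L + c) ⬝ᵥ φ)) = (avg fun M => f M * sgn (bV L M)) *
        sgn ((evl y L + c) ⬝ᵥ φ) := by
      intro φ
      rw [avg_mul_const]
      congr 1
      exact avg_add_right (tns y φ) fun M => f M * sgn (bV L M)
    simp only [e2]
    rw [avg_const_mul]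
    congr 1
    rw [pairing_K.avg_sgn]
    exact ind_congr K_add_eq_zero
  rw [h1, mul_pow, ind_sq]

/-- The table with signs. -/
noncomputable def gs (u : (I → K l) → ℝ) (G : (I → K l) → K l) (s : K l) (M : I → K l) : ℝ :=
  u M * sgn (s ⬝ᵥ G M)

/-- The agreement of a line with the label `(m, b)`. -/
noncomputable def pl (u : (I → K l) → ℝ) (G : (I → K l) → K l) (M : I → K l) (y : I → ZMod 2)
    (m : K l) (b : ZMod 2) : ℝ :=
  avg fun φ : K l => u (M + tns y φ) * ind (G (M + tns y φ) = m + b • φ)

lemma sum_pl_sq (u : (I → K l) → ℝ) (G : (I → K l) → K l) (y : I → ZMod 2) (b : ZMod 2) :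
    (avg fun M : I → K l => ∑ m, pl u G M y m b ^ 2) =
      avg fun s : K l => ∑ L, ft bV (gs u G s) L ^ 2 * ind (evl y L = b • s) := by
  have h1 : ∀ M : I → K l, ∑ m, pl u G M y m b ^ 2 =
      avg fun s : K l => (avg fun φ : K l => gs u G s (M + tns y φ) * sgn ((b • s) ⬝ᵥ φ)) ^ 2 := by
    intro M
    rw [← pairing_K.parseval_sq]
    refine Finset.sum_congr rfl fun m _ => ?_
    congr 1
    unfold ft pl
    have e1 : ∀ s : K l, (avg fun φ : K l => gs u G s (M + tns y φ) * sgn ((b • s) ⬝ᵥ φ)) *
        sgn (m ⬝ᵥ s) = avg fun φ : K l => u (M + tns y φ) *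
          sgn ((G (M + tns y φ) + (m + b • φ)) ⬝ᵥ s) := by
      intro s
      rw [← avg_mul_const]
      refine avg_congr fun φ => ?_
      unfold gs
      rw [add_dotProduct, add_dotProduct, sgn_add, sgn_add, dotProduct_comm s, smul_dotProduct,
        smul_dotProduct, dotProduct_comm φ s]
      ring
    simp only [e1]
    rw [avg_comm]
    refine avg_congr fun φ => ?_
    rw [avg_const_mul, pairing_K.avg_sgn]
    congr 1
    exact (ind_congr K_add_eq_zero).symm
  simp only [h1]
  rw [avg_comm]
  exact avg_congr fun s => line_avg (gs u G s) (b • s) y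

omit [DecidableEq I] in
lemma evl_single_add [DecidableEq I] (y : I → ZMod 2) (i : I) (L : I → K l) :
    evl (y + Pi.single i 1) L = evl y L + L i := by
  rw [evl_add_left]
  congr 1
  unfold evl
  rw [Finset.sum_eq_single i]
  · rw [Pi.single_eq_same, one_smul]
  · intro j _ hj
    rw [Pi.single_eq_of_ne hj, zero_smul]
  · intro h
    exact absurd (Finset.mem_univ i) h

/-- The probability that a combination of the entries of `L` lies in `{0, s}` is at most one half,
unless all the entries lie in `{0, s}`. -/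
lemma avg_ind_le_half {L : I → K l} {s : K l} (hs : s ≠ 0) (hL : ¬ ∃ t : I → ZMod 2, L = tns t s) :
    (avg fun y : I → ZMod 2 => ind (evl y L = 0) + ind (evl y L = s)) ≤ 1 / 2 := by
  have hex : ∃ i, L i ≠ 0 ∧ L i ≠ s := by
    by_contra hcon
    push Not at hcon
    apply hL
    refine ⟨fun i => if L i = 0 then 0 else 1, ?_⟩
    funext i
    show L i = (if L i = 0 then (0 : ZMod 2) else 1) • s
    by_cases h : L i = 0
    · rw [if_pos h, zero_smul, h]
    · rw [if_neg h, one_smul, hcon i h]
  obtain ⟨i, hi0, his⟩ := hex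
  set Φ : (I → ZMod 2) → ℝ := fun y => ind (evl y L = 0) + ind (evl y L = s) with hΦ
  have h1 := avg_add_right (Pi.single i 1 : I → ZMod 2) Φ
  have h2 : avg (fun y => Φ y + Φ (y + Pi.single i 1)) ≤ 1 := by
    refine avg_le_of_le zero_le_one fun y => ?_
    simp only [hΦ]
    rw [evl_single_add]
    have key : ∀ a c : K l, (a = 0 ∨ a = s) → (a + c = 0 ∨ a + c = s) → c = 0 ∨ c = s := by
      intro a c h h'
      rcases h with rfl | rfl
      · rwa [zero_add] at h'
      · rcases h' with h' | h'
        · right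
          exact (K_add_eq_zero.1 h').symm
        · left
          exact left_eq_add.1 h'.symm
    have h0s : ∀ a : K l, ind (a = 0) + ind (a = s) ≤ 1 := by
      intro a
      by_cases h0 : a = 0
      · rw [ind_true h0, ind_false (fun h => hs (by rw [← h, h0]))]
        norm_num
      · rw [ind_false h0]
        linarith [ind_le_one (a = s)]
    by_cases hA : evl y L = 0 ∨ evl y L = s
    · have hB : ¬ (evl y L + L i = 0 ∨ evl y L + L i = s) := by
        intro hB
        rcases key _ _ hA hB with h | h
        · exact hi0 h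
        · exact his h
      push Not at hB
      rw [ind_false hB.1, ind_false hB.2]
      linarith [h0s (evl y L)]
    · push Not at hA
      rw [ind_false hA.1, ind_false hA.2]
      linarith [h0s (evl y L + L i)]
  rw [avg_add, h1] at h2
  linarith

/-- The rank one weight. -/
noncomputable def omg (u : (I → K l) → ℝ) (G : (I → K l) → K l) : ℝ :=
  avg fun s : K l => if s = 0 then 0 else ∑ t : I → ZMod 2, ft bV (gs u G s) (tns t s) ^ 2

omit [Fintype I] [DecidableEq I] in
lemma gs_sq (u : (I → K l) → ℝ) (G : (I → K l) → K l) (s : K l) (M : I → K l) :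
    gs u G s M ^ 2 = u M ^ 2 := by
  unfold gs
  rw [mul_pow, sgn_sq, mul_one]

lemma sum_ft_gs (u : (I → K l) → ℝ) (G : (I → K l) → K l) (s : K l) :
    ∑ L, ft bV (gs u G s) L ^ 2 = avg fun M => u M ^ 2 := by
  rw [pairing_V.parseval_sq]
  exact avg_congr fun M => gs_sq u G s M

/-- **The two-point bound.** -/
theorem two_point (u : (I → K l) → ℝ) (G : (I → K l) → K l) :
    (avg fun y : I → ZMod 2 => avg fun M : I → K l => ∑ b, ∑ m, pl u G M y m b ^ 2) ≤
      (1 / 2 + 2 / 2 ^ l) * (avg fun M => u M ^ 2) + 1 / 2 * omg u G := by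
  classical
  set μ : ℝ := avg fun M => u M ^ 2 with hμ
  have hμ0 : 0 ≤ μ := avg_nonneg fun M => sq_nonneg _
  have h1 : (avg fun y : I → ZMod 2 => avg fun M : I → K l => ∑ b, ∑ m, pl u G M y m b ^ 2) =
      avg fun s : K l => ∑ L, ft bV (gs u G s) L ^ 2 *
        (avg fun y : I → ZMod 2 => ∑ b : ZMod 2, ind (evl y L = b • s)) := by
    have e1 : ∀ y : I → ZMod 2, (avg fun M : I → K l => ∑ b, ∑ m, pl u G M y m b ^ 2) =
        avg fun s : K l => ∑ L, ft bV (gs u G s) L ^ 2 *
          ∑ b : ZMod 2, ind (evl y L = b • s) := by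
      intro y
      rw [avg_sum]
      simp only [sum_pl_sq]
      rw [← avg_sum]
      refine avg_congr fun s => ?_
      rw [Finset.sum_comm]
      exact Finset.sum_congr rfl fun L _ => by rw [Finset.mul_sum]
    simp only [e1]
    rw [avg_comm]
    refine avg_congr fun s => ?_
    rw [avg_sum]
    exact Finset.sum_congr rfl fun L _ => by rw [avg_const_mul]
  rw [h1]
  have hb : ∀ (y : I → ZMod 2) (L : I → K l) (s : K l), ∑ b : ZMod 2, ind (evl y L = b • s) =
      ind (evl y L = 0) + ind (evl y L = s) := by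
    intro y L s
    have : (Finset.univ : Finset (ZMod 2)) = {0, 1} := by decide
    rw [this, Finset.sum_pair (by decide), zero_smul, one_smul]
  simp only [hb]
  have h2 : ∀ s : K l, ∑ L, ft bV (gs u G s) L ^ 2 *
      (avg fun y : I → ZMod 2 => ind (evl y L = 0) + ind (evl y L = s)) ≤
      (1 / 2 * μ + 1 / 2 * (if s = 0 then 0 else
        ∑ t : I → ZMod 2, ft bV (gs u G s) (tns t s) ^ 2)) + 2 * μ * ind (s = 0) := by
    intro s
    by_cases hs : s = 0
    · rw [if_pos hs, ind_true hs]
      have h3 : ∑ L, ft bV (gs u G s) L ^ 2 *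
          (avg fun y : I → ZMod 2 => ind (evl y L = 0) + ind (evl y L = s)) ≤
          ∑ L, ft bV (gs u G s) L ^ 2 * 2 := by
        refine Finset.sum_le_sum fun L _ => mul_le_mul_of_nonneg_left ?_ (sq_nonneg _)
        refine avg_le_of_le (by norm_num) fun y => ?_
        linarith [ind_le_one (evl y L = 0), ind_le_one (evl y L = s)]
      refine h3.trans ?_
      rw [← Finset.sum_mul, sum_ft_gs]
      linarith
    · rw [if_neg hs, ind_false hs]
      have h3 : ∑ L, ft bV (gs u G s) L ^ 2 *
          (avg fun y : I → ZMod 2 => ind (evl y L = 0) + ind (evl y L = s)) ≤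
          ∑ L, ft bV (gs u G s) L ^ 2 * (1 / 2 + 1 / 2 * ind (∃ t : I → ZMod 2, L = tns t s)) := by
        refine Finset.sum_le_sum fun L _ => mul_le_mul_of_nonneg_left ?_ (sq_nonneg _)
        by_cases hL : ∃ t : I → ZMod 2, L = tns t s
        · rw [ind_true hL]
          refine avg_le_of_le (by norm_num) fun y => ?_
          by_cases h0 : evl y L = 0
          · rw [ind_true h0, ind_false (fun h => hs (by rw [← h, h0]))]
            norm_num
          · rw [ind_false h0]
            linarith [ind_le_one (evl y L = s)]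
        · rw [ind_false hL]
          linarith [avg_ind_le_half hs hL]
      refine h3.trans ?_
      have h4 : ∑ L, ft bV (gs u G s) L ^ 2 *
          (1 / 2 + 1 / 2 * ind (∃ t : I → ZMod 2, L = tns t s)) = 1 / 2 * μ +
          1 / 2 * ∑ L, ft bV (gs u G s) L ^ 2 * ind (∃ t : I → ZMod 2, L = tns t s) := by
        rw [hμ, ← sum_ft_gs u G s, Finset.mul_sum, Finset.mul_sum, ← Finset.sum_add_distrib]
        exact Finset.sum_congr rfl fun L _ => by ring
      have h5 : ∑ L, ft bV (gs u G s) L ^ 2 * ind (∃ t : I → ZMod 2, L = tns t s) =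
          ∑ t : I → ZMod 2, ft bV (gs u G s) (tns t s) ^ 2 := by
        have e1 : ∀ L, ft bV (gs u G s) L ^ 2 * ind (∃ t : I → ZMod 2, L = tns t s) =
            if L ∈ (Finset.univ : Finset (I → ZMod 2)).image (fun t => tns t s) then
              ft bV (gs u G s) L ^ 2 else 0 := by
          intro L
          unfold ind
          have : (∃ t : I → ZMod 2, L = tns t s) ↔
              L ∈ (Finset.univ : Finset (I → ZMod 2)).image (fun t => tns t s) := by
            simp [eq_comm]
          by_cases h : ∃ t : I → ZMod 2, L = tns t s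
          · rw [if_pos h, if_pos (this.1 h), mul_one]
          · rw [if_neg h, if_neg (fun h' => h (this.2 h')), mul_zero]
        simp only [e1]
        rw [Finset.sum_ite_mem, Finset.univ_inter, Finset.sum_image]
        intro t _ t' _ h
        exact tns_injective hs h
      rw [h4, h5]
      linarith
  refine (avg_mono h2).trans ?_
  rw [avg_add, avg_add, avg_const, avg_const_mul, avg_const_mul, avg_K_eq]
  unfold omg
  refine le_of_eq ?_
  ring

/-- The squared average of a set over a line. -/
theorem line_sq_le (f : (I → K l) → ℝ) (hf : ∀ M, f M ^ 2 = f M) :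
    (avg fun y : I → ZMod 2 => avg fun M : I → K l => (avg fun φ : K l => f (M + tns y φ)) ^ 2) ≤
      1 / 2 * avg f + 1 / 2 * (avg f) ^ 2 := by
  classical
  have h1 : ∀ y : I → ZMod 2, (avg fun M : I → K l => (avg fun φ : K l => f (M + tns y φ)) ^ 2) =
      ∑ L, ft bV f L ^ 2 * ind (evl y L = 0) := by
    intro y
    rw [← line_avg f 0 y]
    refine avg_congr fun M => ?_
    congr 1
    refine avg_congr fun φ => ?_
    rw [zero_dotProduct, sgn_zero, mul_one]
  simp only [h1]
  rw [avg_sum]
  have h2 : ∀ L : I → K l, (avg fun y : I → ZMod 2 => ft bV f L ^ 2 * ind (evl y L = 0)) ≤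
      ft bV f L ^ 2 * (1 / 2 + 1 / 2 * ind (L = 0)) := by
    intro L
    rw [avg_const_mul]
    refine mul_le_mul_of_nonneg_left ?_ (sq_nonneg _)
    by_cases hL : L = 0
    · rw [ind_true hL]
      refine avg_le_of_le (by norm_num) fun y => ?_
      linarith [ind_le_one (evl y L = 0)]
    · rw [ind_false hL]
      obtain ⟨i, hi'⟩ := Function.ne_iff.1 hL
      have hi : L i ≠ 0 := hi'
      set Φ : (I → ZMod 2) → ℝ := fun y => ind (evl y L = 0) with hΦ
      have h3 := avg_add_right (Pi.single i 1 : I → ZMod 2) Φ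
      have h4 : avg (fun y => Φ y + Φ (y + Pi.single i 1)) ≤ 1 := by
        refine avg_le_of_le zero_le_one fun y => ?_
        simp only [hΦ]
        rw [evl_single_add]
        by_cases h0 : evl y L = 0
        · rw [h0, zero_add, ind_true rfl, ind_false hi]
          norm_num
        · rw [ind_false h0]
          linarith [ind_le_one (evl y L + L i = 0)]
      rw [avg_add, h3] at h4
      linarith
  refine (Finset.sum_le_sum fun L _ => h2 L).trans (le_of_eq ?_)
  have h3 : ∀ L : I → K l, ft bV f L ^ 2 * (1 / 2 + 1 / 2 * ind (L = 0)) =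
      1 / 2 * ft bV f L ^ 2 + (if L = 0 then 1 / 2 * ft bV f 0 ^ 2 else 0) := by
    intro L
    unfold ind
    split_ifs with h
    · rw [h]; ring
    · ring
  simp only [h3]
  rw [Finset.sum_add_distrib, ← Finset.mul_sum, pairing_V.parseval_sq, Finset.sum_ite_eq',
    if_pos (Finset.mem_univ _)]
  have h4 : ft bV f 0 = avg f := by
    unfold ft
    refine avg_congr fun M => ?_
    rw [pairing_V.zero_left, sgn_zero, mul_one]
  rw [h4, avg_congr hf]

end Vale.Agent.P339.H937
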